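import Vale.Agent.P073.GBM.Pattern

/-!
# P073, block GBM3: proof of `SpecPat`
-/

open Set Metric Topology Filter

namespace P073.GBM

open P073 P073.PR720 P073.GB73
open Vale.Agent.P073.St (V)
open Vale.Agent.P073.AB (pt edge squ EdgeOfSq)
open Vale.Agent.P073.SQ (ev)
open P073.Net (dyc)

variable {Vx B J I : Type} {e0 e1 : B → Vx} {inc : B → J → Prop} {qC : J → I → Prop} {Ω : Set V}
  {K : Cx3 e0 e1 inc qC Ω} {v : V} {n : ℕ} {U : Set V} {α β : Fin 3 → ℤ}

namespace Lat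

/-- the index of a crossed lattice edge -/
theorem exists_arc (L : Lat K v n U) (hαβ : ∀ k, α k < β k) (hU : frontier (hbox v n α β) ⊆ U)
    {w : Fin 3 → ℤ} {k : Fin 3} (h : CrossZ α β w k) : ∃ b, K.arc b = edge v ((n, w), k) :=
  L.arc' w k ⟨_, mid_mem_edge, hU (mid_mem_frontier (hαβ k) h)⟩

theorem mem_crossed (L : Lat K v n U) (hαβ : ∀ k, α k < β k)
    (hU : frontier (hbox v n α β) ⊆ U) (b : B) :
    b ∈ crossed K (hbox v n α β) ↔ ∃ z k, K.arc b = edge v ((n, z), k) ∧ CrossZ α β z k := by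
  constructor
  · rintro ⟨x, hx1, hx2⟩
    obtain ⟨z, k, h⟩ := L.arc b ⟨x, hx1, hU hx2⟩
    exact ⟨z, k, h, edge_inter_frontier ⟨x, h ▸ hx1, hx2⟩⟩
  · rintro ⟨z, k, h, hc⟩
    exact ⟨_, h ▸ mid_mem_edge, mid_mem_frontier (hαβ k) hc⟩

theorem mem_crossed_of (L : Lat K v n U) (hαβ : ∀ k, α k < β k)
    (hU : frontier (hbox v n α β) ⊆ U) {b : B} {z : Fin 3 → ℤ} {k : Fin 3}
    (hb : K.arc b = edge v ((n, z), k)) : b ∈ crossed K (hbox v n α β) ↔ CrossZ α β z k := by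
  rw [L.mem_crossed hαβ hU]
  constructor
  · rintro ⟨z', k', h, hc⟩
    obtain ⟨rfl, rfl⟩ := edge_inj (hb.symm.trans h)
    exact hc
  · intro h; exact ⟨z, k, hb, h⟩

/-- a tile with a crossed edge is a lattice square -/
theorem exists_squ (L : Lat K v n U) (hU : frontier (hbox v n α β) ⊆ U) {b : B} {j : J}
    (hb : b ∈ crossed K (hbox v n α β)) (hj : inc b j) :
    ∃ z l, K.tile j = squ v ((n, z), l) := by
  obtain ⟨x, hx1, hx2⟩ := hb
  exact L.tile j ⟨x, K.toCx2.arc_subset_tile hj hx1, hU hx2⟩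

theorem inc_iff_edgeOfSq {b : B} {j : J} {w z : Fin 3 → ℤ} {k l : Fin 3}
    (hb : K.arc b = edge v ((n, w), k)) (hj : K.tile j = squ v ((n, z), l)) :
    inc b j ↔ EdgeOfSq ((n, w), k) ((n, z), l) := by
  rw [inc_iff K, hb, hj, edge_subset_squ]

end Lat

theorem specPat : SpecPat := by
  intro Vx B J I e0 e1 inc qC Ω K v n U L α β hαβ hU
  refine ⟨?_, L.mem_crossed hαβ hU⟩
  constructor
  · -- finite
    have h1 : crossed K (hbox v n α β) ⊆ ⋃ e ∈ {e : (Fin 3 → ℤ) × Fin 3 | CrossZ α β e.1 e.2},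
        {b | K.arc b = edge v ((n, e.1), e.2)} := by
      intro b hb
      obtain ⟨z, k, h, hc⟩ := (L.mem_crossed hαβ hU b).1 hb
      exact mem_biUnion (show (z, k) ∈ {e : (Fin 3 → ℤ) × Fin 3 | CrossZ α β e.1 e.2} from hc) h
    refine ((finite_crossZ hαβ).biUnion fun e _ => ?_).subset h1
    apply Set.Subsingleton.finite
    intro b hb b' hb'
    exact arc_injective K (Eq.trans hb (Eq.symm hb'))
  · obtain ⟨b, hb⟩ := L.exists_arc hαβ hU (crossZ_top hαβ 0)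
    exact ⟨b, (L.mem_crossed hαβ hU b).2 ⟨β, 0, hb, crossZ_top hαβ 0⟩⟩
  · -- none or two
    intro j
    by_cases hne : {b | inc b j ∧ b ∈ crossed K (hbox v n α β)} = ∅
    · exact Or.inl hne
    right
    obtain ⟨b₀, hb₀j, hb₀⟩ := nonempty_iff_ne_empty.2 hne
    obtain ⟨z, l, hj⟩ := L.exists_squ hU hb₀ hb₀j
    have key : ∀ b, (inc b j ∧ b ∈ crossed K (hbox v n α β)) ↔
        ∃ e ∈ {e : (Fin 3 → ℤ) × Fin 3 | CrossZ α β e.1 e.2 ∧
          EdgeOfSq ((n, e.1), e.2) ((n, z), l)}, K.arc b = edge v ((n, e.1), e.2) := by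
      intro b
      constructor
      · rintro ⟨h1, h2⟩
        obtain ⟨w, k, h3, h4⟩ := (L.mem_crossed hαβ hU b).1 h2
        exact ⟨(w, k), ⟨h4, (Lat.inc_iff_edgeOfSq h3 hj).1 h1⟩, h3⟩
      · rintro ⟨⟨w, k⟩, ⟨h1, h2⟩, h3⟩
        exact ⟨(Lat.inc_iff_edgeOfSq h3 hj).2 h2, (L.mem_crossed hαβ hU b).2 ⟨w, k, h3, h1⟩⟩
    rcases two_crossed hαβ n z l with h | ⟨e, e', hee, h⟩
    · exfalso
      obtain ⟨e, he, -⟩ := (key b₀).1 ⟨hb₀j, hb₀⟩
      rw [h] at he
      exact he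
    · have he : e ∈ {e : (Fin 3 → ℤ) × Fin 3 | CrossZ α β e.1 e.2 ∧
          EdgeOfSq ((n, e.1), e.2) ((n, z), l)} := by rw [h]; exact Or.inl rfl
      have he' : e' ∈ {e : (Fin 3 → ℤ) × Fin 3 | CrossZ α β e.1 e.2 ∧
          EdgeOfSq ((n, e.1), e.2) ((n, z), l)} := by rw [h]; exact Or.inr rfl
      obtain ⟨b, hb⟩ := L.exists_arc hαβ hU he.1
      obtain ⟨b', hb'⟩ := L.exists_arc hαβ hU he'.1
      refine ⟨b, b', ?_, ?_⟩
      · rintro rfl
        obtain ⟨h1, h2⟩ := edge_inj (hb.symm.trans hb')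
        exact hee (Prod.ext h1 h2)
      · ext c
        rw [mem_ofPred_eq, key c, h]
        constructor
        · rintro ⟨e'', he'', hc⟩
          rcases he'' with rfl | he''
          · exact Or.inl (arc_injective K (hc.trans hb.symm))
          · rw [mem_singleton_iff] at he''
            subst he''
            exact Or.inr (arc_injective K (hc.trans hb'.symm))
        · rintro (rfl | hc)
          · exact ⟨e, Or.inl rfl, hb⟩
          · rw [mem_singleton_iff] at hc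
            subst hc
            exact ⟨e', Or.inr rfl, hb'⟩
  · -- connected
    intro b hb b' hb'
    obtain ⟨w, k, h1, h2⟩ := (L.mem_crossed hαβ hU b).1 hb
    obtain ⟨w', k', h1', h2'⟩ := (L.mem_crossed hαβ hU b').1 hb'
    have key : ∀ e', Relation.ReflTransGen (Adj α β) (w, k) e' → ∀ b',
        K.arc b' = edge v ((n, e'.1), e'.2) →
        Relation.ReflTransGen (fun b b' => b' ∈ crossed K (hbox v n α β) ∧
          ∃ j, inc b j ∧ inc b' j) b b' := by
      intro e' h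
      induction h with
      | refl =>
        intro b' hb'
        rw [arc_injective K (hb'.trans h1.symm)]
      | @tail e₁ e₂ _ hadj ih =>
        intro b₂ hb₂
        obtain ⟨c1, c2, m, z, l, g1, g2⟩ := hadj
        obtain ⟨b₁, hb₁⟩ := L.exists_arc hαβ hU c1
        have g1' : EdgeOfSq ((n, e₁.1), e₁.2) ((n, z), l) := ⟨rfl, g1.2⟩
        have g2' : EdgeOfSq ((n, e₂.1), e₂.2) ((n, z), l) := ⟨rfl, g2.2⟩
        have hmeet : (squ v ((n, z), l) ∩ U).Nonempty :=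
          ⟨_, edge_subset_squ.2 g1' mid_mem_edge, hU (mid_mem_frontier (hαβ e₁.2) c1)⟩
        obtain ⟨j, hj⟩ := L.tile' z l hmeet
        exact (ih b₁ hb₁).tail ⟨(L.mem_crossed hαβ hU b₂).2 ⟨e₂.1, e₂.2, hb₂, c2⟩, j,
          (Lat.inc_iff_edgeOfSq hb₁ hj).2 g1', (Lat.inc_iff_edgeOfSq hb₂ hj).2 g2'⟩
    exact key (w', k') (conn_all hαβ h2 h2') b' h1'

end P073.GBM
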