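import Vale.Agent.P073.GBM.CellSpec2
import Vale.Agent.P073.GBM.PatProof
import Vale.Agent.P073.GB1W.Cross

/-!
# P073, block SpecCell: `SpecLev` (levels of a box shaped body)
-/

open Set Metric Topology Filter MeasureTheory
open scoped ENNReal NNReal

namespace P073.Cell

open P073 P073.PR720 P073.GB73 P073.GBM P073.Gauge P073.GB1W
open Vale.Agent.P073.St (V)
open Vale.Agent.P073.AB
open Vale.Agent.P073.SQ (ev)
open P073.Net (dyc dyo)

namespace Lev

theorem pt_add_le {v : V} {N : ℕ} {z z' : Fin 3 → ℤ} {k : Fin 3} (h : z k < z' k) :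
    pt v N z k + 1 / 2 ^ N ≤ pt v N z' k := by
  have h1 : pt v N z k + 1 / 2 ^ N = v k + ((z k : ℝ) + 1) / 2 ^ N := pt_succ
  rw [h1]
  unfold pt
  have h2 : (0:ℝ) < 2 ^ N := by positivity
  rw [add_le_add_iff_left, div_le_div_iff_of_pos_right h2]
  exact_mod_cast h

/-- the numerical hypotheses on a body -/
structure Num (v : V) (N : ℕ) (q0 q1 : V) (μ s r w₀ : ℝ) (c w : V) (α β : Fin 3 → ℤ) : Prop where
  s0 : 0 < s
  sr : s < r
  mu0 : 0 ≤ μ
  w0 : 0 < w₀
  ab : ∀ k, α k < β k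
  wk : ∀ k, w₀ ≤ w k
  h1 : ∀ k, pt v N α k + μ ≤ c k - r * w k
  h2 : ∀ k, c k - s * w k + μ < pt v N α k + 1 / 2 ^ N
  h3 : ∀ k, pt v N β k + μ < c k + s * w k
  h4 : ∀ k, c k + r * w k + μ ≤ pt v N β k + 1 / 2 ^ N
  h5 : ∀ k, q0 k + 1 / 2 ^ N ≤ c k - r * w k ∧ c k + r * w k ≤ q1 k - 1 / 2 ^ N

variable {v : V} {N : ℕ} {q0 q1 : V} {μ s r w₀ : ℝ} {c w : V} {α β a : Fin 3 → ℤ} {k : Fin 3}

namespace Num

theorem wpos (H : Num v N q0 q1 μ s r w₀ c w α β) (k : Fin 3) : 0 < w k :=
  H.w0.trans_le (H.wk k)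

theorem sw (H : Num v N q0 q1 μ s r w₀ c w α β) (k : Fin 3) : s * w k < r * w k :=
  mul_lt_mul_of_pos_right H.sr (H.wpos k)

theorem sw0 (H : Num v N q0 q1 μ s r w₀ c w α β) (k : Fin 3) : 0 < s * w k :=
  mul_pos H.s0 (H.wpos k)

theorem q0_lt (H : Num v N q0 q1 μ s r w₀ c w α β) (k : Fin 3) : q0 k < pt v N α k := by
  have := H.h5 k
  have := H.h2 k
  have := H.sw k
  have := H.mu0
  linarith

theorem lt_q1 (H : Num v N q0 q1 μ s r w₀ c w α β) (k : Fin 3) :
    pt v N β k + 1 / 2 ^ N < q1 k := by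
  have := H.h5 k
  have := H.h3 k
  have := H.sw k
  have := H.mu0
  linarith

theorem frontier_sub (H : Num v N q0 q1 μ s r w₀ c w α β) :
    frontier (hbox v N α β) ⊆ interior (Icc q0 q1) := by
  have hpos : (0:ℝ) < 2 ^ N := by positivity
  have e0 : interior (Icc q0 q1) = {x | ∀ k, q0 k < x k ∧ x k < q1 k} := by
    have h1 : Icc q0 q1 = pi univ fun k => Icc (q0 k) (q1 k) := (pi_univ_Icc _ _).symm
    rw [h1, interior_pi_set finite_univ]
    ext x
    simp [interior_Icc]
  rw [e0]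
  intro x hx k
  have hx' := (mem_frontier_hbox.1 hx).1 k
  have a1 : pt v N α k ≤ hp v N α k := by
    unfold pt hp
    rw [add_le_add_iff_left, div_le_div_iff_of_pos_right hpos]
    linarith
  have a2 : hp v N β k ≤ pt v N β k + 1 / 2 ^ N := by
    rw [pt_succ]
    unfold hp
    rw [add_le_add_iff_left, div_le_div_iff_of_pos_right hpos]
    linarith
  exact ⟨(H.q0_lt k).trans_le (a1.trans hx'.1), (hx'.2.trans a2).trans_lt (H.lt_q1 k)⟩

/-- the crossed lattice edges are in the cell -/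
theorem edge_sub (H : Num v N q0 q1 μ s r w₀ c w α β) (ha : CrossZ α β a k) :
    edge v ((N, a), k) ⊆ Icc q0 q1 := by
  have hpos : (0:ℝ) < 1 / 2 ^ N := by positivity
  intro x hx
  rw [GBM.mem_edge] at hx
  have key : ∀ j, q0 j ≤ x j ∧ x j ≤ q1 j := by
    intro j
    by_cases hj : j = k
    · subst hj
      have b1 := H.q0_lt j
      have b2 := H.lt_q1 j
      have b3 : pt v N α j + 1 / 2 ^ N ≤ pt v N β j := pt_add_le (H.ab j)
      rcases ha.1 with h | h
      · have e1 : pt v N a j = pt v N α j := pt_inj.2 h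
        rw [e1] at hx
        exact ⟨by linarith [hx.2.1], by linarith [hx.2.2]⟩
      · have e1 : pt v N a j = pt v N β j := pt_inj.2 h
        rw [e1] at hx
        exact ⟨by linarith [hx.2.1], by linarith [hx.2.2]⟩
    · rw [hx.1 j hj]
      have b1 := H.q0_lt j
      have b2 := H.lt_q1 j
      have b3 : pt v N α j + 1 / 2 ^ N ≤ pt v N a j := pt_add_le (ha.2 j hj).1
      have b4 : pt v N a j ≤ pt v N β j := pt_le_pt.2 (ha.2 j hj).2
      exact ⟨by linarith, by linarith⟩
  exact ⟨fun j => (key j).1, fun j => (key j).2⟩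

/-- position of the uncrossed lattice edges -/
theorem off (H : Num v N q0 q1 μ s r w₀ c w α β) (ha : ¬ CrossZ α β a k) {x : V}
    (hx : x ∈ edge v ((N, a), k)) :
    (∀ j, |x j - c j| + μ ≤ s * w j) ∨ ∃ j, r * w j ≤ |x j - c j| - μ := by
  have hpos : (0:ℝ) < 1 / 2 ^ N := by positivity
  rw [GBM.mem_edge] at hx
  have low : ∀ j, x j ≤ pt v N α j → ∃ j, r * w j ≤ |x j - c j| - μ := by
    intro j hj
    refine ⟨j, ?_⟩
    have b1 := H.h1 j
    have b2 := neg_le_abs (x j - c j)
    linarith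
  have upp : ∀ j, pt v N β j + 1 / 2 ^ N ≤ x j → ∃ j, r * w j ≤ |x j - c j| - μ := by
    intro j hj
    refine ⟨j, ?_⟩
    have b1 := H.h4 j
    have b2 := le_abs_self (x j - c j)
    linarith
  have mid : ∀ j, pt v N α j + 1 / 2 ^ N ≤ x j → x j ≤ pt v N β j →
      |x j - c j| + μ ≤ s * w j := by
    intro j h1 h2
    have b1 := H.h2 j
    have b2 := H.h3 j
    have b3 : |x j - c j| ≤ s * w j - μ := by
      rw [abs_le]
      constructor <;> linarith
    linarith
  by_cases hj : ∀ j, j ≠ k → α j < a j ∧ a j ≤ β j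
  · have hk : ¬ (a k = α k ∨ a k = β k) := fun h => ha ⟨h, hj⟩
    push Not at hk
    rcases lt_or_gt_of_ne hk.1 with h1 | h1
    · right
      apply low k
      have b1 : pt v N a k + 1 / 2 ^ N ≤ pt v N α k := pt_add_le h1
      linarith [hx.2.2]
    · rcases lt_or_gt_of_ne hk.2 with h2 | h2
      · left
        intro j
        by_cases hjk : j = k
        · subst hjk
          have b1 : pt v N α j + 1 / 2 ^ N ≤ pt v N a j := pt_add_le h1
          have b2 : pt v N a j + 1 / 2 ^ N ≤ pt v N β j := pt_add_le h2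
          exact mid j (by linarith [hx.2.1]) (by linarith [hx.2.2])
        · rw [hx.1 j hjk]
          have b1 : pt v N α j + 1 / 2 ^ N ≤ pt v N a j := pt_add_le (hj j hjk).1
          have b2 : pt v N a j ≤ pt v N β j := pt_le_pt.2 (hj j hjk).2
          have := mid j (by rw [hx.1 j hjk]; exact b1) (by rw [hx.1 j hjk]; exact b2)
          rwa [hx.1 j hjk] at this
      · right
        apply upp k
        have b1 : pt v N β k + 1 / 2 ^ N ≤ pt v N a k := pt_add_le h2
        linarith [hx.2.1]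
  · push Not at hj
    obtain ⟨j, hjk, hj⟩ := hj
    right
    by_cases h1 : α j < a j
    · have h2 : β j < a j := hj h1
      apply upp j
      rw [hx.1 j hjk]
      exact pt_add_le h2
    · apply low j
      rw [hx.1 j hjk]
      exact pt_le_pt.2 (not_lt.1 h1)

end Num

variable {Vx B J I : Type} {e0 e1 : B → Vx} {inc : B → J → Prop} {qC : J → I → Prop} {Ω : Set V}
  {K : Cx3 e0 e1 inc qC Ω} {Λ : Set V} {h : V → V} {o : V} {A : V ≃L[ℝ] V} {η : ℝ}

theorem symm_sub (x : V) : A.symm (x - (o + A c)) = A.symm (x - o) - c := by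
  have : x - (o + A c) = (x - o) - A c := by abel
  rw [this, map_sub, A.symm_apply_apply]

/-- the sign of a crossed edge -/
noncomputable def sg (β a : Fin 3 → ℤ) (k : Fin 3) : ℝ := if a k = β k then 1 else -1

/-- the data of a crossed edge -/
theorem edgeData (hK : Near K Λ h v N q0 q1 o A μ η) (H : Num v N q0 q1 μ s r w₀ c w α β) {b : B}
    (hb : K.arc b = edge v ((N, a), k)) (ha : CrossZ α β a k) :
    EdgeData K.toGraph h (o + A c) c A w s r μ η k (sg β a k) b := by
  have hpos : (0:ℝ) < 1 / 2 ^ N := by positivity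
  have hy0 : K.toGraph.y (e0 b) = pt v N a := hK.y0 b a k hb
  have hy1 : K.toGraph.y (e1 b) = pt v N a + (1 / 2 ^ N : ℝ) • ev k := hK.y1 b a k hb
  have hy1k : K.toGraph.y (e1 b) k = pt v N a k + 1 / 2 ^ N := by
    rw [hy1]; simp [ev_same]
  refine
    { sgn := ?_
      seg := ?_
      dir := ?_
      lip := hK.lip b a k hb
      sup := ?_
      der := hK.der b a k hb (H.edge_sub ha)
      mid := ?_
      pos := ?_ }
  · unfold sg; split_ifs
    · exact Or.inl rfl
    · exact Or.inr rfl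
  · rw [hy0, hy1]; exact hb
  · intro j hj
    rw [hy0, hy1]
    simp [ev_of_ne hj]
  · intro x hx
    have hx' : x ∈ edge v ((N, a), k) := hb ▸ hx
    rw [symm_sub]
    have e1 : A.symm (h x - o) - c - (x - c) = A.symm (h x - o) - x := by abel
    rw [e1]
    exact hK.sup a k (H.edge_sub ha) x hx'
  · intro j hj
    rw [hy0]
    have b1 : pt v N α j + 1 / 2 ^ N ≤ pt v N a j := pt_add_le (ha.2 j hj).1
    have b2 : pt v N a j ≤ pt v N β j := pt_le_pt.2 (ha.2 j hj).2
    have b3 := H.h2 j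
    have b4 := H.h3 j
    have b5 : |pt v N a j - c j| < s * w j - μ := by
      rw [abs_lt]
      constructor <;> linarith
    linarith
  · have b0 : pt v N α k + 1 / 2 ^ N ≤ pt v N β k := pt_add_le (H.ab k)
    have b1 := H.h1 k
    have b2 := H.h2 k
    have b3 := H.h3 k
    have b4 := H.h4 k
    have b5 := H.sw0 k
    unfold sg InOut
    rw [hy1k, hy0]
    by_cases hβ : a k = β k
    · left
      rw [if_pos hβ]
      have e1 : pt v N a k = pt v N β k := pt_inj.2 hβ
      rw [e1]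
      refine ⟨?_, ?_, ?_⟩ <;> linarith
    · right
      rw [if_neg hβ]
      have e1 : pt v N a k = pt v N α k := pt_inj.2 (ha.1.resolve_right hβ)
      rw [e1]
      refine ⟨?_, ?_, ?_⟩ <;> linarith

/-- the crossed edges are few -/
theorem card_le {P : Finset B} {ca : B → Fin 3 → ℤ} {ck : B → Fin 3} (hab : ∀ k, α k < β k)
    (hP : ∀ b ∈ P, K.arc b = edge v ((N, ca b), ck b) ∧ CrossZ α β (ca b) (ck b)) :
    (P.card : ℝ) ≤ 3 * ∏ k, ((β k - α k + 1 : ℤ) : ℝ) := by
  classical
  have h1 : P.card ≤ (Finset.Icc α β ×ˢ (Finset.univ : Finset (Fin 3))).card := by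
    refine Finset.card_le_card_of_injOn (fun b => (ca b, ck b)) ?_ ?_
    · intro b hb
      obtain ⟨-, h2⟩ := hP b hb
      have h3 : ∀ j, α j ≤ ca b j ∧ ca b j ≤ β j := by
        intro j
        by_cases hj : j = ck b
        · subst hj
          rcases h2.1 with h | h
          · rw [h]; exact ⟨le_refl _, (hab _).le⟩
          · rw [h]; exact ⟨(hab _).le, le_refl _⟩
        · exact ⟨(h2.2 j hj).1.le, (h2.2 j hj).2⟩
      simp only [Finset.coe_product, Finset.coe_univ, Set.mem_prod, Finset.coe_Icc, mem_Icc,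
        mem_univ, and_true]
      exact ⟨fun j => (h3 j).1, fun j => (h3 j).2⟩
    · intro b hb b' hb' hbb
      have e1 : ca b = ca b' := congrArg Prod.fst hbb
      have e2 : ck b = ck b' := congrArg Prod.snd hbb
      apply arc_injective K
      rw [(hP b hb).1, (hP b' hb').1, e1, e2]
  have h2 : (Finset.Icc α β ×ˢ (Finset.univ : Finset (Fin 3))).card =
      (∏ k, (β k + 1 - α k).toNat) * 3 := by
    rw [Finset.card_product, Pi.card_Icc]
    simp
  rw [h2] at h1
  have h3 : (((∏ k, (β k + 1 - α k).toNat) * 3 : ℕ) : ℝ) =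
      3 * ∏ k, ((β k - α k + 1 : ℤ) : ℝ) := by
    rw [Nat.cast_mul, Nat.cast_prod, mul_comm]
    congr 1
    refine Finset.prod_congr rfl fun k _ => ?_
    have h4 : ((β k + 1 - α k).toNat : ℤ) = β k - α k + 1 := by
      have := hab k
      omega
    exact_mod_cast congrArg (fun z : ℤ => (z : ℝ)) h4
  rw [← h3]
  exact_mod_cast h1

end Lev

open Lev

/-- **(LEV)** -/
theorem specLev : SpecLev := by
  classical
  intro Vx B J I e0 e1 inc qC Ω K Λ h v N q0 q1 o A μ η hK c w α β s r w₀ hs hsr hw₀ hab hw h1 h2 h3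
    h4 h5 h6
  have H : Num v N q0 q1 μ s r w₀ c w α β := ⟨hs, hsr, hK.mu0, hw₀, hab, hw, h1, h2, h3, h4, h5⟩
  have hfr := H.frontier_sub
  obtain ⟨hpat, hcr⟩ := specPat Vx B J I e0 e1 inc qC Ω K v N (interior (Icc q0 q1)) hK.lat α β hab
    hfr
  -- indices
  have hchoose : ∀ b : B, ∃ ak : (Fin 3 → ℤ) × Fin 3, b ∈ crossed K (hbox v N α β) →
      K.arc b = edge v ((N, ak.1), ak.2) ∧ CrossZ α β ak.1 ak.2 := by
    intro b
    by_cases hb : b ∈ crossed K (hbox v N α β)
    · obtain ⟨z, k, h1, h2⟩ := (hcr b).1 hb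
      exact ⟨(z, k), fun _ => ⟨h1, h2⟩⟩
    · exact ⟨(0, 0), fun h => absurd h hb⟩
  choose ak hak using hchoose
  set P : Finset B := hpat.fin.toFinset with hP
  have hPm : ∀ b, b ∈ P ↔ b ∈ crossed K (hbox v N α β) := fun b => by
    rw [hP, Set.Finite.mem_toFinset]
  have hPc : (P : Set B) = crossed K (hbox v N α β) := by
    ext b; rw [Finset.mem_coe, hPm]
  have hdat : ∀ b ∈ P, EdgeData K.toGraph h (o + A c) c A w s r μ η (ak b).2
      (sg β (ak b).1 (ak b).2) b := fun b hb =>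
    edgeData hK H (hak b ((hPm b).1 hb)).1 (hak b ((hPm b).1 hb)).2
  have hsum : ∑ b ∈ P, (2 * (μ / w (ak b).2) + η / w (ak b).2) < r - s := by
    have hle : ∀ b ∈ P, 2 * (μ / w (ak b).2) + η / w (ak b).2 ≤ (2 * μ + η) / w₀ := by
      intro b _
      have e1 : 2 * (μ / w (ak b).2) + η / w (ak b).2 = (2 * μ + η) / w (ak b).2 := by ring
      rw [e1]
      have h7 : 0 ≤ 2 * μ + η := by linarith [hK.mu0, hK.eta0]
      exact div_le_div_of_nonneg_left h7 hw₀ (hw _)
    have hcard : (P.card : ℝ) ≤ 3 * ∏ k, ((β k - α k + 1 : ℤ) : ℝ) :=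
      card_le (K := K) (v := v) (N := N) (ca := fun b => (ak b).1) (ck := fun b => (ak b).2) hab
        fun b hb => hak b ((hPm b).1 hb)
    have h8 : 0 ≤ (2 * μ + η) / w₀ := by
      have : 0 ≤ 2 * μ + η := by linarith [hK.mu0, hK.eta0]
      positivity
    calc ∑ b ∈ P, (2 * (μ / w (ak b).2) + η / w (ak b).2) ≤ ∑ _b ∈ P, (2 * μ + η) / w₀ :=
          Finset.sum_le_sum hle
      _ = P.card * ((2 * μ + η) / w₀) := by rw [Finset.sum_const, nsmul_eq_mul]
      _ ≤ 3 * (∏ k, ((β k - α k + 1 : ℤ) : ℝ)) * ((2 * μ + η) / w₀) :=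
          mul_le_mul_of_nonneg_right hcard h8
      _ < r - s := h6
  have hoff : ∀ b ∉ P, ∀ x ∈ K.toGraph.arc b, ∀ t ∈ Ioo s r,
      h x ∉ frontier ((bBody (o + A c) A w ∅).at t) := by
    intro b hb x hx t ht
    have ht0 : 0 < t := hs.trans ht.1
    rcases hK.off b with ⟨a, k, hba, hsub⟩ | hfar
    · have hx' : x ∈ edge v ((N, a), k) := hba ▸ hx
      have hnc : ¬ CrossZ α β a k := fun hc => hb ((hPm b).2 ((hcr b).2 ⟨a, k, hba, hc⟩))
      refine notMem_frontier_of_close (μ := μ) (c := c) (x := x) H.wpos hs ht ?_ (H.off hnc hx')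
      rw [symm_sub]
      have e1 : A.symm (h x - o) - c - (x - c) = A.symm (h x - o) - x := by abel
      rw [e1]
      exact hK.sup a k hsub x hx'
    · intro hfr'
      refine hfar x hx fun k => ?_
      have h7 := ((mem_frontier_at ht0).1 hfr').1 k
      rw [symm_sub] at h7
      have h8 : t * w k < r * w k := mul_lt_mul_of_pos_right ht.2 (H.wpos k)
      have h9 := abs_le.1 h7
      rw [Pi.sub_apply] at h9
      have h10 := h5 k
      constructor <;> linarith [h9.1, h9.2]
  obtain ⟨T, hTs, hTc, y, hy1, hy2⟩ := exists_levels H.wpos hs hK.mu0 hK.eta0 P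
    (fun b => (ak b).2) (fun b => sg β (ak b).1 (ak b).2) hdat hsum hoff
  rw [hPc] at hy1
  refine ⟨T, hTs, ?_, hfr, hpat, y, hy1, ?_⟩
  · refine good_bBody H.wpos (fun t ht => hs.trans (hTs ht).1) hTc fun t ht z hz => ?_
    have ht0 : 0 < t := hs.trans (hTs ht).1
    have h7 := (mem_at ht0).1 hz
    have h8 : z = o + A (A.symm (z - o)) := by
      rw [A.apply_symm_apply]; abel
    rw [h8]
    refine hK.inside _ fun k => ?_
    have h9 := h7 k
    rw [symm_sub] at h9
    have h10 : t * w k < r * w k := mul_lt_mul_of_pos_right (hTs ht).2 (H.wpos k)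
    have h11 := abs_le.1 h9
    rw [Pi.sub_apply] at h11
    have h12 := h5 k
    constructor <;> linarith [h11.1, h11.2]
  · intro t ht b a k hba hc
    have hb : b ∈ P := (hPm b).2 ((hcr b).2 ⟨a, k, hba, hc⟩)
    obtain ⟨g1, g2, g3⟩ := hy2 t ht b hb
    have hb' := hak b ((hPm b).1 hb)
    obtain ⟨ea, ek⟩ := edge_inj (hb'.1.symm.trans hba)
    rw [symm_sub, ea, ek] at g2
    rw [ek] at g3
    refine ⟨g1, ?_, fun j hj => ?_⟩
    · rw [Pi.sub_apply] at g2
      unfold sg at g2
      split_ifs at g2 ⊢ with hβ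
      · linarith
      · linarith
    · have g4 := g3 j hj
      rw [symm_sub, Pi.sub_apply] at g4
      have e2 : K.toGraph.y (e0 b) = pt v N a := hK.y0 b a k hba
      rw [e2] at g4
      have e3 : A.symm (y t b - o) j - c j - (pt v N a j - c j) =
          A.symm (y t b - o) j - pt v N a j := by ring
      rwa [e3] at g4

end P073.Cell
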