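import Vale.Agent.P073.GBM.Mod580

/-!
# P073, block SpecCell, part MOD: the theorem `specMod`
-/

open Set Metric Topology Filter MeasureTheory
open scoped ENNReal NNReal

namespace P073.Cell

open P073 P073.PR720 P073.GB73 P073.GBM P073.Gauge P073.GB1W
open Vale.Agent.P073.St (V)
open Vale.Agent.P073.AB
open Vale.Agent.P073.SQ (ev)
open P073.Net (dyc dyo)

variable {Vx B J I : Type} {e0 e1 : B → Vx} {inc : B → J → Prop} {qC : J → I → Prop} {Ω : Set V}

/-- a crossed edge lies in the cell -/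
theorem crossed_sub {v : V} {n₂ k₁ k₀ : ℕ} {z a : Fin 3 → ℤ} {k : Fin 3} {q0 q1 : V}
    (hk₁ : 3 ≤ k₁) (hk₀ : 3 ≤ k₀)
    (hq : ∀ k, q0 k + 1 / 2 ^ (gN n₂ k₁ k₀) ≤ lo v n₂ k₁ k₀ z k ∧
      hi v n₂ k₁ k₀ z k ≤ q1 k - 1 / 2 ^ (gN n₂ k₁ k₀))
    (h : CrossZ (al k₁ k₀ z) (be k₁ k₀ z) a k) : edge v ((gN n₂ k₁ k₀, a), k) ⊆ Icc q0 q1 := by
  have hf := fm_pos n₂ k₁ k₀
  have h8 := two_pow_ge hk₀
  have h88 := pow_add_ge (k₀ := k₀) hk₁
  intro x hx
  rw [mem_edge] at hx
  obtain ⟨h1, h2, h3⟩ := hx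
  rw [div_fm, one_mul] at h3
  have key : ∀ j, q0 j ≤ x j ∧ x j ≤ q1 j := by
    intro j
    obtain ⟨ha, hb⟩ := hq j
    rw [div_fm, one_mul] at ha hb
    by_cases hj : j = k
    · subst hj
      rw [pt_app] at h2 h3
      rw [lo_app] at ha
      rw [hi_app] at hb
      rcases h.1 with e | e
      · rw [e, al_cast] at h2 h3
        constructor
        · nlinarith
        · nlinarith
      · rw [e, be_cast] at h2 h3
        constructor
        · nlinarith
        · nlinarith
    · have h4 := h.2 j hj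
      have h5 : lo v n₂ k₁ k₀ z j ≤ pt v (gN n₂ k₁ k₀) a j := hp_le_pt.2 h4.1
      have h6 : pt v (gN n₂ k₁ k₀) a j ≤ hi v n₂ k₁ k₀ z j := pt_le_hp.2 h4.2
      rw [h1 j hj]
      constructor <;> linarith
  exact ⟨fun j => (key j).1, fun j => (key j).2⟩

/-- **(MOD)** -/
theorem specMod : SpecMod := by
  classical
  intro Vx B J I e0 e1 inc qC Ω K Λ h v n₂ k₁ k₀ z q0 q1 o A μ η HN hk₁ hk₀ hμ hq T0 y0 p hT hy hp
  set N := gN n₂ k₁ k₀ with hN
  set c := bc v N (al k₁ k₀ z) (be k₁ k₀ z) with hc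
  set w := bw N (al k₁ k₀ z) (be k₁ k₀ z) with hw
  have hf := fm_pos n₂ k₁ k₀
  have h8 := two_pow_ge hk₀
  have h88 := pow_add_ge (k₀ := k₀) hk₁
  have hαβ := al_lt_be z hk₁ hk₀
  have hbox : hbox v N (al k₁ k₀ z) (be k₁ k₀ z) = Icc (lo v n₂ k₁ k₀ z) (hi v n₂ k₁ k₀ z) := rfl
  have hfr := frontier_sub hq
  have hpat := specPat Vx B J I e0 e1 inc qC Ω K v N _ HN.lat _ _ hαβ hfr
  have hlo : c - w = lo v n₂ k₁ k₀ z := bc_sub_bw v n₂ k₁ k₀ z
  have hhi : c + w = hi v n₂ k₁ k₀ z := bc_add_bw v n₂ k₁ k₀ z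
  have hwk : ∀ l, w l = (2 ^ (k₁ + k₀) / 2 - 2 ^ k₀ - 1 / 2) * fm n₂ k₁ k₀ :=
    fun l => bw_app n₂ k₁ k₀ z l
  have hμ' : μ ≤ 1 / 8 * fm n₂ k₁ k₀ := by rw [← div_fm]; exact hμ
  have hmg := mg_app n₂ k₁ k₀
  have hmg0 : 0 < mg n₂ k₁ k₀ := by rw [hmg]; exact mul_pos (by linarith) hf
  -- the body in the two notations
  have hbody : bigBody v N o A (al k₁ k₀ z) (be k₁ k₀ z) T0 = bBody (o + A c) A w T0 := rfl
  have htw : ∀ t ∈ T0, ∀ l, |t - 1| * w l ≤ 1 / 8 * fm n₂ k₁ k₀ := by
    intro t ht l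
    have h1 := (hT t ht).2 l
    rw [al_cast, be_cast] at h1
    rw [hwk]
    have h2 : |t - 1| * ((2 ^ (k₁ + k₀) / 2 - 2 ^ k₀ - 1 / 2) * fm n₂ k₁ k₀) =
        |t - 1| * ((z l + 1) * 2 ^ (k₁ + k₀) - 2 ^ k₀ - 1 - (z l * 2 ^ (k₁ + k₀) + 2 ^ k₀)) *
          (fm n₂ k₁ k₀ / 2) := by ring
    rw [h2]
    calc _ ≤ 1 / 4 * (fm n₂ k₁ k₀ / 2) := mul_le_mul_of_nonneg_right h1 (by positivity)
      _ = _ := by ring
  refine ⟨?_, ?_, ?_⟩
  · -- model maps
    set M0 : Set B := {b | ∃ a k, K.arc b = edge v ((N, a), k) ∧ Marked k₁ k₀ z a k} with hM0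
    have hM0f : M0.Finite := by
      refine hpat.1.fin.subset ?_
      rintro b ⟨a, k, h1, h2⟩
      exact (hpat.2 b).2 ⟨a, k, h1, h2.1⟩
    set M : Finset B := hM0f.toFinset with hM
    have hch : ∀ b : B, ∃ (a : Fin 3 → ℤ) (k : Fin 3), b ∈ M →
        K.arc b = edge v ((N, a), k) ∧ Marked k₁ k₀ z a k := by
      intro b
      by_cases hb : b ∈ M
      · obtain ⟨a, k, h1⟩ := hM0f.mem_toFinset.1 hb
        exact ⟨a, k, fun _ => h1⟩
      · exact ⟨0, 0, fun h => absurd h hb⟩
    choose fa fk hfk using hch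
    set σ : B → ℝ := fun b => if fa b (fk b) = be k₁ k₀ z (fk b) then 1 else -1 with hσ
    have hpb : ∀ b ∈ M, p b = pt v N (fa b) + (1 / 2 / 2 ^ N : ℝ) • ev (fk b) := fun b hb =>
      hp b (fa b) (fk b) (hfk b hb).1 (hfk b hb).2.1
    have hmarks : GB1.Marks M c w (mg n₂ k₁ k₀) p fk σ := by
      refine ⟨fun b _ => ?_, fun b hb => ?_, fun b hb j hj => ?_⟩
      · by_cases h1 : fa b (fk b) = be k₁ k₀ z (fk b)
        · left; simp only [hσ, if_pos h1]
        · right; simp only [hσ, if_neg h1]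
      · rw [hpb b hb]
        exact mark_face hk₁ hk₀ (hfk b hb).2.1
      · rw [hpb b hb, mid_apply_ne hj]
        have h1 := mark_mid (v := v) (n₂ := n₂) hj (hfk b hb).2
        rw [← hlo, ← hhi, Pi.sub_apply, Pi.add_apply] at h1
        rw [abs_le]
        constructor <;> linarith [h1.1, h1.2]
    have hex : ∀ t : T0, ∃ L : ConHomeo (Icc (c - w) (c + w)) ((bBody (o + A c) A w T0).at t),
        (∀ i ∈ M, L.toFun (p i) = y0 t i) ∧
        (∀ x, (∀ l, |x l - c l| ≤ w l - 1 / 2 * fm n₂ k₁ k₀) →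
          (∀ i ∈ M, mg n₂ k₁ k₀ / 2 ≤ ‖x - p i‖) → L.toFun x = o + A c + A (x - c)) ∧
        (∀ x ∈ Icc (c - w) (c + w), ‖A.symm (L.toFun x - (o + A c)) - (x - c)‖ ≤
          μ + 1 / 2 * fm n₂ k₁ k₀ / 4) ∧
        (∀ x y, ‖A.symm (L.toFun x - L.toFun y)‖ ≤ 9 / 4 * ‖x - y‖) := by
      intro t
      refine GB1.exists_model (m := mg n₂ k₁ k₀) (d := mg n₂ k₁ k₀ / 2)
        (δ := 1 / 2 * fm n₂ k₁ k₀) (μ := μ) (t := (t : ℝ)) hmarks (by linarith) (by linarith)
        HN.mu0 (by linarith) ?_ ?_ ?_ (hT t t.2).1 ?_ ?_ ?_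
      · rw [hmg]; nlinarith
      · rw [hmg]; nlinarith
      · intro l; rw [hwk]; nlinarith
      · intro l
        have := htw t t.2 l
        linarith
      · intro i hi j hj hij
        rw [hpb i hi, hpb j hj]
        have h1 := mark_sep (v := v) (n₂ := n₂) hk₁ hk₀ (hfk i hi).2 (hfk j hj).2 (by
          rintro ⟨e1, e2⟩
          apply hij
          apply arc_injective K
          rw [(hfk i hi).1, (hfk j hj).1, e1, e2])
        linarith
      · intro i hi
        obtain ⟨-, g2, g3⟩ := hy t t.2 i (fa i) (fk i) (hfk i hi).1 (hfk i hi).2.1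
        have hs : A.symm (y0 t i - (o + A c)) = A.symm (y0 t i - o) - c := by
          rw [← sub_sub, map_sub, ContinuousLinearEquiv.symm_apply_apply]
        rw [hs]
        refine ⟨?_, fun j hj => ?_⟩
        · rw [Pi.sub_apply, g2]
          simp only [hσ]
          split_ifs <;> ring
        · rw [Pi.sub_apply, hpb i hi, mid_apply_ne hj]
          have e1 : A.symm (y0 t i - o) j - c j - (pt v N (fa i) j - c j) =
            A.symm (y0 t i - o) j - pt v N (fa i) j := by ring
          rw [e1]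
          exact g3 j hj
    choose L hL1 hL2 hL3 hL4 using hex
    have hcast : Icc (c - w) (c + w) = Icc (lo v n₂ k₁ k₀ z) (hi v n₂ k₁ k₀ z) := by
      rw [hlo, hhi]
    refine ⟨fun t => (L t).cast hcast rfl, fun t => ⟨?_, ?_, ?_, ?_⟩⟩
    · intro b a k h1 h2
      have hb : b ∈ M := hM0f.mem_toFinset.2 ⟨a, k, h1, h2⟩
      exact (hL1 t b hb).symm
    · intro x hx
      show (L t).toFun x = o + A x
      have hx' : ∀ l, |x l - c l| ≤ w l - mg n₂ k₁ k₀ := by
        intro l
        have h1 := boxR_margin (k₀ := k₀) hx l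
        rw [← hlo, ← hhi, Pi.sub_apply, Pi.add_apply] at h1
        rw [abs_le]
        constructor <;> linarith [h1.1, h1.2]
      rw [hL2 t x, map_sub]
      · abel
      · intro l
        refine (hx' l).trans ?_
        rw [hmg]; nlinarith
      · intro i hi
        have h1 := hmarks.face i hi
        have h2 := hx' (fk i)
        have h3 : |x (fk i) - p i (fk i)| ≤ ‖x - p i‖ := norm_le_pi_norm (x - p i) (fk i)
        have hwp : 0 ≤ w (fk i) := by rw [hwk]; exact mul_nonneg (by linarith) hf.le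
        have h4 : |p i (fk i) - c (fk i)| = w (fk i) := by
          rw [h1, add_sub_cancel_left, abs_mul]
          rcases hmarks.sgn i hi with e | e
          · rw [e, abs_one, one_mul, abs_of_nonneg hwp]
          · rw [e, abs_neg, abs_one, one_mul, abs_of_nonneg hwp]
        have h5 : |p i (fk i) - c (fk i)| ≤ |x (fk i) - p i (fk i)| + |x (fk i) - c (fk i)| := by
          have e1 : p i (fk i) - c (fk i) = -(x (fk i) - p i (fk i)) + (x (fk i) - c (fk i)) := by
            ring
          rw [e1]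
          exact (abs_add_le _ _).trans (by rw [abs_neg])
        linarith
    · intro x hx
      show ‖A.symm ((L t).toFun x - o) - x‖ ≤ _
      have h1 := hL3 t x (hcast ▸ hx)
      have hs : A.symm ((L t).toFun x - (o + A c)) = A.symm ((L t).toFun x - o) - c := by
        rw [← sub_sub, map_sub, ContinuousLinearEquiv.symm_apply_apply]
      rw [hs] at h1
      have e1 : A.symm ((L t).toFun x - o) - c - (x - c) = A.symm ((L t).toFun x - o) - x := by abel
      rw [e1] at h1
      refine h1.trans (le_of_eq ?_)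
      rw [div_fm]; ring
    · exact hL4 t
  · -- reparametrisations
    have hex : ∀ (t : T0) (b : B), ∃ χ : ConHomeo (K.arc b) (K.arc b),
        χ.toFun (K.y (e0 b)) = K.y (e0 b) ∧ χ.toFun (K.y (e1 b)) = K.y (e1 b) ∧
        (b ∉ crossed K (Icc (lo v n₂ k₁ k₀ z) (hi v n₂ k₁ k₀ z)) →
          ∀ x ∈ K.arc b, χ.toFun x = x) ∧
        (b ∈ crossed K (Icc (lo v n₂ k₁ k₀ z) (hi v n₂ k₁ k₀ z)) → h (χ.toFun (p b)) = y0 t b) ∧
        ∀ a k, K.arc b = edge v ((N, a), k) → CrossZ (al k₁ k₀ z) (be k₁ k₀ z) a k →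
          ∃ r ∈ Icc (1 / 4 : ℝ) (3 / 4), ∀ s ∈ Icc (0:ℝ) 1,
          χ.toFun (pt v N a + s • ((1 / 2 ^ N : ℝ) • ev k)) =
            pt v N a + GB1.rep (1 / 2) r s • ((1 / 2 ^ N : ℝ) • ev k) := by
      intro t b
      by_cases hb : b ∈ crossed K (Icc (lo v n₂ k₁ k₀ z) (hi v n₂ k₁ k₀ z))
      · obtain ⟨a, k, hba, hcr⟩ := (hpat.2 b).1 hb
        obtain ⟨g1, g2, g3⟩ := hy t t.2 b a k hba hcr
        obtain ⟨x, hx, hxy⟩ := g1
        have hy0 := HN.y0 b a k hba
        have hy1 := HN.y1 b a k hba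
        set d : V := (1 / 2 ^ N : ℝ) • ev k with hd
        have hd0 : d ≠ 0 := by
          intro h0
          have := congrFun h0 k
          rw [hd, Pi.smul_apply, ev_same, smul_eq_mul, mul_one, Pi.zero_apply] at this
          exact absurd this (by positivity)
        have harc : K.arc b = segment ℝ (pt v N a) (pt v N a + d) := hba
        rw [harc, segment_eq_image'] at hx
        obtain ⟨r, hr, hxr⟩ := hx
        have hxr' : x = pt v N a + r • d := by
          rw [← hxr]; simp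
        -- position of the parameter
        have hxk : x k = v k + (a k + r) * fm n₂ k₁ k₀ := by
          rw [hxr', Pi.add_apply, pt_app, Pi.smul_apply, hd, Pi.smul_apply, ev_same,
            ← show (1 / 2 ^ N : ℝ) = fm n₂ k₁ k₀ from rfl]
          simp only [smul_eq_mul]
          ring
        have hsup := HN.sup a k (crossed_sub hk₁ hk₀ hq hcr) x (by
          rw [← hba, harc, segment_eq_image']; exact ⟨r, hr, hxr⟩)
        have hclose : |A.symm (h x - o) k - x k| ≤ μ := (norm_le_pi_norm _ k).trans hsup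
        rw [hxy, g2] at hclose
        have ht1 := htw t t.2 k
        have hwp : 0 ≤ w k := by rw [hwk]; exact mul_nonneg (by linarith) hf.le
        have hrr : |r - 1 / 2| * fm n₂ k₁ k₀ ≤ 1 / 4 * fm n₂ k₁ k₀ := by
          have hne := (hαβ k).ne
          have ht1' : |t.1 * w k - w k| ≤ 1 / 8 * fm n₂ k₁ k₀ := by
            have e1 : t.1 * w k - w k = (t.1 - 1) * w k := by ring
            rw [e1, abs_mul, abs_of_nonneg hwp]; exact ht1
          rw [← abs_of_pos hf, ← abs_mul, abs_of_pos hf]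
          have hck := bc_app v n₂ k₁ k₀ z k
          have hwk' := hwk k
          rcases hcr.1 with e | e
          · rw [if_neg (by rw [e]; exact hne)] at hclose
            have e2 : (r - 1 / 2) * fm n₂ k₁ k₀ = -(c k + -(t.1 * w k) - x k) - (t.1 * w k - w k) := by
              rw [hxk, e, al_cast, hwk', hc, hck]; ring
            rw [e2]
            refine (abs_sub _ _).trans ?_
            rw [abs_neg]
            linarith
          · rw [if_pos e] at hclose
            have e2 : (r - 1 / 2) * fm n₂ k₁ k₀ = -(c k + t.1 * w k - x k) + (t.1 * w k - w k) := by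
              rw [hxk, e, be_cast, hwk', hc, hck]; ring
            rw [e2]
            refine (abs_add_le _ _).trans ?_
            rw [abs_neg]
            linarith
        have hr4 := abs_le.1 (le_of_mul_le_mul_right hrr hf)
        have hr1 : r ∈ Icc (1 / 4 : ℝ) (3 / 4) := ⟨by linarith [hr4.1], by linarith [hr4.2]⟩
        have hPQ : pt v N a ≠ pt v N a + d := by
          intro h0; apply hd0; simpa using h0
        obtain ⟨χ, hχ⟩ := GB1.exists_chi hPQ (a := 1 / 2) (b := r) (by norm_num) (by norm_num)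
          (by linarith [hr1.1]) (by linarith [hr1.2])
        have hχ' : ∀ s ∈ Icc (0:ℝ) 1, χ.toFun (pt v N a + s • d) =
            pt v N a + GB1.rep (1 / 2) r s • d := by
          intro s hs
          have := hχ s hs
          simpa using this
        refine ⟨χ.cast harc.symm harc.symm, ?_, ?_, fun h0 => absurd hb h0, fun _ => ?_, ?_⟩
        · show χ.toFun _ = _
          have := hχ' 0 (by norm_num)
          rw [GB1.rep_zero (by norm_num), zero_smul, add_zero] at this
          rw [hy0]; exact this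
        · show χ.toFun _ = _
          have := hχ' 1 (by norm_num)
          rw [GB1.rep_one (by norm_num) (by norm_num), one_smul] at this
          rw [hy1]; exact this
        · show h (χ.toFun _) = _
          have h1 := hχ' (1 / 2) (by norm_num)
          rw [GB1.rep_self (by norm_num), ← hxr'] at h1
          have h2 : p b = pt v N a + (1 / 2 : ℝ) • d := by
            rw [hp b a k hba hcr, hd, smul_smul]
            congr 2
            ring
          rw [h2, h1, hxy]
        · intro a' k' h1 _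
          obtain ⟨rfl, rfl⟩ := edge_inj (h1.symm.trans hba)
          exact ⟨r, hr1, hχ'⟩
      · have hcs : ConicalSet (K.arc b) := (K.ball b).conicalSet
        refine ⟨ConHomeo.refl hcs, rfl, rfl, fun _ _ _ => rfl, fun h0 => absurd h0 hb, ?_⟩
        intro a k h1 h2
        exact absurd ((hpat.2 b).2 ⟨a, k, h1, h2⟩) hb
    choose χ h1 h2 h3 h4 h5 using hex
    exact ⟨χ, fun t => ⟨fun b => h1 t b, fun b => h2 t b, fun b hb => h3 t b hb,
      fun b hb => h4 t b hb, fun b a k hb hc => h5 t b a k hb hc⟩⟩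
  · intro b a k hb hm
    have h1 := hp b a k hb hm.1
    rw [h1]
    refine ⟨?_, fun j hj => ?_⟩
    · rw [mid_apply_self]
      rcases hm.1.1 with e | e
      · left; rw [e]; rfl
      · right; rw [e]; rfl
    · rw [mid_apply_ne hj]
      exact mark_mid hj hm

end P073.Cell
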