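import Vale.Agent.P073.GBM.CellSpec3
import Vale.Agent.P073.GBM.PatProof

/-!
# P073, block SpecCell: levels of the face bodies and of the big body; crossed faces
-/

open Set Metric Topology Filter MeasureTheory
open scoped ENNReal NNReal

namespace P073.Cell

open P073 P073.PR720 P073.GB73 P073.GBM P073.Gauge P073.GB1W
open Vale.Agent.P073.St (V)
open Vale.Agent.P073.AB
open Vale.Agent.P073.SQ (ev)
open P073.Net (dyc dyo)

variable {Vx B J I : Type} {e0 e1 : B → Vx} {inc : B → J → Prop} {qC : J → I → Prop} {Ω : Set V}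
  {K : Cx3 e0 e1 inc qC Ω} {Λ : Set V} {h : V → V} {v : V} {N : ℕ} {q0 q1 o : V} {A : V ≃L[ℝ] V}
  {μ η : ℝ}

/-- levels of a face body -/
theorem face_levels (hLev : SpecLev) (H : Near K Λ h v N q0 q1 o A μ η) (hμ : μ ≤ 1 / 8 / 2 ^ N)
    (hη : 450 * ((2 * μ + η) / (9 / 4 / 2 ^ N)) < 1 / 18) {w : Fin 3 → ℤ} {l : Fin 3}
    (hin : ∀ k, q0 k + 4 / 2 ^ N ≤ sc v N w l k ∧ sc v N w l k ≤ q1 k - 4 / 2 ^ N) :
    ∃ T : Set ℝ, T ⊆ Ioo (35 / 36) (37 / 36) ∧ (fBody v N o A w l T).Good Λ ∧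
      frontier (hbox v N (fa w l) (fb w)) ⊆ interior (Icc q0 q1) ∧
      Pat inc (crossed K (hbox v N (fa w l) (fb w))) ∧ ∃ y : ℝ → B → V,
      (∀ t ∈ T, Crosses K.toGraph h ((fBody v N o A w l T).at t)
        (crossed K (hbox v N (fa w l) (fb w))) (y t)) ∧
      PosY K h v N o A μ (sc v N w l) (fw N) (fa w l) (fb w) T y := by
  have hd : (0:ℝ) < (2 ^ N)⁻¹ := by positivity
  refine hLev Vx B J I e0 e1 inc qC Ω K Λ h v N q0 q1 o A μ η H (sc v N w l) (fw N) (fa w l) (fb w)
    (35 / 36) (37 / 36) (9 / 4 / 2 ^ N) (by norm_num) (by norm_num) (by positivity) ?_ ?_ ?_ ?_ ?_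
    ?_ ?_ ?_
  · intro k; unfold fa fb; split_ifs <;> linarith
  · intro k; exact le_rfl
  · intro k
    have hm := hμ
    unfold sc fa fw pt
    simp only [div_eq_mul_inv, ← mul_assoc] at hm ⊢
    split_ifs <;> push_cast <;> nlinarith
  · intro k
    have hm := hμ
    unfold sc fa fw pt
    simp only [div_eq_mul_inv, ← mul_assoc] at hm ⊢
    split_ifs <;> push_cast <;> nlinarith
  · intro k
    have hm := hμ
    unfold sc fb fw pt
    simp only [div_eq_mul_inv, ← mul_assoc] at hm ⊢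
    split_ifs <;> push_cast <;> nlinarith
  · intro k
    have hm := hμ
    unfold sc fb fw pt
    simp only [div_eq_mul_inv, ← mul_assoc] at hm ⊢
    split_ifs <;> push_cast <;> nlinarith
  · intro k
    have hk := hin k
    unfold fw
    simp only [div_eq_mul_inv, ← mul_assoc] at hk ⊢
    constructor <;> nlinarith [hk.1, hk.2]
  · have h1 : (3 * ∏ k, ((fb w k - fa w l k + 1 : ℤ) : ℝ)) ≤ 450 := by
      have h2 : ∀ k, ((fb w k - fa w l k + 1 : ℤ) : ℝ) = if k = l then 6 else 5 := by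
        intro k
        unfold fa fb
        split_ifs <;> push_cast <;> ring
      simp only [h2]
      rw [Fin.prod_univ_three]
      have h3 : l = 0 ∨ l = 1 ∨ l = 2 := by omega
      rcases h3 with rfl | rfl | rfl <;> simp <;> norm_num
    have h2 : 0 ≤ (2 * μ + η) / (9 / 4 / 2 ^ N) := by
      have := H.mu0
      have := H.eta0
      positivity
    calc (3 * ∏ k, ((fb w k - fa w l k + 1 : ℤ) : ℝ)) * ((2 * μ + η) / (9 / 4 / 2 ^ N))
        ≤ 450 * ((2 * μ + η) / (9 / 4 / 2 ^ N)) := mul_le_mul_of_nonneg_right h1 h2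
      _ < 1 / 18 := hη
      _ = _ := by norm_num

/-- levels of the big body -/
theorem big_levels (hLev : SpecLev) (H : Near K Λ h v N q0 q1 o A μ η) (hμ : μ ≤ 1 / 8 / 2 ^ N)
    {α β : Fin 3 → ℤ} {R : ℤ} (hR : 1 ≤ R) (hαβ : ∀ k, β k = α k + R)
    (hη : 3 * (R + 1) ^ 3 * ((2 * μ + η) / (R / 2 / 2 ^ N)) < 1 / (2 * R))
    (hin : ∀ k, q0 k + 2 / 2 ^ N ≤ hp v N α k ∧ hp v N β k ≤ q1 k - 2 / 2 ^ N) :
    ∃ T : Set ℝ, (∀ t ∈ T, 0 < t ∧ ∀ j, |t - 1| * (β j - α j) ≤ 1 / 4) ∧
      (bigBody v N o A α β T).Good Λ ∧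
      frontier (hbox v N α β) ⊆ interior (Icc q0 q1) ∧
      Pat inc (crossed K (hbox v N α β)) ∧ ∃ y : ℝ → B → V,
      (∀ t ∈ T, Crosses K.toGraph h ((bigBody v N o A α β T).at t)
        (crossed K (hbox v N α β)) (y t)) ∧
      PosY K h v N o A μ (bc v N α β) (bw N α β) α β T y := by
  have hd : (0:ℝ) < (2 ^ N)⁻¹ := by positivity
  have hR1 : (1:ℝ) ≤ R := by exact_mod_cast hR
  have hR0 : (0:ℝ) < R := by linarith
  set ε : ℝ := 1 / (4 * R) with hε
  have hεR : ε * R = 1 / 4 := by rw [hε]; field_simp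
  have hε0 : 0 < ε := by positivity
  have hε1 : ε ≤ 1 / 4 := by
    rw [hε]
    apply one_div_le_one_div_of_le (by norm_num)
    linarith
  obtain ⟨T, hT, h1, h2, h3, y, h4, h5⟩ := hLev Vx B J I e0 e1 inc qC Ω K Λ h v N q0 q1 o A μ η H
    (bc v N α β) (bw N α β) α β (1 - ε) (1 + ε) (R / 2 / 2 ^ N) (by linarith) (by linarith)
    (by positivity) (fun k => by rw [hαβ k]; linarith) (fun k => by
      unfold bw
      rw [hαβ k]
      push_cast
      rw [add_sub_cancel_left])
    (fun k => by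
      have hm := hμ
      unfold bc bw pt
      rw [hαβ k]
      push_cast
      simp only [div_eq_mul_inv, ← mul_assoc] at hm ⊢
      nlinarith [mul_pos hε0 hd])
    (fun k => by
      have hm := hμ
      unfold bc bw pt
      rw [hαβ k]
      push_cast
      simp only [div_eq_mul_inv, ← mul_assoc] at hm ⊢
      nlinarith [mul_pos hε0 hd])
    (fun k => by
      have hm := hμ
      unfold bc bw pt
      rw [hαβ k]
      push_cast
      simp only [div_eq_mul_inv, ← mul_assoc] at hm ⊢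
      nlinarith [mul_pos hε0 hd])
    (fun k => by
      have hm := hμ
      unfold bc bw pt
      rw [hαβ k]
      push_cast
      simp only [div_eq_mul_inv, ← mul_assoc] at hm ⊢
      nlinarith [mul_pos hε0 hd])
    (fun k => by
      have hk := hin k
      unfold hp at hk
      unfold bc bw
      rw [hαβ k] at hk ⊢
      push_cast at hk ⊢
      simp only [div_eq_mul_inv, ← mul_assoc] at hk ⊢
      constructor <;> nlinarith [hk.1, hk.2, mul_pos hε0 hd])
    (by
      have h1 : (∏ k, ((β k - α k + 1 : ℤ) : ℝ)) = (R + 1) ^ 3 := by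
        have : ∀ k, ((β k - α k + 1 : ℤ) : ℝ) = R + 1 := by
          intro k; rw [hαβ k]; push_cast; ring
        simp only [this]
        rw [Fin.prod_univ_three]
        ring
      rw [h1]
      refine hη.trans_le (le_of_eq ?_)
      rw [hε]
      field_simp
      ring)
  refine ⟨T, ?_, h1, h2, h3, y, h4, h5⟩
  intro t ht
  have ht' := hT ht
  refine ⟨by linarith [ht'.1], fun j => ?_⟩
  rw [hαβ j]
  push_cast
  rw [add_sub_cancel_left]
  have h6 : |t - 1| ≤ ε := by
    rw [abs_le]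
    constructor <;> linarith [ht'.1, ht'.2]
  calc |t - 1| * R ≤ ε * R := mul_le_mul_of_nonneg_right h6 hR0.le
    _ = 1 / 4 := hεR
    _ ≤ 1 / 4 := le_rfl

end P073.Cell
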