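import Vale.Agent.P073.Spec.Gauge

/-!
# P073, block GBM: unions of cubes of the partition are protected sets
-/

open Set Metric Topology Filter

namespace P073.GBM

open Vale.Agent.P073.St (V)
open Vale.Agent.P073.SQ (ev)
open Vale.Agent.P073.AB
open P073.GB73 (Cx3 Prot)
open P073.Net (dyc dyo)
open P073.Gauge (DyCx)

/-- two dyadic intervals with a common point are nested or touch -/
theorem dy_cases {m n : ℕ} (h : n ≤ m) {a b : ℤ} {x : ℝ} (hx1 : (a : ℝ) / 2 ^ m ≤ x)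
    (hx2 : x ≤ (a + 1) / 2 ^ m) (hy1 : (b : ℝ) / 2 ^ n ≤ x) (hy2 : x ≤ (b + 1) / 2 ^ n) :
    ((b : ℝ) / 2 ^ n ≤ a / 2 ^ m ∧ ((a : ℝ) + 1) / 2 ^ m ≤ (b + 1) / 2 ^ n) ∨
      ((a : ℝ) + 1) / 2 ^ m = b / 2 ^ n ∨ (a : ℝ) / 2 ^ m = (b + 1) / 2 ^ n := by
  obtain ⟨k, rfl⟩ := Nat.exists_eq_add_of_le h
  have hn : (0 : ℝ) < 2 ^ n := by positivity
  have hk : (0 : ℝ) < 2 ^ k := by positivity
  have e1 : ∀ c : ℝ, c / 2 ^ n = (c * 2 ^ k) / 2 ^ (n + k) := by
    intro c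
    rw [pow_add]
    field_simp
  have hnk : (0 : ℝ) < 2 ^ (n + k) := by positivity
  have f1 : (b : ℝ) * 2 ^ k ≤ a + 1 := by
    have := hy1.trans hx2
    rw [e1, div_le_div_iff_of_pos_right hnk] at this
    exact this
  have f2 : (a : ℝ) ≤ (b + 1) * 2 ^ k := by
    have := hx1.trans hy2
    rw [e1, div_le_div_iff_of_pos_right hnk] at this
    exact this
  have g1 : b * 2 ^ k ≤ a + 1 := by exact_mod_cast f1
  have g2 : a ≤ (b + 1) * 2 ^ k := by exact_mod_cast f2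
  rw [e1 b, e1 (b + 1)]
  simp only [div_le_div_iff_of_pos_right hnk, div_left_inj' hnk.ne']
  rcases lt_trichotomy a (b * 2 ^ k) with h1 | h1 | h1
  · right; left
    have : a + 1 = b * 2 ^ k := le_antisymm h1 g1
    exact_mod_cast this
  · by_cases h2 : a = (b + 1) * 2 ^ k
    · right; right
      exact_mod_cast h2
    · left
      have h3 : a + 1 ≤ (b + 1) * 2 ^ k := lt_of_le_of_ne g2 h2
      constructor
      · have : b * 2 ^ k ≤ a := h1.ge
        exact_mod_cast this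
      · exact_mod_cast h3
  · by_cases h2 : a = (b + 1) * 2 ^ k
    · right; right
      exact_mod_cast h2
    · left
      have h3 : a + 1 ≤ (b + 1) * 2 ^ k := lt_of_le_of_ne g2 h2
      constructor
      · have : b * 2 ^ k ≤ a := h1.le
        exact_mod_cast this
      · exact_mod_cast h3

/-- two dyadic intervals with a common point: the smaller one has an end point in the larger
one -/
theorem exists_end {m n : ℕ} (h : n ≤ m) {a b : ℤ} {x : ℝ} (hx1 : (a : ℝ) / 2 ^ m ≤ x)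
    (hx2 : x ≤ (a + 1) / 2 ^ m) (hy1 : (b : ℝ) / 2 ^ n ≤ x) (hy2 : x ≤ (b + 1) / 2 ^ n) :
    ∃ c : ℤ, (c = a ∨ c = a + 1) ∧ (b : ℝ) / 2 ^ n ≤ c / 2 ^ m ∧ (c : ℝ) / 2 ^ m ≤ (b + 1) / 2 ^ n := by
  have hm : (0 : ℝ) < 2 ^ m := by positivity
  have hn : (0 : ℝ) < 2 ^ n := by positivity
  have h1 : (a : ℝ) / 2 ^ m ≤ (a + 1) / 2 ^ m := by
    rw [div_le_div_iff_of_pos_right hm]; linarith
  have h2 : (b : ℝ) / 2 ^ n ≤ (b + 1) / 2 ^ n := by
    rw [div_le_div_iff_of_pos_right hn]; linarith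
  rcases dy_cases h hx1 hx2 hy1 hy2 with h3 | h3 | h3
  · exact ⟨a, Or.inl rfl, h3.1, h1.trans h3.2⟩
  · refine ⟨a + 1, Or.inr rfl, ?_, ?_⟩
    · push_cast; rw [h3]
    · push_cast; rw [h3]; exact h2
  · exact ⟨a, Or.inl rfl, by rw [h3]; exact h2, h3.le⟩

private theorem exists_third : ∀ k l : Fin 3, k ≠ l → ∃ d, d ≠ k ∧ d ≠ l ∧ ∀ j, j = k ∨ j = l ∨ j = d := by
  decide

theorem convex_dyc (v : V) (m : ℕ) (z : Fin 3 → ℤ) : Convex ℝ (dyc v m z) := by
  intro x hx y hy a b ha hb hab k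
  exact (convex_Icc (v k + z k / 2 ^ m) (v k + (z k + 1) / 2 ^ m)) (hx k) (hy k) ha hb hab

theorem isClosed_dyc (v : V) (m : ℕ) (z : Fin 3 → ℤ) : IsClosed (dyc v m z) := by
  have : dyc v m z = ⋂ k, {x : V | v k + z k / 2 ^ m ≤ x k ∧ x k ≤ v k + (z k + 1) / 2 ^ m} := by
    ext x; simp [dyc]
  rw [this]
  refine isClosed_iInter fun k => ?_
  exact (isClosed_le continuous_const (continuous_apply k)).inter
    (isClosed_le (continuous_apply k) continuous_const)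

theorem convex_squ (v : V) (s : Idx × Fin 3) : Convex ℝ (squ v s) := by
  intro x hx y hy a b ha hb hab
  refine ⟨?_, fun k hk => ?_⟩
  · have h1 := hx.1
    have h2 := hy.1
    simp only [Pi.add_apply, Pi.smul_apply, smul_eq_mul]
    rw [h1, h2, ← add_mul, hab, one_mul]
  · exact (convex_Icc (v k + s.1.2 k / 2 ^ s.1.1) (v k + (s.1.2 k + 1) / 2 ^ s.1.1))
      (hx.2 k hk) (hy.2 k hk) ha hb hab

/-- a point on the grid line is on the edge -/
private theorem mem_edge {v : V} {e : Idx × Fin 3} {x : V} (h1 : ∀ j, j ≠ e.2 → x j = v j + e.1.2 j / 2 ^ e.1.1)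
    (h2 : v e.2 + e.1.2 e.2 / 2 ^ e.1.1 ≤ x e.2)
    (h3 : x e.2 ≤ v e.2 + (e.1.2 e.2 + 1) / 2 ^ e.1.1) : x ∈ edge v e := by
  have hm : (0 : ℝ) < 2 ^ e.1.1 := by positivity
  unfold edge
  rw [segment_eq_image']
  refine ⟨(x e.2 - (v e.2 + e.1.2 e.2 / 2 ^ e.1.1)) * 2 ^ e.1.1, ⟨?_, ?_⟩, ?_⟩
  · exact mul_nonneg (by linarith) hm.le
  · have h4 : x e.2 - (v e.2 + e.1.2 e.2 / 2 ^ e.1.1) ≤ 1 / 2 ^ e.1.1 := by
      rw [add_div] at h3; linarith
    calc (x e.2 - (v e.2 + e.1.2 e.2 / 2 ^ e.1.1)) * 2 ^ e.1.1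
        ≤ (1 / 2 ^ e.1.1) * 2 ^ e.1.1 := mul_le_mul_of_nonneg_right h4 hm.le
      _ = 1 := by field_simp
  · funext j
    simp only [Pi.add_apply, Pi.sub_apply, Pi.smul_apply, smul_eq_mul, pt, ev]
    by_cases hj : j = e.2
    · subst hj
      rw [Pi.single_eq_same]
      field_simp
      ring
    · rw [Pi.single_eq_of_ne hj, h1 j hj]
      ring

/-- the edges are contained in the squares -/
private theorem edge_subset_squ {v : V} {s : Idx × Fin 3} {e : Idx × Fin 3} (hg : e.1.1 = s.1.1)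
    (hk : e.2 ≠ s.2) (h1 : e.1.2 s.2 = s.1.2 s.2)
    (h2 : ∀ j, j ≠ s.2 → j ≠ e.2 → e.1.2 j = s.1.2 j ∨ e.1.2 j = s.1.2 j + 1)
    (h3 : e.1.2 e.2 = s.1.2 e.2) : edge v e ⊆ squ v s := by
  have hm : (0 : ℝ) < 2 ^ s.1.1 := by positivity
  refine (convex_squ v s).segment_subset ?_ ?_
  · refine ⟨?_, fun j hj => ?_⟩
    · show v s.2 + e.1.2 s.2 / 2 ^ e.1.1 = _
      rw [h1, hg]
    · show v j + s.1.2 j / 2 ^ s.1.1 ≤ v j + e.1.2 j / 2 ^ e.1.1 ∧
        v j + e.1.2 j / 2 ^ e.1.1 ≤ v j + (s.1.2 j + 1) / 2 ^ s.1.1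
      rw [hg]
      have key : e.1.2 j = s.1.2 j ∨ e.1.2 j = s.1.2 j + 1 := by
        by_cases hje : j = e.2
        · subst hje; exact Or.inl h3
        · exact h2 j hj hje
      rcases key with h | h
      · rw [h]
        exact ⟨le_rfl, by gcongr; linarith⟩
      · rw [h]
        push_cast
        exact ⟨by gcongr; linarith, le_rfl⟩
  · refine ⟨?_, fun j hj => ?_⟩
    · simp only [Pi.add_apply, Pi.smul_apply, smul_eq_mul, pt, ev]
      rw [Pi.single_eq_of_ne hk.symm, h1, hg]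
      ring
    · simp only [Pi.add_apply, Pi.smul_apply, smul_eq_mul, pt, ev]
      by_cases hje : j = e.2
      · subst hje
        rw [Pi.single_eq_same, h3, hg]
        constructor
        · have : (0 : ℝ) ≤ 1 / 2 ^ s.1.1 * 1 := by positivity
          linarith
        · rw [add_div]; linarith
      · rw [Pi.single_eq_of_ne hje, hg]
        rcases h2 j hj hje with h | h
        · rw [h]
          have : (s.1.2 j : ℝ) / 2 ^ s.1.1 ≤ (s.1.2 j + 1) / 2 ^ s.1.1 := by gcongr; linarith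
          constructor <;> linarith
        · rw [h]
          push_cast
          have : (s.1.2 j : ℝ) / 2 ^ s.1.1 ≤ (s.1.2 j + 1) / 2 ^ s.1.1 := by gcongr; linarith
          constructor <;> linarith

variable {Ω : Set V} {v : V} {I : Set Idx}

/-- a relative boundary point of a tile is on its boundary curve -/
theorem mem_bd (D : DyCx Ω v I) (j : D.J) {x : V} (hx : x ∈ squ v (D.ψ j)) {l : Fin 3}
    (hl : l ≠ (D.ψ j).2)
    (hxl : x l = v l + (D.ψ j).1.2 l / 2 ^ (D.ψ j).1.1 ∨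
      x l = v l + ((D.ψ j).1.2 l + 1) / 2 ^ (D.ψ j).1.1) : x ∈ D.K.toCx2.bd j := by
  set s := D.ψ j with hs
  obtain ⟨d, hdk, hdl, hall⟩ := exists_third s.2 l hl.symm
  obtain ⟨⟨q₀, hq₀, hface⟩, -⟩ := D.minSq j
  rw [← hs] at hface
  obtain ⟨f1, f2, f3⟩ := hface
  obtain ⟨c, hc, hxc⟩ : ∃ c : ℤ, (c = s.1.2 l ∨ c = s.1.2 l + 1) ∧ x l = v l + c / 2 ^ s.1.1 := by
    rcases hxl with h | h
    · exact ⟨_, Or.inl rfl, h⟩
    · exact ⟨_, Or.inr rfl, by push_cast; exact h⟩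
  -- the edge
  let e : Idx × Fin 3 := ((s.1.1, Function.update s.1.2 l c), d)
  have he1 : ∀ i, i ≠ l → e.1.2 i = s.1.2 i := fun i hi => Function.update_of_ne hi _ _
  have he2 : e.1.2 l = c := Function.update_self _ _ _
  have hedge : EdgeOf e q₀ := by
    refine ⟨f1, ?_, fun i hi => ?_⟩
    · show e.1.2 d = q₀.2 d
      rw [he1 d hdl]
      exact f3 d hdk
    · rcases hall i with h | h | h
      · rw [h, he1 _ hl.symm]; exact f2
      · rw [h, he2, ← f3 l hl]; exact hc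
      · exact absurd h hi
  have hxe : x ∈ edge v e := by
    refine mem_edge (e := e) (fun i hi => ?_) ?_ ?_
    · rcases hall i with h | h | h
      · rw [h, he1 _ hl.symm]; exact hx.1
      · rw [h, he2]; exact hxc
      · exact absurd h hi
    · show v d + e.1.2 d / 2 ^ s.1.1 ≤ x d
      rw [he1 d hdl]
      exact (hx.2 d hdk).1
    · show x d ≤ v d + (e.1.2 d + 1) / 2 ^ s.1.1
      rw [he1 d hdl]
      exact (hx.2 d hdk).2
  have hesub : edge v e ⊆ squ v s := by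
    refine edge_subset_squ (s := s) (e := e) rfl hdk (he1 _ hl.symm) (fun i hi hi' => ?_)
      (he1 d hdl)
    rcases hall i with h | h | h
    · exact absurd h hi
    · rw [h, he2]; exact hc
    · exact absurd h hi'
  obtain ⟨S, hS⟩ := D.edges e ⟨q₀, hq₀, hedge⟩
  rw [hS] at hxe hesub
  obtain ⟨b, hb, hxb⟩ := mem_iUnion₂.1 hxe
  have hinc : D.inc b j := (D.inc_iff b j).2 ((subset_biUnion_of_mem
    (u := fun b => edge v (D.φ b)) hb).trans hesub)
  refine mem_iUnion₂.2 ⟨b, hinc, ?_⟩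
  rw [D.arc b]
  exact hxb

/-- a corner of a cube of the partition is on the net -/
theorem corner_mem (D : DyCx Ω v I) {q : Idx} (hq : q ∈ I) {c : Fin 3 → ℤ}
    (hc : ∀ j, c j = q.2 j ∨ c j = q.2 j + 1) : pt v q.1 c ∈ ⋃ b, D.K.arc b := by
  let e : Idx × Fin 3 := ((q.1, Function.update c 0 (q.2 0)), 0)
  have he1 : ∀ i, i ≠ 0 → e.1.2 i = c i := fun i hi => Function.update_of_ne hi _ _
  have he2 : e.1.2 0 = q.2 0 := by
    show Function.update c 0 (q.2 0) 0 = q.2 0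
    simp
  have hedge : EdgeOf e q := by
    refine ⟨rfl, he2, fun i hi => ?_⟩
    rw [he1 i hi]; exact hc i
  have hm : (0 : ℝ) < 2 ^ q.1 := by positivity
  have hxe : pt v q.1 c ∈ edge v e := by
    refine mem_edge (e := e) (fun i hi => ?_) ?_ ?_
    · rw [he1 i hi]; rfl
    · show v 0 + e.1.2 0 / 2 ^ q.1 ≤ v 0 + c 0 / 2 ^ q.1
      rw [he2]
      have h1 : (q.2 0 : ℝ) ≤ c 0 := by
        rcases hc 0 with h | h
        · rw [h]
        · rw [h]; push_cast; linarith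
      gcongr
    · show v 0 + c 0 / 2 ^ q.1 ≤ v 0 + (e.1.2 0 + 1) / 2 ^ q.1
      rw [he2]
      have h1 : (c 0 : ℝ) ≤ q.2 0 + 1 := by
        rcases hc 0 with h | h
        · rw [h]; linarith
        · rw [h]; push_cast; exact le_rfl
      gcongr
  obtain ⟨S, hS⟩ := D.edges e ⟨q, hq, hedge⟩
  rw [hS] at hxe
  obtain ⟨b, hb, hxb⟩ := mem_iUnion₂.1 hxe
  refine mem_iUnion.2 ⟨b, ?_⟩
  rw [D.arc b]
  exact hxb

/-- two cubes of the partition with a common point: the smaller one has a corner in the larger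
one -/
theorem exists_corner {q q' : Idx} (h : q'.1 ≤ q.1) {x : V} (hx : x ∈ dyc v q.1 q.2)
    (hx' : x ∈ dyc v q'.1 q'.2) : ∃ c : Fin 3 → ℤ, (∀ j, c j = q.2 j ∨ c j = q.2 j + 1) ∧
      pt v q.1 c ∈ dyc v q.1 q.2 ∩ dyc v q'.1 q'.2 := by
  have key : ∀ j, ∃ c : ℤ, (c = q.2 j ∨ c = q.2 j + 1) ∧ (q'.2 j : ℝ) / 2 ^ q'.1 ≤ c / 2 ^ q.1 ∧
      (c : ℝ) / 2 ^ q.1 ≤ (q'.2 j + 1) / 2 ^ q'.1 := by
    intro j
    obtain ⟨h1, h2⟩ := hx j
    obtain ⟨h3, h4⟩ := hx' j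
    exact exists_end h (x := x j - v j) (by linarith) (by linarith) (by linarith) (by linarith)
  choose c hc1 hc2 hc3 using key
  refine ⟨c, hc1, fun j => ?_, fun j => ?_⟩
  · show v j + q.2 j / 2 ^ q.1 ≤ v j + c j / 2 ^ q.1 ∧
      v j + c j / 2 ^ q.1 ≤ v j + (q.2 j + 1) / 2 ^ q.1
    rcases hc1 j with h | h
    · rw [h]; exact ⟨le_rfl, by gcongr; linarith⟩
    · rw [h]; push_cast; exact ⟨by gcongr; linarith, le_rfl⟩
  · show v j + q'.2 j / 2 ^ q'.1 ≤ v j + c j / 2 ^ q.1 ∧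
      v j + c j / 2 ^ q.1 ≤ v j + (q'.2 j + 1) / 2 ^ q'.1
    exact ⟨by linarith [hc2 j], by linarith [hc3 j]⟩

/-- a cube of the partition which meets a tile meets its boundary curve -/
theorem meets_bd (D : DyCx Ω v I) {q : Idx} (hq : q ∈ I) (j : D.J) {x : V}
    (hx : x ∈ dyc v q.1 q.2) (hxj : x ∈ squ v (D.ψ j)) :
    (dyc v q.1 q.2 ∩ squ v (D.ψ j) ∩ D.K.toCx2.bd j).Nonempty := by
  set s := D.ψ j with hs
  have hmin := D.minSq j
  rw [← hs] at hmin
  rcases le_or_gt q.1 s.1.1 with hg | hg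
  · -- the cube is larger: a corner of the square is in the cube
    have key : ∀ l, l ≠ s.2 → ∃ c : ℤ, (c = s.1.2 l ∨ c = s.1.2 l + 1) ∧
        (q.2 l : ℝ) / 2 ^ q.1 ≤ c / 2 ^ s.1.1 ∧ (c : ℝ) / 2 ^ s.1.1 ≤ (q.2 l + 1) / 2 ^ q.1 := by
      intro l hl
      obtain ⟨h1, h2⟩ := hxj.2 l hl
      obtain ⟨h3, h4⟩ := hx l
      exact exists_end hg (x := x l - v l) (by linarith) (by linarith) (by linarith) (by linarith)
    have key' : ∀ l, ∃ c : ℤ, (l = s.2 → c = s.1.2 l) ∧ (l ≠ s.2 → (c = s.1.2 l ∨ c = s.1.2 l + 1) ∧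
        (q.2 l : ℝ) / 2 ^ q.1 ≤ c / 2 ^ s.1.1 ∧ (c : ℝ) / 2 ^ s.1.1 ≤ (q.2 l + 1) / 2 ^ q.1) := by
      intro l
      by_cases hl : l = s.2
      · exact ⟨_, fun _ => rfl, fun h => absurd hl h⟩
      · obtain ⟨c, hc⟩ := key l hl
        exact ⟨c, fun h => absurd h hl, fun _ => hc⟩
    choose c hc1 hc2 using key'
    have hp : pt v s.1.1 c ∈ squ v s := by
      refine ⟨?_, fun l hl => ?_⟩
      · show v s.2 + c s.2 / 2 ^ s.1.1 = _
        rw [hc1 s.2 rfl]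
      · show v l + s.1.2 l / 2 ^ s.1.1 ≤ v l + c l / 2 ^ s.1.1 ∧
          v l + c l / 2 ^ s.1.1 ≤ v l + (s.1.2 l + 1) / 2 ^ s.1.1
        rcases (hc2 l hl).1 with h | h
        · rw [h]; exact ⟨le_rfl, by gcongr; linarith⟩
        · rw [h]; push_cast; exact ⟨by gcongr; linarith, le_rfl⟩
    obtain ⟨l, hl⟩ : ∃ l : Fin 3, l ≠ s.2 := exists_ne _
    refine ⟨pt v s.1.1 c, ⟨fun i => ?_, hp⟩, mem_bd D j hp hl ?_⟩
    · by_cases hi : i = s.2
      · have h1 : pt v s.1.1 c i = x i := by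
          rw [hi, hxj.1]
          show v s.2 + c s.2 / 2 ^ s.1.1 = _
          rw [hc1 s.2 rfl]
        rw [h1]; exact hx i
      · show v i + q.2 i / 2 ^ q.1 ≤ v i + c i / 2 ^ s.1.1 ∧
          v i + c i / 2 ^ s.1.1 ≤ v i + (q.2 i + 1) / 2 ^ q.1
        exact ⟨by linarith [(hc2 i hi).2.1], by linarith [(hc2 i hi).2.2]⟩
    · rcases (hc2 l hl).1 with h | h
      · left
        show v l + c l / 2 ^ s.1.1 = _
        rw [h]
      · right
        show v l + c l / 2 ^ s.1.1 = _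
        rw [h]; push_cast; rfl
  · -- the cube is smaller: it touches in some coordinate, otherwise the square is not minimal
    by_cases htouch : ∃ l, l ≠ s.2 ∧ (x l = v l + s.1.2 l / 2 ^ s.1.1 ∨
        x l = v l + (s.1.2 l + 1) / 2 ^ s.1.1)
    · obtain ⟨l, hl, hxl⟩ := htouch
      exact ⟨x, ⟨hx, hxj⟩, mem_bd D j hxj hl hxl⟩
    · exfalso
      push Not at htouch
      have hnest : ∀ l, l ≠ s.2 → (s.1.2 l : ℝ) / 2 ^ s.1.1 ≤ q.2 l / 2 ^ q.1 ∧
          ((q.2 l : ℝ) + 1) / 2 ^ q.1 ≤ (s.1.2 l + 1) / 2 ^ s.1.1 := by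
        intro l hl
        obtain ⟨h1, h2⟩ := hxj.2 l hl
        obtain ⟨h3, h4⟩ := hx l
        obtain ⟨h5, h6⟩ := htouch l hl
        rcases dy_cases hg.le (x := x l - v l) (a := q.2 l) (b := s.1.2 l) (by linarith)
          (by linarith) (by linarith) (by linarith) with h | h | h
        · exact h
        · exact absurd (by linarith) h5
        · exact absurd (by linarith) h6
      -- the plane of the square is a face plane of the cube
      obtain ⟨k, hk⟩ := Nat.exists_eq_add_of_lt hg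
      set N : ℤ := 2 ^ (k + 1) with hN
      have e1 : ∀ c : ℝ, c / 2 ^ s.1.1 = (c * N) / 2 ^ q.1 := by
        intro c
        have : q.1 = s.1.1 + (k + 1) := by omega
        rw [this, pow_add, hN]
        push_cast
        field_simp
      have hq1 : (0 : ℝ) < 2 ^ q.1 := by positivity
      obtain ⟨h3, h4⟩ := hx s.2
      rw [hxj.1, e1] at h3 h4
      have h5 : (q.2 s.2 : ℝ) ≤ s.1.2 s.2 * N := by
        have : (q.2 s.2 : ℝ) / 2 ^ q.1 ≤ (s.1.2 s.2 * N) / 2 ^ q.1 := by linarith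
        rwa [div_le_div_iff_of_pos_right hq1] at this
      have h6 : (s.1.2 s.2 * N : ℝ) ≤ q.2 s.2 + 1 := by
        have : (s.1.2 s.2 * N : ℝ) / 2 ^ q.1 ≤ (q.2 s.2 + 1) / 2 ^ q.1 := by linarith
        rwa [div_le_div_iff_of_pos_right hq1] at this
      have h5' : q.2 s.2 ≤ s.1.2 s.2 * N := by exact_mod_cast h5
      have h6' : s.1.2 s.2 * N ≤ q.2 s.2 + 1 := by exact_mod_cast h6
      have h7 : s.1.2 s.2 * N = q.2 s.2 ∨ s.1.2 s.2 * N = q.2 s.2 + 1 := by omega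
      let s' : Idx × Fin 3 := ((q.1, Function.update q.2 s.2 (s.1.2 s.2 * N)), s.2)
      have g1 : ∀ i, i ≠ s.2 → s'.1.2 i = q.2 i := fun i hi => Function.update_of_ne hi _ _
      have g2 : s'.1.2 s.2 = s.1.2 s.2 * N := Function.update_self _ _ _
      refine hmin.2 s' ⟨q, hq, rfl, ?_, fun i hi => g1 i hi⟩ hg rfl ?_
      · show s'.1.2 s.2 = q.2 s.2 ∨ s'.1.2 s.2 = q.2 s.2 + 1
        rw [g2]; exact h7
      · rintro y ⟨hy1, hy2⟩
        refine ⟨?_, fun i hi => ?_⟩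
        · have : y s.2 = v s.2 + s'.1.2 s.2 / 2 ^ q.1 := hy1
          rw [this, g2, e1]
          push_cast
          rfl
        · obtain ⟨h8, h9⟩ := hy2 i hi
          rw [g1 i hi] at h8 h9
          have h10 : v i + q.2 i / 2 ^ q.1 ≤ y i := h8
          have h11 : y i ≤ v i + (q.2 i + 1) / 2 ^ q.1 := h9
          obtain ⟨h12, h13⟩ := hnest i hi
          exact ⟨by linarith, by linarith⟩

/-- **(PROT)** a union of cubes of the partition is a protected set. -/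
theorem prot (hΩ : IsOpen Ω) (hI : Part Ω v I) (D : DyCx Ω v I) {I' : Set Idx} (hI' : I' ⊆ I) :
    Prot D.K (⋃ q ∈ I', dyc v q.1 q.2) where
  sub := iUnion₂_subset fun q hq => hI.sub q (hI' hq)
  closed := by
    intro x hx hcl
    obtain ⟨r, hr, hrΩ⟩ := Metric.nhds_basis_closedBall.mem_iff.1 (hΩ.mem_nhds hx)
    have hfin := hI.fin (closedBall x r) hrΩ (isCompact_closedBall x r)
    have h1 : x ∈ closure (⋃ q ∈ {q | q ∈ I' ∧ (dyc v q.1 q.2 ∩ closedBall x r).Nonempty},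
        dyc v q.1 q.2) := by
      rw [mem_closure_iff_nhds] at hcl ⊢
      intro t ht
      obtain ⟨y, ⟨hyt, hyb⟩, hy⟩ := hcl (t ∩ closedBall x r)
        (inter_mem ht (closedBall_mem_nhds x hr))
      obtain ⟨q, hq, hyq⟩ := mem_iUnion₂.1 hy
      exact ⟨y, hyt, mem_biUnion (show q ∈ {q | q ∈ I' ∧
        (dyc v q.1 q.2 ∩ closedBall x r).Nonempty} from ⟨hq, y, hyq, hyb⟩) hyq⟩
    have h2 : {q | q ∈ I' ∧ (dyc v q.1 q.2 ∩ closedBall x r).Nonempty}.Finite :=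
      hfin.subset fun q hq => ⟨hI' hq.1, hq.2⟩
    rw [(h2.isClosed_biUnion fun q _ => isClosed_dyc v q.1 q.2).closure_eq] at h1
    obtain ⟨q, hq, hxq⟩ := mem_iUnion₂.1 h1
    exact mem_biUnion hq.1 hxq
  tile := by
    rintro j z ⟨hz, hzj⟩
    obtain ⟨q, hq, hzq⟩ := mem_iUnion₂.1 hz
    rw [D.tile j] at hzj ⊢
    refine ⟨dyc v q.1 q.2 ∩ squ v (D.ψ j),
      ((convex_dyc v q.1 q.2).inter (convex_squ v _)).isPreconnected,
      inter_subset_inter_left _ (subset_biUnion_of_mem (u := fun q : Idx => dyc v q.1 q.2) hq),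
      ⟨hzq, hzj⟩, meets_bd D (hI' hq) j hzq hzj⟩
  cell := by
    rintro c z ⟨hz, hzc⟩
    obtain ⟨q, hq, hzq⟩ := mem_iUnion₂.1 hz
    rw [D.cell c] at hzc ⊢
    refine ⟨dyc v q.1 q.2 ∩ dyc v c.1.1 c.1.2,
      ((convex_dyc v q.1 q.2).inter (convex_dyc v _ _)).isPreconnected,
      inter_subset_inter_left _ (subset_biUnion_of_mem (u := fun q : Idx => dyc v q.1 q.2) hq),
      ⟨hzq, hzc⟩, ?_⟩
    rcases le_total q.1 c.1.1 with hle | hle
    · obtain ⟨k, hk, hk'⟩ := exists_corner hle hzc hzq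
      exact ⟨_, hk'.symm, corner_mem D c.2 hk⟩
    · obtain ⟨k, hk, hk'⟩ := exists_corner hle hzq hzc
      exact ⟨_, hk', corner_mem D (hI' hq) hk⟩

end P073.GBM
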