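import Vale.Agent.P073.GBM.CellSpec
import Vale.Agent.P073.GBM.Prot527

/-!
# P073, block GBM: `SpecZ`
-/

namespace P073.Cell

theorem specZ : SpecZ := fun _ _ _ _ D hΩ hI hI' => P073.GBM.prot hΩ hI D hI'

end P073.Cell
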