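import Vale.Agent.P073.GBM.CellMain
import Vale.Agent.P073.GBM.CellZ
import Vale.Agent.P073.GB932.Unc
import Vale.Agent.P073.Gauge.Cells110
import Vale.Agent.P073.Gauge.Cx673

/-!
# P073, block SpecCell: unconditional statements
-/

namespace P073.Cell

/-- **(CELL2)** -/
theorem specCell2 : Gauge.SpecCell2 := specCell2_of GB932.specGB_unc

/-- **(PROT)** -/
theorem specProt : Gauge.SpecProt := fun _ _ _ hΩ hI D _ hI' => GBM.prot hΩ hI D hI'

/-- **(CELL)** -/
theorem specCell : Gauge.SpecCell := Gauge.specCell_of Gauge.specCx specProt specCell2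

/-- **(CELLS)** -/
theorem specCells : Gauge.SpecCells := Gauge.specCells specCell

end P073.Cell
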