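import Vale.Agent.P073.GBM.Spec
import Vale.Agent.P073.PR.Faces

/-!
# P073, block GBM3: lattice cells and the half-integer box; uniqueness of indices in `Cx3`
-/

open Set Metric Topology Filter

namespace P073.GBM

open P073 P073.PR720 P073.GB73
open Vale.Agent.P073.St (V)
open Vale.Agent.P073.AB (pt edge squ EdgeOfSq)
open Vale.Agent.P073.SQ (ev)
open P073.Net (dyc)

/-! ### Lattice cells -/

section lattice

variable {v : V} {n : ℕ}

theorem two_pow_pos' (n : ℕ) : (0:ℝ) < 2 ^ n := by positivity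

theorem hp_le_pt {α z : Fin 3 → ℤ} {k : Fin 3} : hp v n α k ≤ pt v n z k ↔ α k < z k := by
  unfold hp pt
  rw [add_le_add_iff_left, div_le_div_iff_of_pos_right (two_pow_pos' n)]
  constructor
  · intro h
    have : (α k : ℝ) < z k := by linarith
    exact_mod_cast this
  · intro h
    have : (α k : ℝ) + 1 ≤ z k := by exact_mod_cast h
    linarith

theorem pt_le_hp {β z : Fin 3 → ℤ} {k : Fin 3} : pt v n z k ≤ hp v n β k ↔ z k ≤ β k := by
  unfold hp pt
  rw [add_le_add_iff_left, div_le_div_iff_of_pos_right (two_pow_pos' n)]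
  constructor
  · intro h
    have : (z k : ℝ) < β k + 1 := by linarith
    have : z k < β k + 1 := by exact_mod_cast this
    omega
  · intro h
    have : (z k : ℝ) ≤ β k := by exact_mod_cast h
    linarith

theorem pt_ne_hp {β z : Fin 3 → ℤ} {k : Fin 3} : pt v n z k ≠ hp v n β k := by
  intro h
  have h1 := pt_le_hp.1 h.le
  have h2 := hp_le_pt.1 h.ge
  omega

theorem hp_lt_hp {α β : Fin 3 → ℤ} {k : Fin 3} : hp v n α k < hp v n β k ↔ α k < β k := by
  unfold hp
  rw [add_lt_add_iff_left, div_lt_div_iff_of_pos_right (two_pow_pos' n)]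
  constructor
  · intro h
    have : (α k : ℝ) < β k := by linarith
    exact_mod_cast this
  · intro h
    have : (α k : ℝ) < β k := by exact_mod_cast h
    linarith

theorem ev_same (k : Fin 3) : ev k k = 1 := Pi.single_eq_same k 1

theorem ev_of_ne {j k : Fin 3} (h : j ≠ k) : ev k j = 0 := Pi.single_eq_of_ne h 1

theorem mem_edge {z : Fin 3 → ℤ} {k : Fin 3} {x : V} :
    x ∈ edge v ((n, z), k) ↔ (∀ j, j ≠ k → x j = pt v n z j) ∧
      pt v n z k ≤ x k ∧ x k ≤ pt v n z k + 1 / 2 ^ n := by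
  have hpos : (0:ℝ) < 1 / 2 ^ n := by positivity
  unfold edge
  rw [segment_eq_image']
  constructor
  · rintro ⟨t, ht, rfl⟩
    refine ⟨fun j hj => ?_, ?_, ?_⟩
    · simp [ev_of_ne hj]
    · simp only [add_sub_cancel_left, Pi.add_apply, Pi.smul_apply, smul_eq_mul, ev_same, mul_one]
      have := mul_nonneg ht.1 hpos.le
      linarith
    · simp only [add_sub_cancel_left, Pi.add_apply, Pi.smul_apply, smul_eq_mul, ev_same, mul_one]
      have := mul_le_mul_of_nonneg_right ht.2 hpos.le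
      linarith
  · rintro ⟨h1, h2, h3⟩
    refine ⟨(x k - pt v n z k) * 2 ^ n, ⟨?_, ?_⟩, ?_⟩
    · exact mul_nonneg (by linarith) (two_pow_pos' n).le
    · calc (x k - pt v n z k) * 2 ^ n ≤ (1 / 2 ^ n) * 2 ^ n :=
          mul_le_mul_of_nonneg_right (by linarith) (two_pow_pos' n).le
        _ = 1 := by field_simp
    · funext j
      by_cases hj : j = k
      · subst hj
        simp only [add_sub_cancel_left, Pi.add_apply, Pi.smul_apply, smul_eq_mul, ev_same, mul_one]
        field_simp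
        ring
      · simp only [add_sub_cancel_left, Pi.add_apply, Pi.smul_apply, smul_eq_mul, ev_of_ne hj,
          mul_zero, add_zero]
        exact (h1 j hj).symm

theorem pt_succ {z : Fin 3 → ℤ} {k : Fin 3} :
    pt v n z k + 1 / 2 ^ n = v k + ((z k : ℝ) + 1) / 2 ^ n := by
  unfold pt
  rw [add_assoc, ← add_div]

theorem mem_squ {z : Fin 3 → ℤ} {l : Fin 3} {x : V} :
    x ∈ squ v ((n, z), l) ↔ x l = pt v n z l ∧
      ∀ k, k ≠ l → pt v n z k ≤ x k ∧ x k ≤ pt v n z k + 1 / 2 ^ n := by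
  unfold squ
  simp only [mem_ofPred_eq, pt_succ]
  rfl

theorem pt_inj {z z' : Fin 3 → ℤ} {k : Fin 3} : pt v n z k = pt v n z' k ↔ z k = z' k := by
  unfold pt
  rw [add_right_inj, div_left_inj' (two_pow_pos' n).ne']
  exact Int.cast_inj

theorem pt_le_pt {z z' : Fin 3 → ℤ} {k : Fin 3} : pt v n z k ≤ pt v n z' k ↔ z k ≤ z' k := by
  unfold pt
  rw [add_le_add_iff_left, div_le_div_iff_of_pos_right (two_pow_pos' n)]
  exact Int.cast_le

theorem pt_le_pt_succ {z z' : Fin 3 → ℤ} {k : Fin 3} :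
    pt v n z k ≤ pt v n z' k + 1 / 2 ^ n ↔ z k ≤ z' k + 1 := by
  rw [pt_succ]
  unfold pt
  rw [add_le_add_iff_left, div_le_div_iff_of_pos_right (two_pow_pos' n)]
  exact_mod_cast Iff.rfl

theorem mid_mem_edge {z : Fin 3 → ℤ} {k : Fin 3} :
    pt v n z + (1 / 2 / 2 ^ n : ℝ) • ev k ∈ edge v ((n, z), k) := by
  rw [mem_edge]
  have : (0:ℝ) < 1 / 2 ^ n := by positivity
  have h2 : (1 / 2 / 2 ^ n : ℝ) = (1 / 2 ^ n) / 2 := by ring
  refine ⟨fun j hj => by simp [ev_of_ne hj], ?_, ?_⟩
  · simp only [Pi.add_apply, Pi.smul_apply, smul_eq_mul, ev_same, mul_one, h2]; linarith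
  · simp only [Pi.add_apply, Pi.smul_apply, smul_eq_mul, ev_same, mul_one, h2]; linarith

theorem left_mem_edge {z : Fin 3 → ℤ} {k : Fin 3} : pt v n z ∈ edge v ((n, z), k) :=
  left_mem_segment _ _ _

/-- the edges in a square -/
theorem edge_subset_squ {w z : Fin 3 → ℤ} {k l : Fin 3} :
    edge v ((n, w), k) ⊆ squ v ((n, z), l) ↔ EdgeOfSq ((n, w), k) ((n, z), l) := by
  have hpos : (0:ℝ) < 1 / 2 ^ n := by positivity
  constructor
  · intro h
    have h1 := mem_squ.1 (h left_mem_edge)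
    have h2 := mem_squ.1 (h (right_mem_segment ℝ _ _))
    have hkl : k ≠ l := by
      rintro rfl
      have := h2.1
      simp only [Pi.add_apply, Pi.smul_apply, smul_eq_mul, ev_same, mul_one] at this
      rw [h1.1] at this
      linarith
    have hk : w k = z k := by
      have a1 := (h1.2 k hkl).1
      have a2 := (h2.2 k hkl).2
      simp only [Pi.add_apply, Pi.smul_apply, smul_eq_mul, ev_same, mul_one] at a2
      have a3 : pt v n w k ≤ pt v n z k := by linarith
      exact le_antisymm (pt_le_pt.1 a3) (pt_le_pt.1 a1)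
    refine ⟨rfl, hkl, hk, pt_inj.1 h1.1, fun j hj1 hj2 => ?_⟩
    have a1 := pt_le_pt.1 (h1.2 j hj2).1
    have a2 := pt_le_pt_succ.1 (h1.2 j hj2).2
    simp only
    omega
  · rintro ⟨-, hkl, hk, hl, hm⟩ x hx
    simp only at hkl hk hl hm
    rw [mem_edge] at hx
    rw [mem_squ]
    refine ⟨?_, fun j hj => ?_⟩
    · rw [hx.1 l (Ne.symm hkl)]; exact pt_inj.2 hl
    · by_cases hjk : j = k
      · subst hjk
        rw [← pt_inj (v := v) (n := n)] at hk
        rw [← hk]; exact hx.2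
      · rw [hx.1 j hjk]
        rcases hm j hjk hj with h | h
        · rw [pt_inj.2 h]; exact ⟨le_refl _, by linarith⟩
        · constructor
          · rw [pt_le_pt, h]; omega
          · rw [pt_le_pt_succ, h]

theorem edge_inj {w z : Fin 3 → ℤ} {k l : Fin 3} (h : edge v ((n, w), k) = edge v ((n, z), l)) :
    w = z ∧ k = l := by
  have hpos : (0:ℝ) < 1 / 2 ^ n := by positivity
  have h1 := mem_edge.1 (h ▸ left_mem_edge : pt v n w ∈ edge v ((n, z), l))
  have h2 := mem_edge.1 (h ▸ (right_mem_segment ℝ _ _) :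
    pt v n w + (1 / 2 ^ n : ℝ) • ev k ∈ edge v ((n, z), l))
  have hkl : k = l := by
    by_contra hkl
    have a1 := h1.1 k hkl
    have a2 := h2.1 k hkl
    simp only [Pi.add_apply, Pi.smul_apply, smul_eq_mul, ev_same, mul_one] at a2
    linarith
  subst hkl
  refine ⟨?_, rfl⟩
  funext j
  by_cases hj : j = k
  · subst hj
    have a1 := h1.2.1
    have a2 := h2.2.2
    simp only [Pi.add_apply, Pi.smul_apply, smul_eq_mul, ev_same, mul_one] at a2
    have a3 : pt v n w j ≤ pt v n z j := by linarith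
    exact le_antisymm (pt_le_pt.1 a3) (pt_le_pt.1 a1)
  · exact pt_inj.1 (h1.1 j hj)

theorem mem_frontier_hbox {α β : Fin 3 → ℤ} {x : V} :
    x ∈ frontier (hbox v n α β) ↔ (∀ k, hp v n α k ≤ x k ∧ x k ≤ hp v n β k) ∧
      ∃ k, x k = hp v n α k ∨ x k = hp v n β k := by
  unfold hbox
  rw [frontier_Icc_pi']
  constructor
  · rintro ⟨h1, h2⟩
    refine ⟨h1, ?_⟩
    by_contra hne
    push Not at hne
    exact h2 fun k => ⟨lt_of_le_of_ne (h1 k).1 (Ne.symm (hne k).1),
      lt_of_le_of_ne (h1 k).2 (hne k).2⟩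
  · rintro ⟨h1, k, hk⟩
    refine ⟨h1, fun h2 => ?_⟩
    rcases hk with hk | hk
    · exact absurd hk (h2 k).1.ne'
    · exact absurd hk (h2 k).2.ne

/-- the edges which meet the boundary of the box -/
theorem edge_inter_frontier {α β z : Fin 3 → ℤ} {k : Fin 3} :
    (edge v ((n, z), k) ∩ frontier (hbox v n α β)).Nonempty → CrossZ α β z k := by
  rintro ⟨x, hx1, hx2⟩
  rw [mem_edge] at hx1
  rw [mem_frontier_hbox] at hx2
  have hj : ∀ j, j ≠ k → α j < z j ∧ z j ≤ β j := by
    intro j hj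
    have := hx2.1 j
    rw [hx1.1 j hj] at this
    exact ⟨hp_le_pt.1 this.1, pt_le_hp.1 this.2⟩
  refine ⟨?_, hj⟩
  obtain ⟨l, hl⟩ := hx2.2
  have hlk : l = k := by
    by_contra hlk
    rw [hx1.1 l hlk] at hl
    rcases hl with hl | hl
    · exact pt_ne_hp hl
    · exact pt_ne_hp hl
  subst hlk
  have key : ∀ γ : Fin 3 → ℤ, x l = hp v n γ l → z l = γ l := by
    intro γ hγ
    have h1 := hx1.2.1
    have h2 := hx1.2.2
    rw [hγ] at h1 h2
    have a1 := pt_le_hp.1 h1
    have a2 : (γ l : ℝ) + 1 / 2 ≤ z l + 1 := by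
      rw [pt_succ] at h2
      unfold hp at h2
      rwa [add_le_add_iff_left, div_le_div_iff_of_pos_right (two_pow_pos' n)] at h2
    have a3 : (γ l : ℝ) < z l + 1 := by linarith
    have a4 : γ l < z l + 1 := by exact_mod_cast a3
    omega
  rcases hl with hl | hl
  · exact Or.inl (key α hl)
  · exact Or.inr (key β hl)

theorem mid_apply_self {z : Fin 3 → ℤ} {k : Fin 3} :
    (pt v n z + (1 / 2 / 2 ^ n : ℝ) • ev k) k = v k + (z k + 1 / 2) / 2 ^ n := by
  simp only [Pi.add_apply, Pi.smul_apply, smul_eq_mul, ev_same, mul_one]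
  unfold pt; ring

theorem mid_apply_ne {z : Fin 3 → ℤ} {j k : Fin 3} (h : j ≠ k) :
    (pt v n z + (1 / 2 / 2 ^ n : ℝ) • ev k) j = pt v n z j := by
  simp [ev_of_ne h]

theorem mid_mem_frontier {α β z : Fin 3 → ℤ} {k : Fin 3} (hαβ : α k < β k)
    (h : CrossZ α β z k) : pt v n z + (1 / 2 / 2 ^ n : ℝ) • ev k ∈ frontier (hbox v n α β) := by
  rw [mem_frontier_hbox]
  refine ⟨fun j => ?_, ⟨k, ?_⟩⟩
  · by_cases hj : j = k
    · subst hj
      rw [mid_apply_self]
      rcases h.1 with h1 | h1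
      · have e : v j + ((z j : ℝ) + 1 / 2) / 2 ^ n = hp v n α j := by rw [h1]; rfl
        rw [e]; exact ⟨le_refl _, (hp_lt_hp.2 hαβ).le⟩
      · have e : v j + ((z j : ℝ) + 1 / 2) / 2 ^ n = hp v n β j := by rw [h1]; rfl
        rw [e]; exact ⟨(hp_lt_hp.2 hαβ).le, le_refl _⟩
    · rw [mid_apply_ne hj]
      exact ⟨hp_le_pt.2 (h.2 j hj).1, pt_le_hp.2 (h.2 j hj).2⟩
  · rw [mid_apply_self]
    rcases h.1 with h1 | h1
    · left; rw [h1]; rfl
    · right; rw [h1]; rfl

end lattice

/-! ### Indices of cells -/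

section indices

theorem ConBall.infinite_one {E : Type*} [NormedAddCommGroup E] [NormedSpace ℝ E] {C D : Set E}
    (h : ConBall 1 C D) : C.Infinite := by
  obtain ⟨-, φ, -⟩ := h
  intro hfin
  have h1 : (closedBall (0 : Fin 1 → ℝ) 1).Finite := by
    rw [← φ.image_eq]; exact hfin.image _
  have h2 : ((fun t : ℝ => (fun _ => t : Fin 1 → ℝ)) '' Icc (0:ℝ) 1).Finite := by
    apply h1.subset
    rintro _ ⟨t, ht, rfl⟩
    rw [mem_closedBall_zero_iff, pi_norm_le_iff_of_nonneg zero_le_one]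
    intro _
    rw [Real.norm_of_nonneg ht.1]; exact ht.2
  have h3 : (Icc (0:ℝ) 1).Finite := by
    apply h2.of_finite_image
    intro s _ t _ hst
    exact congrFun hst 0
  exact (Icc_infinite zero_lt_one) h3

theorem ConBall.not_subset {E : Type*} [NormedAddCommGroup E] [NormedSpace ℝ E] {m : ℕ}
    {C D : Set E} (h : ConBall m C D) : ¬ C ⊆ D := by
  obtain ⟨hDC, φ, hφ⟩ := h
  intro hCD
  have h0 : (0 : Fin m → ℝ) ∈ closedBall (0 : Fin m → ℝ) 1 := mem_closedBall_self zero_le_one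
  rw [← φ.image_eq] at h0
  obtain ⟨x, hx, h0⟩ := h0
  have h1 : φ.toFun x ∈ sphere (0 : Fin m → ℝ) 1 := by rw [← hφ]; exact ⟨x, hCD hx, rfl⟩
  rw [h0, mem_sphere_zero_iff_norm, norm_zero] at h1
  exact zero_ne_one h1

variable {Vx B J I : Type} {e0 e1 : B → Vx} {inc : B → J → Prop} {qC : J → I → Prop} {Ω : Set V}
  (K : Cx3 e0 e1 inc qC Ω)

include K

theorem arc_not_finite_cover (b : B) {S : Set V} (hS : S ⊆ range K.y) : ¬ K.arc b ⊆ S := by
  intro h
  apply ConBall.infinite_one (K.ball b)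
  apply (toFinite {K.y (e0 b), K.y (e1 b)}).subset
  intro x hx
  obtain ⟨w, rfl⟩ := hS (h hx)
  rcases K.mem b w hx with h1 | h1
  · rw [h1]; exact Or.inl rfl
  · rw [h1]; exact Or.inr rfl

theorem arc_injective : Function.Injective K.arc := by
  intro b b' h
  by_contra hne
  have := K.inter b b' hne
  rw [← h, inter_self] at this
  exact arc_not_finite_cover K b Subset.rfl this

theorem inc_iff (b : B) (j : J) : inc b j ↔ K.arc b ⊆ K.tile j := by
  refine ⟨fun h => K.toCx2.arc_subset_tile h, fun h => ?_⟩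
  by_contra hne
  apply arc_not_finite_cover K b Subset.rfl
  intro x hx
  have h1 := K.tile_arc j b ⟨h hx, hx⟩
  obtain ⟨b', hb', hx'⟩ := mem_iUnion₂.1 h1
  have hbb : b ≠ b' := by rintro rfl; exact hne hb'
  exact K.inter b b' hbb ⟨hx, hx'⟩

theorem tile_not_subset_arcs (j : J) : ¬ K.tile j ⊆ ⋃ b, K.arc b := by
  intro h
  apply ConBall.not_subset (K.tball j)
  intro x hx
  obtain ⟨b, hb⟩ := mem_iUnion.1 (h hx)
  exact K.tile_arc j b ⟨hx, hb⟩

theorem tile_injective : Function.Injective K.tile := by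
  intro j j' h
  by_contra hne
  have := K.tile_tile j j' hne
  rw [← h, inter_self] at this
  exact tile_not_subset_arcs K j this

theorem qC_iff (j : J) (c : I) : qC j c ↔ K.tile j ⊆ K.cell c := by
  constructor
  · intro h
    exact (subset_biUnion_of_mem (u := fun s => K.tile s) (show j ∈ {s | qC s c} from h)).trans
      (K.cball c).1
  · intro h
    by_contra hne
    apply tile_not_subset_arcs K j
    intro x hx
    have h1 := K.cell_tile c j ⟨h hx, hx⟩
    obtain ⟨j', hj', hx'⟩ := mem_iUnion₂.1 h1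
    have hjj : j ≠ j' := by rintro rfl; exact hne hj'
    exact K.tile_tile j j' hjj ⟨hx, hx'⟩

theorem cell_injective : Function.Injective K.cell := by
  intro c c' h
  by_contra hne
  have h1 := K.cell_cell c c' hne
  rw [← h, inter_self] at h1
  apply ConBall.not_subset (K.cball c)
  intro x hx
  obtain ⟨s, hs⟩ := mem_iUnion.1 (h1 hx)
  exact K.cell_tile c s ⟨hx, hs⟩

end indices

end P073.GBM
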