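import Vale.Agent.P073.GBM.CellSpec
import Vale.Agent.P073.GBM.Lattice
import Vale.Agent.P073.AB.Part86
import Vale.Agent.P073.AB.Graph907

/-!
# P073, block SpecCell: near a good cell the complex of the partition is the lattice
-/

open Set Metric Topology Filter MeasureTheory
open scoped ENNReal

namespace P073.Cell

open P073 P073.PR720 P073.GB73 P073.GBM P073.Gauge
open Vale.Agent.P073.St (V)
open Vale.Agent.P073.AB
open Vale.Agent.P073.SQ (ev)
open P073.Net (dyc dyo)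

variable {Ω : Set V} {v : V} {I : Set Idx} {n₂ N : ℕ} {z : Fin 3 → ℤ}

theorem exists_child {m : ℕ} {Z : Fin 3 → ℤ} {x : V} (hx : x ∈ dyc v m Z) :
    ∃ w, x ∈ dyc v (m + 1) w ∧ dyc v (m + 1) w ⊆ dyc v m Z := by
  classical
  set w : Fin 3 → ℤ := fun k =>
    if x k ≤ v k + (2 * Z k + 1) / 2 ^ (m + 1) then 2 * Z k else 2 * Z k + 1 with hw
  have h2 : (0:ℝ) < 2 ^ m := by positivity
  have e1 : ∀ a : ℝ, a / 2 ^ m = 2 * a / 2 ^ (m + 1) := by
    intro a; rw [pow_succ]; field_simp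
  refine ⟨w, fun k => ?_, ?_⟩
  · have h1 := hx k
    rw [e1, e1] at h1
    simp only [hw]
    split_ifs with h
    · push_cast
      exact ⟨h1.1, h⟩
    · push_cast
      refine ⟨(not_le.1 h).le, ?_⟩
      have : (2 * (Z k : ℝ) + 1 + 1) = 2 * (Z k + 1) := by ring
      rw [this]; exact h1.2
  · apply P073.Net.NC.dyc_sub
    intro k
    rw [e1, e1]
    simp only [hw]
    have h3 : (0:ℝ) < 2 ^ (m + 1) := by positivity
    split_ifs with h
    · push_cast
      refine ⟨le_refl _, ?_⟩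
      rw [div_le_div_iff_of_pos_right h3]; linarith
    · push_cast
      constructor
      · rw [div_le_div_iff_of_pos_right h3]; linarith
      · rw [div_le_div_iff_of_pos_right h3]; linarith

theorem exists_descendant {m : ℕ} (d : ℕ) {Z : Fin 3 → ℤ} {x : V} (hx : x ∈ dyc v m Z) :
    ∃ w, x ∈ dyc v (m + d) w ∧ dyc v (m + d) w ⊆ dyc v m Z := by
  induction d with
  | zero => exact ⟨Z, hx, Subset.rfl⟩
  | succ d ih =>
    obtain ⟨w, h1, h2⟩ := ih
    obtain ⟨w', h3, h4⟩ := exists_child h1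
    exact ⟨w', h3, h4.trans h2⟩

/-- the cubes of the partition which touch the cell have generation `N` -/
theorem gen_eq (hI : Part Ω v I)
    (hf : ∀ z', (dyc v N z' ∩ dyc v n₂ z).Nonempty → ((N, z') : Idx) ∈ I) {q : Idx} (hq : q ∈ I)
    {x : V} (hx : x ∈ dyc v q.1 q.2) (hxz : x ∈ dyc v n₂ z) : q.1 = N := by
  rcases le_total N q.1 with h | h
  · obtain ⟨Z, hZ⟩ := Gr.exists_ancestor' v h q.2
    have h1 := hf Z ⟨x, hZ hx, hxz⟩
    have h2 := P86.eq_of_sub hI hq h1 hZ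
    rw [h2]
  · obtain ⟨d, rfl⟩ := Nat.exists_eq_add_of_le h
    obtain ⟨w, h1, h2⟩ := exists_descendant d hx
    have h3 := hf w ⟨x, h1, hxz⟩
    have h4 := P86.eq_of_sub hI h3 hq h2
    exact (congrArg Prod.fst h4).symm

theorem gen_edge (hI : Part Ω v I)
    (hf : ∀ z', (dyc v N z' ∩ dyc v n₂ z).Nonempty → ((N, z') : Idx) ∈ I) {e : Idx × Fin 3}
    (he : ∃ q ∈ I, EdgeOf e q) {x : V} (hx : x ∈ edge v e) (hxz : x ∈ dyc v n₂ z) :
    e.1.1 = N := by
  obtain ⟨q, hq, heq⟩ := he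
  rw [heq.1]
  exact gen_eq hI hf hq (Gr.edge_subset_dyc heq hx) hxz

theorem squ_subset_dyc {s : Idx × Fin 3} {q : Idx} (h : FaceOf s q) :
    squ v s ⊆ dyc v q.1 q.2 := by
  rcases P86.faceOf_iff.1 h with rfl | rfl
  · exact P86.squ_sub_hi
  · exact P86.squ_sub_lo

theorem gen_squ (hI : Part Ω v I)
    (hf : ∀ z', (dyc v N z' ∩ dyc v n₂ z).Nonempty → ((N, z') : Idx) ∈ I) {s : Idx × Fin 3}
    (hs : MinSq v I s) {x : V} (hx : x ∈ squ v s) (hxz : x ∈ dyc v n₂ z) : s.1.1 = N := by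
  obtain ⟨q, hq, hf'⟩ := hs.1
  rw [hf'.1]
  exact gen_eq hI hf hq (squ_subset_dyc hf' hx) hxz

theorem edge_eq_of_subset {w z : Fin 3 → ℤ} {k l : Fin 3}
    (h : edge v ((N, w), k) ⊆ edge v ((N, z), l)) : w = z ∧ k = l := by
  have hpos : (0:ℝ) < 1 / 2 ^ N := by positivity
  have h1 := GBM.mem_edge.1 (h left_mem_edge)
  have h2 := GBM.mem_edge.1 (h (right_mem_segment ℝ _ _))
  have hkl : k = l := by
    by_contra hkl
    have a1 := h1.1 k hkl
    have a2 := h2.1 k hkl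
    simp only [Pi.add_apply, Pi.smul_apply, smul_eq_mul, ev_same, mul_one] at a2
    linarith
  subst hkl
  refine ⟨?_, rfl⟩
  funext j
  by_cases hj : j = k
  · subst hj
    have a1 := h1.2.1
    have a2 := h2.2.2
    simp only [Pi.add_apply, Pi.smul_apply, smul_eq_mul, ev_same, mul_one] at a2
    have a3 : pt v N w j ≤ pt v N z j := by linarith
    exact le_antisymm (pt_le_pt.1 a3) (pt_le_pt.1 a1)
  · exact pt_inj.1 (h1.1 j hj)

/-- the length of an edge determines its generation -/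
theorem gen_eq_of_edge_eq {e e' : Idx × Fin 3} (h : edge v e = edge v e') : e.1.1 = e'.1.1 := by
  have key : ∀ {e e' : Idx × Fin 3}, edge v e ⊆ edge v e' →
      (1:ℝ) / 2 ^ e.1.1 ≤ 1 / 2 ^ e'.1.1 := by
    intro e e' h
    have hpos : (0:ℝ) < 1 / 2 ^ e.1.1 := by positivity
    have hpos' : (0:ℝ) < 1 / 2 ^ e'.1.1 := by positivity
    have h1 := Gr.mem_edge.1 (h (left_mem_segment ℝ _ _))
    have h2 := Gr.mem_edge.1 (h (right_mem_segment ℝ _ _))
    have hk : e.2 = e'.2 := by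
      by_contra hk
      have a1 := h1.1 e.2 hk
      have a2 := h2.1 e.2 hk
      simp only [Pi.add_apply, Pi.smul_apply, smul_eq_mul, ev_same, mul_one] at a2
      linarith
    have a1 := h1.2.1
    have a2 := h2.2.2
    rw [← hk] at a1 a2
    simp only [Pi.add_apply, Pi.smul_apply, smul_eq_mul, ev_same, mul_one] at a2
    rw [add_div] at a2
    linarith
  have h1 := key h.subset
  have h2 := key h.symm.subset
  have h3 := le_antisymm h1 h2
  have h4 : (2:ℝ) ^ e.1.1 = 2 ^ e'.1.1 := by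
    have := congrArg (fun t : ℝ => 1 / t) h3
    simpa using this
  exact pow_right_injective₀ (by norm_num) (by norm_num) h4

theorem squ_eq_of_subset {w z : Fin 3 → ℤ} {k l : Fin 3}
    (h : squ v ((N, w), k) ⊆ squ v ((N, z), l)) : w = z ∧ k = l := by
  have hpos : (0:ℝ) < 1 / 2 ^ N := by positivity
  have h0 : pt v N w ∈ squ v ((N, w), k) := mem_squ.2 ⟨rfl, fun j _ => ⟨le_refl _, by linarith⟩⟩
  have h1 := mem_squ.1 (h h0)
  have hcor : ∀ j, j ≠ k → pt v N w + (1 / 2 ^ N : ℝ) • ev j ∈ squ v ((N, w), k) := by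
    intro j hj
    refine mem_squ.2 ⟨by simp [ev_of_ne (Ne.symm hj)], fun i _ => ?_⟩
    by_cases hi : i = j
    · subst hi
      simp only [Pi.add_apply, Pi.smul_apply, smul_eq_mul, ev_same, mul_one]
      exact ⟨by linarith, le_refl _⟩
    · simp only [Pi.add_apply, Pi.smul_apply, smul_eq_mul, ev_of_ne hi, mul_zero, add_zero]
      exact ⟨le_refl _, by linarith⟩
  have hkl : k = l := by
    by_contra hkl
    have h2 := mem_squ.1 (h (hcor l (Ne.symm hkl)))
    have a1 := h1.1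
    have a2 := h2.1
    simp only [Pi.add_apply, Pi.smul_apply, smul_eq_mul, ev_same, mul_one] at a2
    linarith
  subst hkl
  refine ⟨?_, rfl⟩
  funext j
  by_cases hj : j = k
  · subst hj; exact pt_inj.1 h1.1
  · have h2 := mem_squ.1 (h (hcor j hj))
    have a1 := (h1.2 j hj).1
    have a2 := (h2.2 j hj).2
    simp only [Pi.add_apply, Pi.smul_apply, smul_eq_mul, ev_same, mul_one] at a2
    have a3 : pt v N w j ≤ pt v N z j := by linarith
    exact le_antisymm (pt_le_pt.1 a3) (pt_le_pt.1 a1)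

theorem specLa : SpecLa := by
  intro Ω v I D n₂ N z hΩ hI hf
  have hgb : ∀ b, (edge v (D.φ b) ∩ dyc v n₂ z).Nonempty → (D.φ b).1.1 = N := by
    rintro b ⟨x, hx, hxz⟩
    exact gen_edge hI hf (D.edgeOf b) hx hxz
  refine ⟨⟨isOpen_interior, ?_, ?_, ?_, ?_, ?_, ?_, ?_⟩, hgb, ?_⟩
  · intro x hx
    have hx' := interior_subset hx
    obtain ⟨w, hw⟩ := P073.Net.NC.exists_mem v N x
    exact hI.sub _ (hf w ⟨x, hw, hx'⟩) hw
  · rintro b ⟨x, hx, hxU⟩
    rw [D.arc b] at hx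
    have h1 := hgb b ⟨x, hx, interior_subset hxU⟩
    refine ⟨(D.φ b).1.2, (D.φ b).2, ?_⟩
    rw [D.arc b, ← h1]
  · rintro w k ⟨x, hx, hxU⟩
    have hxz := interior_subset hxU
    have hE : EdgeOf ((N, w), k) (N, w) := ⟨rfl, rfl, fun _ _ => Or.inl rfl⟩
    have hw : ((N, w) : Idx) ∈ I := hf w ⟨x, Gr.edge_subset_dyc hE hx, hxz⟩
    obtain ⟨S, hS⟩ := D.edges _ ⟨_, hw, hE⟩
    have hx' := hx
    rw [hS] at hx'
    obtain ⟨b, hb, hxb⟩ := mem_iUnion₂.1 hx'
    refine ⟨b, ?_⟩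
    have h1 := hgb b ⟨x, hxb, hxz⟩
    have h2 : edge v (D.φ b) ⊆ edge v ((N, w), k) := by
      rw [hS]; exact subset_biUnion_of_mem (u := fun b => edge v (D.φ b)) hb
    have h3 : D.φ b = ((N, (D.φ b).1.2), (D.φ b).2) := by rw [← h1]
    rw [h3] at h2
    obtain ⟨h4, h5⟩ := edge_eq_of_subset h2
    rw [D.arc b, h3, h4, h5]
  · rintro j ⟨x, hx, hxU⟩
    rw [D.tile j] at hx
    have h1 := gen_squ hI hf (D.minSq j) hx (interior_subset hxU)
    refine ⟨(D.ψ j).1.2, (D.ψ j).2, ?_⟩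
    rw [D.tile j, ← h1]
  · rintro w l ⟨x, hx, hxU⟩
    have hxz := interior_subset hxU
    have hw : ((N, w) : Idx) ∈ I := hf w ⟨x, P86.squ_sub_hi (s := ((N, w), l)) hx, hxz⟩
    obtain ⟨s', hs', hxs', hsub⟩ := P86.cover_hi hΩ hI (s := ((N, w), l)) hx hw
    have h1 := gen_squ hI hf hs' hxs' hxz
    have h3 : s' = ((N, s'.1.2), s'.2) := by rw [← h1]
    obtain ⟨j, hj⟩ := D.allSq s' hs'
    refine ⟨j, ?_⟩
    rw [h3] at hsub
    obtain ⟨h4, h5⟩ := squ_eq_of_subset hsub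
    rw [D.tile j, hj, h3, h4, h5]
  · rintro c ⟨x, hx, hxU⟩
    rw [D.cell c] at hx
    have h1 := gen_eq hI hf c.2 hx (interior_subset hxU)
    exact ⟨c.1.2, by rw [D.cell c, h1]⟩
  · rintro w ⟨x, hx, hxU⟩
    have hw : ((N, w) : Idx) ∈ I := hf w ⟨x, hx, interior_subset hxU⟩
    exact ⟨⟨(N, w), hw⟩, D.cell _⟩
  · intro b w k hb
    rw [D.arc b] at hb
    have h1 := gen_eq_of_edge_eq hb
    have h3 : D.φ b = ((N, (D.φ b).1.2), (D.φ b).2) := by
      have : (D.φ b).1.1 = N := h1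
      rw [← this]
    rw [h3] at hb
    obtain ⟨h4, h5⟩ := edge_inj hb
    rw [h3, h4, h5]

end P073.Cell
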