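import Vale.Agent.P073.GBM.CellSpec
import Vale.Agent.P073.GBM.Rho225

/-!
# P073, block GBM3: `SpecU` (uniform collar)
-/

open Set Metric Topology Filter

namespace P073.Cell

open P073 P073.GB73 P073.GBM P073.GBM.Rho
open Vale.Agent.P073.St (V)
open Vale.Agent.P073.AB
open Vale.Agent.P073.SQ (ev)

theorem lo_eq (v : V) (n₂ k₁ k₀ : ℕ) (z : Fin 3 → ℤ) : lo v n₂ k₁ k₀ z = ra v n₂ k₁ k₀ z := by
  funext k
  show v k + ((al k₁ k₀ z k : ℤ) + 1 / 2 : ℝ) / 2 ^ (n₂ + k₁ + k₀) = _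
  simp only [ra, al]
  push_cast
  simp only [pow_add]
  field_simp
  ring

theorem hi_eq (v : V) (n₂ k₁ k₀ : ℕ) (z : Fin 3 → ℤ) : hi v n₂ k₁ k₀ z = rb v n₂ k₁ k₀ z := by
  funext k
  show v k + ((be k₁ k₀ z k : ℤ) + 1 / 2 : ℝ) / 2 ^ (n₂ + k₁ + k₀) = _
  simp only [rb, be]
  push_cast
  simp only [pow_add]
  field_simp
  ring

theorem mg_eq (n₂ k₁ k₀ : ℕ) : mg n₂ k₁ k₀ = rm n₂ k₁ k₀ := by
  simp only [mg, rm, gN]
  ring

theorem mid_apply (v : V) (N : ℕ) (w : Fin 3 → ℤ) (k j : Fin 3) :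
    mid v N w k j = v j + w j / 2 ^ N + (if j = k then 1 / 2 / 2 ^ N else 0) := by
  simp only [mid, Pi.add_apply, Pi.smul_apply, smul_eq_mul]
  have h1 : pt v N w j = v j + w j / 2 ^ N := rfl
  rw [h1]
  by_cases h : j = k
  · subst h
    simp [ev]
  · simp [ev, h]

theorem mpt_eq (v : V) (n₂ k₁ k₀ : ℕ) (z : Fin 3 → ℤ) : mpt v n₂ k₁ k₀ z = feet v n₂ k₁ k₀ z := by
  have hP : ∀ n : ℕ, (0:ℝ) < 2 ^ n := fun n => by positivity
  have e0 : ∀ t : ℝ, t / 2 ^ (n₂ + k₁ + k₀) * 2 ^ (n₂ + k₁ + k₀) = t := fun t => by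
    field_simp
  -- bounds in integer form
  have hlow : ∀ (j : Fin 3) (t : ℝ), (ra v n₂ k₁ k₀ z j + rm n₂ k₁ k₀ ≤
      v j + t / 2 ^ (n₂ + k₁ + k₀)) ↔ (z j * 2 ^ (k₁ + k₀) + 2 * 2 ^ k₀ : ℝ) ≤ t := by
    intro j t
    have e1 : ra v n₂ k₁ k₀ z j + rm n₂ k₁ k₀ =
        v j + (z j * 2 ^ (k₁ + k₀) + 2 * 2 ^ k₀ : ℝ) / 2 ^ (n₂ + k₁ + k₀) := by
      simp only [ra, rm, pow_add]; field_simp; ring
    rw [e1, add_le_add_iff_left, div_le_div_iff_of_pos_right (hP _)]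
  have hupp : ∀ (j : Fin 3) (t : ℝ), (v j + t / 2 ^ (n₂ + k₁ + k₀) ≤
      rb v n₂ k₁ k₀ z j - rm n₂ k₁ k₀) ↔ t ≤ ((z j + 1) * 2 ^ (k₁ + k₀) - 2 * 2 ^ k₀ : ℝ) := by
    intro j t
    have e1 : rb v n₂ k₁ k₀ z j - rm n₂ k₁ k₀ =
        v j + ((z j + 1) * 2 ^ (k₁ + k₀) - 2 * 2 ^ k₀ : ℝ) / 2 ^ (n₂ + k₁ + k₀) := by
      simp only [rb, rm, pow_add]; field_simp; ring
    rw [e1, add_le_add_iff_left, div_le_div_iff_of_pos_right (hP _)]
  have hra : ∀ k, ra v n₂ k₁ k₀ z k =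
      v k + (al k₁ k₀ z k : ℝ) / 2 ^ (n₂ + k₁ + k₀) + 1 / 2 / 2 ^ (n₂ + k₁ + k₀) := by
    intro k
    simp only [ra, al]; push_cast; simp only [pow_add]; field_simp; ring
  have hrb : ∀ k, rb v n₂ k₁ k₀ z k =
      v k + (be k₁ k₀ z k : ℝ) / 2 ^ (n₂ + k₁ + k₀) + 1 / 2 / 2 ^ (n₂ + k₁ + k₀) := by
    intro k
    simp only [rb, be]; push_cast; simp only [pow_add]; field_simp; ring
  ext x
  constructor
  · rintro ⟨w, k, ⟨⟨hk, hj⟩, hm⟩, rfl⟩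
    refine ⟨k, ?_, fun j hjk => ?_⟩
    · rw [hra, hrb, mid_apply, if_pos rfl]
      rcases hk with hk | hk
      · left; rw [hk]
      · right; rw [hk]
    · obtain ⟨⟨i, hi⟩, h1, h2⟩ := hm j hjk
      have e1 : mid v (gN n₂ k₁ k₀) w k j = v j + w j / 2 ^ (n₂ + k₁ + k₀) := by
        rw [mid_apply, if_neg hjk, add_zero]
      rw [e1, hlow, hupp]
      refine ⟨⟨i, ?_⟩, by exact_mod_cast h1, by exact_mod_cast h2⟩
      rw [hi]
      push_cast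
      simp only [pow_add]
      field_simp
  · rintro ⟨k, hk, hj⟩
    choose! i hi using fun j hjk => (hj j hjk).1
    set w : Fin 3 → ℤ := fun j => if j = k then (if x k = ra v n₂ k₁ k₀ z k then al k₁ k₀ z k
      else be k₁ k₀ z k) else 2 ^ k₀ * i j with hw
    have hwk : w k = al k₁ k₀ z k ∧ x k = ra v n₂ k₁ k₀ z k ∨
        w k = be k₁ k₀ z k ∧ x k = rb v n₂ k₁ k₀ z k := by
      by_cases h : x k = ra v n₂ k₁ k₀ z k
      · left; exact ⟨by simp only [hw, if_true, if_pos h], h⟩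
      · right
        exact ⟨by simp only [hw, if_true, if_neg h], hk.resolve_left h⟩
    have hwj : ∀ j, j ≠ k → w j = 2 ^ k₀ * i j ∧ x j = v j + w j / 2 ^ (n₂ + k₁ + k₀) := by
      intro j hjk
      have e1 : w j = 2 ^ k₀ * i j := by simp only [hw, if_neg hjk]
      refine ⟨e1, ?_⟩
      rw [hi j hjk, e1]
      push_cast
      simp only [pow_add]
      field_simp
    have hbd : ∀ j, j ≠ k → z j * 2 ^ (k₁ + k₀) + 2 * 2 ^ k₀ ≤ w j ∧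
        w j ≤ (z j + 1) * 2 ^ (k₁ + k₀) - 2 * 2 ^ k₀ := by
      intro j hjk
      obtain ⟨-, h1, h2⟩ := hj j hjk
      rw [(hwj j hjk).2, hlow] at h1
      rw [(hwj j hjk).2, hupp] at h2
      exact ⟨by exact_mod_cast h1, by exact_mod_cast h2⟩
    refine ⟨w, k, ⟨⟨?_, fun j hjk => ?_⟩, fun j hjk => ?_⟩, ?_⟩
    · rcases hwk with h | h
      · exact Or.inl h.1
      · exact Or.inr h.1
    · obtain ⟨h1, h2⟩ := hbd j hjk
      have h3 : (1:ℤ) ≤ 2 ^ k₀ := one_le_pow₀ (by norm_num)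
      simp only [al, be]
      constructor <;> linarith
    · obtain ⟨h1, h2⟩ := hbd j hjk
      exact ⟨⟨i j, (hwj j hjk).1⟩, h1, h2⟩
    · funext j
      rw [mid_apply]
      by_cases hjk : j = k
      · subst hjk
        rw [if_pos rfl]
        rcases hwk with ⟨h1, h2⟩ | ⟨h1, h2⟩
        · rw [h1, h2, hra]
        · rw [h1, h2, hrb]
      · rw [if_neg hjk, add_zero]
        exact (hwj j hjk).2

/-- **(U)** uniform collar -/
theorem specU : SpecU := by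
  intro hC k₁ hk₁
  obtain ⟨ρ₁, h0, H⟩ := uniform_rho hC k₁ hk₁
  refine ⟨ρ₁ * 2 ^ k₁, by positivity, fun v n₂ k₀ z hk₀ => ?_⟩
  rw [lo_eq, hi_eq, mg_eq, mpt_eq]
  have e : ρ₁ * 2 ^ k₁ / 2 ^ (n₂ + k₁) = ρ₁ / 2 ^ n₂ := by
    rw [pow_add]; field_simp
  rw [e]
  exact H n₂ k₀ v z hk₀

end P073.Cell
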