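import Vale.Agent.P073.GBM.Gap489b

/-!
# P073, block SpecCell, part (GAP) (helper489): theorem `specGap`
-/

open Set Metric Topology Filter MeasureTheory
open scoped ENNReal NNReal

namespace P073.Cell

open P073 P073.PR720 P073.GB73 P073.GBM P073.Gauge P073.GB1W
open Vale.Agent.P073.St (V)
open Vale.Agent.P073.AB
open Vale.Agent.P073.SQ (ev)
open P073.Net (dyc dyo)

namespace Gap

variable {Vx B J I : Type} {e0 e1 : B → Vx} {inc : B → J → Prop} {qC : J → I → Prop} {Ω : Set V}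

theorem isOpen_dyo' (v : V) (n : ℕ) (z : Fin 3 → ℤ) : IsOpen (dyo v n z) := by
  have : dyo v n z = ⋂ k, {x : V | v k + z k / 2 ^ n < x k ∧ x k < v k + (z k + 1) / 2 ^ n} := by
    ext x
    simp only [dyo, mem_ofPred_eq, mem_iInter]
  rw [this]
  refine isOpen_iInter_of_finite fun k => ?_
  exact (isOpen_lt continuous_const (continuous_apply k)).inter
    (isOpen_lt (continuous_apply k) continuous_const)

theorem boxB_subset_interior (v : V) (n₂ k₁ : ℕ) (z : Fin 3 → ℤ) :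
    boxB v n₂ k₁ z ⊆ interior (dyc v n₂ z) := by
  intro x hx
  have h1 : x ∈ dyo v n₂ z := by
    intro k
    have h := hx k
    have : (0:ℝ) < 1 / 2 ^ (n₂ + k₁) := by positivity
    constructor
    · linarith [h.1]
    · linarith [h.2]
  refine interior_maximal ?_ (isOpen_dyo' v n₂ z) h1
  intro y hy k
  exact ⟨(hy k).1.le, (hy k).2.le⟩

theorem fine_subset (v : V) (n k₀ : ℕ) (w : Fin 3 → ℤ) (k : Fin 3) {m : ℤ} (h0 : 0 ≤ m)
    (h1 : m + 1 ≤ 2 ^ k₀) : edge v ((n + k₀, fc k₀ w k m), k) ⊆ edge v ((n, w), k) := by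
  intro x hx
  obtain ⟨s, hs, rfl⟩ := exists_gam hx
  have hT : (0:ℝ) < 2 ^ k₀ := by positivity
  have hm0 : (0:ℝ) ≤ m := by exact_mod_cast h0
  have hm1 : (m : ℝ) + 1 ≤ 2 ^ k₀ := by exact_mod_cast h1
  have he : s = 2 ^ k₀ * ((s + m) / 2 ^ k₀) - m := by
    field_simp
    ring
  rw [he, ← gam_fine]
  apply gam_mem_edge
  constructor
  · have := hs.1
    positivity
  · rw [div_le_one hT]
    linarith [hs.2]

/-- the mesh is small -/
theorem two_M {n₂ k₁ k₀ : ℕ} {M : ℝ} (h4M : 4 * M ≤ 2 ^ (k₁ + k₀)) :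
    2 * M * (1 / 2 ^ (gN n₂ k₁ k₀)) ≤ 1 / 2 ^ (n₂ + 1) := by
  have h1 : (2:ℝ) ^ (gN n₂ k₁ k₀) = 2 ^ n₂ * 2 ^ (k₁ + k₀) := by
    rw [gN, add_assoc, pow_add]
  rw [h1, pow_succ, mul_one_div, div_le_div_iff₀ (by positivity) (by positivity)]
  have : (0:ℝ) < 2 ^ n₂ := by positivity
  nlinarith

/-- the bounds of `a = fc k₀ w k m` in the other directions -/
theorem fc_other {k₁ k₀ : ℕ} {z w : Fin 3 → ℤ} {k : Fin 3} {m : ℤ} {j : Fin 3} (hj : j ≠ k)
    (h : P k₁ z j + 1 ≤ w j ∧ w j ≤ Q k₁ z j - 1) :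
    (al k₁ k₀ z j < fc k₀ w k m j ∧ fc k₀ w k m j ≤ be k₁ k₀ z j) ∧
    (2 : ℤ) ^ k₀ ∣ fc k₀ w k m j ∧ z j * 2 ^ (k₁ + k₀) + 2 * 2 ^ k₀ ≤ fc k₀ w k m j ∧
      fc k₀ w k m j ≤ (z j + 1) * 2 ^ (k₁ + k₀) - 2 * 2 ^ k₀ := by
  have hT : (1:ℤ) ≤ 2 ^ k₀ := one_le_pow₀ (by norm_num)
  have e : fc k₀ w k m j = 2 ^ k₀ * w j := by
    unfold fc
    rw [if_neg hj, add_zero]
  rw [e, al_eq, be_eq]
  obtain ⟨h1, h2⟩ := h
  have h3 : (2:ℤ) ^ k₀ * (P k₁ z j + 1) ≤ 2 ^ k₀ * w j := mul_le_mul_of_nonneg_left h1 (by positivity)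
  have h4 : (2:ℤ) ^ k₀ * w j ≤ 2 ^ k₀ * (Q k₁ z j - 1) := mul_le_mul_of_nonneg_left h2 (by positivity)
  have h5 : (2:ℤ) ^ k₀ * (P k₁ z j + 1) = z j * 2 ^ (k₁ + k₀) + 2 * 2 ^ k₀ := by
    unfold P
    rw [pow_add]
    ring
  have h6 : (2:ℤ) ^ k₀ * (Q k₁ z j - 1) = (z j + 1) * 2 ^ (k₁ + k₀) - 2 * 2 ^ k₀ := by
    unfold Q
    rw [pow_add]
    ring
  refine ⟨⟨?_, ?_⟩, Dvd.intro _ rfl, by rw [← h5]; exact h3, by rw [← h6]; exact h4⟩
  · linarith
  · linarith

theorem P_Q {k₁ : ℕ} (hk₁ : 3 ≤ k₁) (z : Fin 3 → ℤ) (j : Fin 3) : P k₁ z j + 1 ≤ Q k₁ z j - 1 := by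
  have h1 : (2:ℤ) ^ 3 ≤ 2 ^ k₁ := pow_le_pow_right₀ (by norm_num) hk₁
  unfold P Q
  linarith

end Gap

open Gap in
/-- **(GAP)** -/
theorem specGap : SpecGap := by
  intro Vx B J I e0 e1 inc qC Ω K Λ h v n₂ k₁ k₀ z q0 q1 o A μ η near hq p M κ hp hM hκ hA hk₁ hk₀
    hμ h4M hdv h3 Lt χ p' hcut hχ1 hχ2 hR hmod hLt1 hLt2 e he hsub hfr
  obtain ⟨⟨n, w⟩, k⟩ := e
  obtain rfl : n = n₂ + k₁ := he
  have hsubB : edge v ((n₂ + k₁, w), k) ⊆ boxB v n₂ k₁ z := fun x hx => (hsub hx).1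
  obtain ⟨hb, hbk⟩ := bounds hsubB
  have hst := fun j hj => strict hsubB hfr (j := j) hj
  have hPQ := P_Q hk₁ z k
  have hT : (0:ℝ) < 2 ^ k₀ := by positivity
  have hT1 : (1:ℝ) ≤ 2 ^ k₀ := one_le_pow₀ (by norm_num)
  have hTZ : (1:ℤ) ≤ 2 ^ k₀ := one_le_pow₀ (by norm_num)
  have hD : (0:ℝ) < 2 ^ (n₂ + k₁) := by positivity
  have hA' : ∀ w, ‖(A : V →L[ℝ] V) w‖ ≤ M * ‖w‖ := hA
  -- the fine edge number `m` and the facts about the new map on its line
  have main : ∀ m : ℤ, 0 ≤ m → m + 1 ≤ 2 ^ k₀ → Marked k₁ k₀ z (fc k₀ w k m) k →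
      (∃ r, Fine v n₂ k₁ k₀ z (fc k₀ w k m) k h h3 Lt r) ∧
      edge v ((gN n₂ k₁ k₀, fc k₀ w k m), k) ⊆ dyc v n₂ z := by
    intro m hm0 hm1 hmk
    have hsub' : edge v ((gN n₂ k₁ k₀, fc k₀ w k m), k) ⊆ interior (Icc q0 q1) := by
      rw [hq]
      exact (fine_subset v _ k₀ w k hm0 hm1).trans (hsubB.trans (boxB_subset_interior v n₂ k₁ z))
    obtain ⟨b, hbb⟩ := near.lat.arc' (fc k₀ w k m) k
      ⟨_, left_mem_edge, hsub' left_mem_edge⟩
    exact ⟨exists_fine hbb hmk hcut hχ1 hχ2 hmod,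
      (fine_subset v _ k₀ w k hm0 hm1).trans (hsubB.trans
        ((boxB_subset_interior v n₂ k₁ z).trans interior_subset))⟩
  have hLL := Lt_lip hA hM hLt2
  by_cases hlow : w k = P k₁ z k
  · -- the lower radial edges
    have hak : fc k₀ w k 0 k = al k₁ k₀ z k := by
      unfold fc
      rw [if_pos rfl, add_zero, hlow, al_eq]
    have hmk : Marked k₁ k₀ z (fc k₀ w k 0) k :=
      ⟨⟨Or.inl hak, fun j hj => (fc_other hj (hst j hj)).1⟩,
        fun j hj => (fc_other hj (hst j hj)).2⟩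
    obtain ⟨⟨r, F⟩, hsubd⟩ := main 0 le_rfl (by simpa using hTZ) hmk
    have hr := F.r_mem
    -- the two parts
    have hg : ∀ t : ℝ, gam v ((n₂ + k₁, w), k) t =
        gam v ((gN n₂ k₁ k₀, fc k₀ w k 0), k) (2 ^ k₀ * t) := by
      intro t
      rw [gam_fine v (n₂ + k₁) k₀ w k 0 t]
      simp
    have hfine : ∀ t ∈ Icc (0:ℝ) 1, 2 ^ k₀ * t ≤ 1 / 2 → 2 ^ k₀ * t ∈ Icc (0:ℝ) 1 ∧
        gam v ((gN n₂ k₁ k₀, fc k₀ w k 0), k) (2 ^ k₀ * t) ∉
          interior (Icc (lo v n₂ k₁ k₀ z) (hi v n₂ k₁ k₀ z)) := fun t ht h12 =>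
      ⟨⟨mul_nonneg hT.le ht.1, by linarith⟩, notMem_interior_low hak h12⟩
    have hmodel : ∀ t ∈ Icc (0:ℝ) 1, 1 / 2 ≤ 2 ^ k₀ * t →
        gam v ((gN n₂ k₁ k₀, fc k₀ w k 0), k) (2 ^ k₀ * t) ∈
          Icc (lo v n₂ k₁ k₀ z) (hi v n₂ k₁ k₀ z) ∧ |2 ^ k₀ * t - 1 / 2| ≤ 2 ^ k₀ - 1 / 2 := by
      intro t ht h12
      have h5 : 2 ^ k₀ * t ≤ 2 ^ k₀ := by nlinarith [ht.2]
      refine ⟨mem_box_line (fun j hj => (fc_other hj (hst j hj)).1) ?_ ?_, ?_⟩
      · rw [hak]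
        linarith
      · rw [hak, al_eq, be_eq]
        have h6 : ((P k₁ z k : ℝ) + 1) ≤ Q k₁ z k - 1 := by exact_mod_cast hPQ
        push_cast
        nlinarith
      · rw [abs_of_nonneg (by linarith)]
        linarith
    refine ⟨fun x hx => ?_, ?_⟩
    · obtain ⟨t, ht, rfl⟩ := exists_gam hx
      rw [hg]
      refine le_trans (F.close hA hM (near.sup _ k (by rw [hq]; exact hsubd)) hμ hLt1 ?_)
        (two_M h4M)
      rcases le_total (2 ^ k₀ * t) (1 / 2) with h12 | h12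
      · exact Or.inl (hfine t ht h12)
      · exact Or.inr (hmodel t ht h12)
    · refine GBM489.dvarLeft (e := ((n₂ + k₁, w), k)) (e' := ((gN n₂ k₁ k₀, fc k₀ w k 0), k))
        (h := h) (L := (A : V →L[ℝ] V)) (lam := 2 * r * 2 ^ k₀) hp k₀ rfl (by
          have := hr.1
          positivity) (by nlinarith [hr.2]) (by positivity) hκ hM.le hA' ?_ ?_ ?_
      · intro t ht
        have ht1 : 2 ^ k₀ * t ≤ 1 / 2 := by
          have := ht.2
          rw [le_div_iff₀ (by positivity)] at this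
          linarith
        have ht' : t ∈ Icc (0:ℝ) 1 := ⟨ht.1, by nlinarith⟩
        rw [hg, F.fine _ (hfine t ht' ht1).1 (hfine t ht' ht1).2, GB1.rep_le ht1]
        congr 2
        ring
      · intro s hs t ht
        have key : ∀ t ∈ Icc (1 / (2 * 2 ^ k₀) : ℝ) 1,
            h3 (gam v ((n₂ + k₁, w), k) t) = Lt (gam v ((n₂ + k₁, w), k) t) := by
          intro t ht
          have h1 := ht.1
          have ht0 : 0 ≤ t := le_trans (by positivity) h1
          rw [div_le_iff₀ (by positivity)] at h1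
          have h2 := hmodel t ⟨ht0, ht.2⟩ (by linarith)
          rw [hg, F.model _ h2.1 h2.2]
        rw [key s hs, key t ht]
        refine (hLL _ _).trans (le_of_eq ?_)
        rw [norm_gam_sub]
        ring
      · exact hdv ((gN n₂ k₁ k₀, fc k₀ w k 0), k) rfl hsubd
  · by_cases hup : w k + 1 = Q k₁ z k
    · -- the upper radial edges
      have hak : fc k₀ w k (2 ^ k₀ - 1) k = be k₁ k₀ z k := by
        unfold fc
        rw [if_pos rfl, be_eq, ← hup]
        ring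
      have hmk : Marked k₁ k₀ z (fc k₀ w k (2 ^ k₀ - 1)) k :=
        ⟨⟨Or.inr hak, fun j hj => (fc_other hj (hst j hj)).1⟩,
          fun j hj => (fc_other hj (hst j hj)).2⟩
      obtain ⟨⟨r, F⟩, hsubd⟩ := main (2 ^ k₀ - 1) (by linarith) (by linarith) hmk
      have hr := F.r_mem
      have hg : ∀ t : ℝ, gam v ((n₂ + k₁, w), k) t =
          gam v ((gN n₂ k₁ k₀, fc k₀ w k (2 ^ k₀ - 1)), k) (1 - 2 ^ k₀ * (1 - t)) := by
        intro t
        rw [gam_fine v (n₂ + k₁) k₀ w k (2 ^ k₀ - 1) t]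
        congr 1
        push_cast
        ring
      have hfine : ∀ t ∈ Icc (0:ℝ) 1, 1 / 2 ≤ 1 - 2 ^ k₀ * (1 - t) →
          1 - 2 ^ k₀ * (1 - t) ∈ Icc (0:ℝ) 1 ∧
          gam v ((gN n₂ k₁ k₀, fc k₀ w k (2 ^ k₀ - 1)), k) (1 - 2 ^ k₀ * (1 - t)) ∉
            interior (Icc (lo v n₂ k₁ k₀ z) (hi v n₂ k₁ k₀ z)) := fun t ht h12 =>
        ⟨⟨by linarith, by nlinarith [ht.2]⟩, notMem_interior_high hak h12⟩
      have hmodel : ∀ t ∈ Icc (0:ℝ) 1, 1 - 2 ^ k₀ * (1 - t) ≤ 1 / 2 →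
          gam v ((gN n₂ k₁ k₀, fc k₀ w k (2 ^ k₀ - 1)), k) (1 - 2 ^ k₀ * (1 - t)) ∈
            Icc (lo v n₂ k₁ k₀ z) (hi v n₂ k₁ k₀ z) ∧
            |1 - 2 ^ k₀ * (1 - t) - 1 / 2| ≤ 2 ^ k₀ - 1 / 2 := by
        intro t ht h12
        have h5 : 2 ^ k₀ * (1 - t) ≤ 2 ^ k₀ := by nlinarith [ht.1]
        refine ⟨mem_box_line (fun j hj => (fc_other hj (hst j hj)).1) ?_ ?_, ?_⟩
        · rw [hak, al_eq, be_eq]
          have h6 : ((P k₁ z k : ℝ) + 1) ≤ Q k₁ z k - 1 := by exact_mod_cast hPQ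
          push_cast
          nlinarith
        · rw [hak]
          linarith
        · rw [abs_of_nonpos (by linarith)]
          linarith
      refine ⟨fun x hx => ?_, ?_⟩
      · obtain ⟨t, ht, rfl⟩ := exists_gam hx
        rw [hg]
        refine le_trans (F.close hA hM (near.sup _ k (by rw [hq]; exact hsubd)) hμ hLt1 ?_)
          (two_M h4M)
        rcases le_total (1 / 2) (1 - 2 ^ k₀ * (1 - t)) with h12 | h12
        · exact Or.inl (hfine t ht h12)
        · exact Or.inr (hmodel t ht h12)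
      · refine GBM489.dvarRight (e := ((n₂ + k₁, w), k))
          (e' := ((gN n₂ k₁ k₀, fc k₀ w k (2 ^ k₀ - 1)), k))
          (h := h) (L := (A : V →L[ℝ] V)) (lam := 2 * (1 - r) * 2 ^ k₀) hp k₀ rfl (by
            have : 0 < 1 - r := by linarith [hr.2]
            positivity) (by nlinarith [hr.1]) (by positivity) hκ hM.le hA' ?_ ?_ ?_
        · intro t ht
          have ht1 : 1 / 2 ≤ 1 - 2 ^ k₀ * (1 - t) := by
            have h1 : 1 - t ≤ 1 / (2 * 2 ^ k₀) := by linarith [ht.1]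
            rw [le_div_iff₀ (by positivity)] at h1
            linarith
          have ht' : t ∈ Icc (0:ℝ) 1 := ⟨by nlinarith, ht.2⟩
          rw [hg, F.fine _ (hfine t ht' ht1).1 (hfine t ht' ht1).2,
            GB1.rep_ge (by norm_num) ht1]
          congr 2
          ring
        · intro s hs t ht
          have key : ∀ t ∈ Icc (0:ℝ) (1 - 1 / (2 * 2 ^ k₀)),
              h3 (gam v ((n₂ + k₁, w), k) t) = Lt (gam v ((n₂ + k₁, w), k) t) := by
            intro t ht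
            have h1 : 1 / (2 * 2 ^ k₀) ≤ 1 - t := by linarith [ht.2]
            have ht1 : t ≤ 1 := by
              have : (0:ℝ) < 1 / (2 * 2 ^ k₀) := by positivity
              linarith
            rw [div_le_iff₀ (by positivity)] at h1
            have h2 := hmodel t ⟨ht.1, ht1⟩ (by linarith)
            rw [hg, F.model _ h2.1 h2.2]
          rw [key s hs, key t ht]
          refine (hLL _ _).trans (le_of_eq ?_)
          rw [norm_gam_sub]
          ring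
        · exact hdv ((gN n₂ k₁ k₀, fc k₀ w k (2 ^ k₀ - 1)), k) rfl hsubd
    · -- the edges in the protected box
      have hin : ∀ x ∈ edge v ((n₂ + k₁, w), k), x ∈ boxR v n₂ k₁ z := by
        intro x hx
        obtain ⟨t, ht, rfl⟩ := exists_gam hx
        rw [mem_boxR]
        intro j
        rw [gam_apply, add_le_add_iff_left, add_le_add_iff_left,
          div_le_div_iff_of_pos_right hD, div_le_div_iff_of_pos_right hD]
        by_cases hj : j = k
        · subst hj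
          rw [if_pos rfl]
          have h1 : P k₁ z j + 1 ≤ w j := by
            have := (hb j).1
            omega
          have h2 : w j + 1 ≤ Q k₁ z j - 1 := by omega
          have h1' : (P k₁ z j : ℝ) + 1 ≤ w j := by exact_mod_cast h1
          have h2' : (w j : ℝ) + 1 ≤ Q k₁ z j - 1 := by exact_mod_cast h2
          constructor
          · linarith [ht.1]
          · linarith [ht.2]
        · rw [if_neg hj, add_zero]
          obtain ⟨h1, h2⟩ := hst j hj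
          exact ⟨by exact_mod_cast h1, by exact_mod_cast h2⟩
      refine ⟨fun x hx => ?_, ?_⟩
      · rw [hR x (hin x hx), sub_self, norm_zero]
        positivity
      · refine (GBM489.dvar_affine' (A := fun x => o + A x) (L := (A : V →L[ℝ] V)) hp hM.le
          (fun x y => by
            show o + A y - (o + A x) = A (y - x)
            rw [map_sub]
            abel) hA' fun x hx => hR x (hin x hx)).trans ?_
        apply ENNReal.ofReal_le_ofReal
        have h1 : M ^ p ≤ (9 / 4 * M) ^ p :=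
          Real.rpow_le_rpow hM.le (by linarith) (by linarith)
        have h2 : 0 ≤ (4:ℝ) ^ p * (κ + M ^ p) := by positivity
        exact mul_le_mul_of_nonneg_right (by linarith) (by positivity)

end P073.Cell
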