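import Vale.Agent.P073.GBM.Spec
import Vale.Agent.P073.PR.Faces

/-!
# P073, block GBM3: the part of the surface of a box outside another box is connected
-/

open Set Metric Topology Filter

namespace P073.GBM

open P073
open Vale.Agent.P073.St (V)

variable {a b : V}

/-- the part of the surface of `Icc a b` outside the product of the sets `N k` -/
def outer (a b : V) (N : Fin 3 → Set ℝ) : Set V :=
  {x | (∀ k, a k ≤ x k ∧ x k ≤ b k) ∧ (∃ k, x k = a k ∨ x k = b k) ∧ ∃ k, x k ∉ N k}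

theorem continuous_upd (x : V) (k : Fin 3) :
    Continuous (fun r : ℝ => (Function.update x k r : V)) :=
  continuous_const.update k continuous_id

theorem isPreconnected_seg (x : V) (k : Fin 3) (s t : ℝ) :
    IsPreconnected ((fun r : ℝ => Function.update x k r) '' Icc s t) := by
  exact isPreconnected_Icc.image _ (continuous_upd x k).continuousOn

/-- the joining property -/
def Jn (X : Set V) (x0 y : V) : Prop := ∃ t ⊆ X, x0 ∈ t ∧ y ∈ t ∧ IsPreconnected t

theorem Jn.extend {X : Set V} {x0 y z : V} (h : Jn X x0 y) {t : Set V} (ht : t ⊆ X)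
    (hy : y ∈ t) (hz : z ∈ t) (hc : IsPreconnected t) : Jn X x0 z := by
  obtain ⟨s, hs, h0, h1, h2⟩ := h
  exact ⟨s ∪ t, union_subset hs ht, Or.inl h0, Or.inr hz, h2.union y h1 hy hc⟩

theorem isPreconnected_outer (hab : ∀ k, a k < b k) {N : Fin 3 → Set ℝ} (i : Fin 3)
    (htop : b i ∉ N i)
    (hup : ∀ s, a i ≤ s → s ≤ b i → s ∉ N i → ∀ s', s ≤ s' → s' ≤ b i → s' ∉ N i)
    (hside : ∀ k, k ≠ i → ∀ s, a k ≤ s → s ≤ b k → s ∉ N k →
      (∀ s', a k ≤ s' → s' ≤ s → s' ∉ N k) ∨ (∀ s', s ≤ s' → s' ≤ b k → s' ∉ N k)) :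
    IsPreconnected (outer a b N) := by
  -- the top face
  set T : Set V := {x | (∀ k, a k ≤ x k ∧ x k ≤ b k) ∧ x i = b i} with hT
  have hTX : T ⊆ outer a b N := fun x hx => ⟨hx.1, ⟨i, Or.inr hx.2⟩, ⟨i, by rw [hx.2]; exact htop⟩⟩
  have hbT : b ∈ T := ⟨fun k => ⟨(hab k).le, le_refl _⟩, rfl⟩
  have hTc : IsPreconnected T := by
    apply Convex.isPreconnected
    intro x hx y hy c d hc hd hcd
    refine ⟨fun k => ?_, ?_⟩
    · have h1 := hx.1 k
      have h2 := hy.1 k
      simp only [Pi.add_apply, Pi.smul_apply, smul_eq_mul]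
      have e1 : c * a k + d * a k = a k := by rw [← add_mul, hcd, one_mul]
      have e2 : c * b k + d * b k = b k := by rw [← add_mul, hcd, one_mul]
      constructor
      · rw [← e1]; exact add_le_add (mul_le_mul_of_nonneg_left h1.1 hc)
          (mul_le_mul_of_nonneg_left h2.1 hd)
      · rw [← e2]; exact add_le_add (mul_le_mul_of_nonneg_left h1.2 hc)
          (mul_le_mul_of_nonneg_left h2.2 hd)
    · simp only [Pi.add_apply, Pi.smul_apply, smul_eq_mul]
      rw [hx.2, hy.2, ← add_mul, hcd, one_mul]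
  have j1 : ∀ x ∈ T, Jn (outer a b N) b x := fun x hx => ⟨T, hTX, hbT, hx, hTc⟩
  -- points on a side
  have j2 : ∀ x ∈ outer a b N, (∃ k, k ≠ i ∧ (x k = a k ∨ x k = b k)) →
      Jn (outer a b N) b x := by
    rintro x ⟨hx1, -, l, hl⟩ ⟨k, hki, hk⟩
    have h1 : Function.update x i (b i) ∈ T := by
      refine ⟨fun m => ?_, Function.update_self i (b i) x⟩
      by_cases hm : m = i
      · subst hm; rw [Function.update_self]; exact ⟨(hab m).le, le_refl _⟩
      · rw [Function.update_of_ne hm]; exact hx1 m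
    refine (j1 _ h1).extend (t := (fun r : ℝ => Function.update x i r) '' Icc (x i) (b i)) ?_
      ⟨b i, ⟨(hx1 i).2, le_refl _⟩, rfl⟩ ⟨x i, ⟨le_refl _, (hx1 i).2⟩, Function.update_eq_self i x⟩
      (isPreconnected_seg x i _ _)
    rintro _ ⟨s, hs, rfl⟩
    refine ⟨fun m => ?_, ⟨k, ?_⟩, ⟨l, ?_⟩⟩
    · by_cases hm : m = i
      · subst hm; simp only [Function.update_self]; exact ⟨(hx1 m).1.trans hs.1, hs.2⟩
      · simp only [Function.update_of_ne hm]; exact hx1 m
    · simp only [Function.update_of_ne hki]; exact hk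
    · by_cases hm : l = i
      · subst hm; simp only [Function.update_self]
        exact hup _ (hx1 l).1 (hx1 l).2 hl s hs.1 hs.2
      · simp only [Function.update_of_ne hm]; exact hl
  -- general points
  apply isPreconnected_of_forall b
  rintro x hx
  show Jn (outer a b N) b x
  obtain ⟨hx1, ⟨k, hk⟩, l, hl⟩ := hx
  by_cases hki : k ≠ i
  · exact j2 x ⟨hx1, ⟨k, hk⟩, l, hl⟩ ⟨k, hki, hk⟩
  rw [not_not] at hki
  subst hki
  rcases hk with hk | hk
  · -- bottom face
    -- horizontal moves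
    have key : ∀ m, m ≠ k → (∃ t, (t = a m ∨ t = b m) ∧ ∀ s ∈ uIcc (x m) t,
        ∃ l, (Function.update x m s) l ∉ N l) → Jn (outer a b N) b x := by
      rintro m hm ⟨t, ht, hseg⟩
      have hlim : a m ≤ t ∧ t ≤ b m := by
        rcases ht with h | h
        · rw [h]; exact ⟨le_refl _, (hab m).le⟩
        · rw [h]; exact ⟨(hab m).le, le_refl _⟩
      have hsub : (fun r : ℝ => Function.update x m r) '' uIcc (x m) t ⊆ outer a b N := by
        rintro _ ⟨s, hs, rfl⟩
        refine ⟨fun l => ?_, ⟨k, Or.inl ?_⟩, hseg s hs⟩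
        · by_cases hl : l = m
          · subst hl; simp only [Function.update_self]
            rw [mem_uIcc] at hs
            rcases hs with hs | hs
            · exact ⟨(hx1 l).1.trans hs.1, hs.2.trans hlim.2⟩
            · exact ⟨hlim.1.trans hs.1, hs.2.trans (hx1 l).2⟩
          · simp only [Function.update_of_ne hl]; exact hx1 l
        · simp only [Function.update_of_ne (Ne.symm hm)]; exact hk
      have h2 : Function.update x m t ∈ outer a b N := hsub ⟨t, right_mem_uIcc, rfl⟩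
      refine (j2 _ h2 ⟨m, hm, ?_⟩).extend hsub ⟨t, right_mem_uIcc, rfl⟩
        ⟨x m, left_mem_uIcc, Function.update_eq_self m x⟩
        (isPreconnected_uIcc.image _ (continuous_upd x m).continuousOn)
      rw [Function.update_self]; exact ht
    by_cases hlk : l = k
    · subst hlk
      obtain ⟨m, hm⟩ : ∃ m : Fin 3, m ≠ l := exists_ne l
      refine key m hm ⟨b m, Or.inr rfl, fun s _ => ⟨l, ?_⟩⟩
      rw [Function.update_of_ne (Ne.symm hm)]; exact hl
    · rcases hside l hlk (x l) (hx1 l).1 (hx1 l).2 hl with h | h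
      · refine key l hlk ⟨a l, Or.inl rfl, fun s hs => ⟨l, ?_⟩⟩
        rw [uIcc_of_ge (hx1 l).1] at hs
        rw [Function.update_self]; exact h s hs.1 hs.2
      · refine key l hlk ⟨b l, Or.inr rfl, fun s hs => ⟨l, ?_⟩⟩
        rw [uIcc_of_le (hx1 l).2] at hs
        rw [Function.update_self]; exact h s hs.1 hs.2
  · exact j1 x ⟨hx1, hk⟩

theorem outer_neg (N : Fin 3 → Set ℝ) :
    outer a b N = (fun x : V => -x) '' outer (-b) (-a) (fun k => {s | -s ∈ N k}) := by
  ext x
  constructor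
  · rintro ⟨h1, ⟨k, hk⟩, l, hl⟩
    refine ⟨-x, ⟨fun m => ?_, ⟨k, ?_⟩, ⟨l, ?_⟩⟩, neg_neg x⟩
    · simp only [Pi.neg_apply]; exact ⟨neg_le_neg (h1 m).2, neg_le_neg (h1 m).1⟩
    · simp only [Pi.neg_apply]
      rcases hk with hk | hk
      · right; rw [hk]
      · left; rw [hk]
    · simp only [mem_ofPred_eq, Pi.neg_apply, neg_neg]; exact hl
  · rintro ⟨y, ⟨h1, ⟨k, hk⟩, l, hl⟩, rfl⟩
    refine ⟨fun m => ?_, ⟨k, ?_⟩, ⟨l, ?_⟩⟩
    · have := h1 m
      simp only [Pi.neg_apply] at this ⊢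
      exact ⟨by linarith [this.2], by linarith [this.1]⟩
    · simp only [Pi.neg_apply] at hk ⊢
      rcases hk with hk | hk
      · right; rw [hk, neg_neg]
      · left; rw [hk, neg_neg]
    · exact hl

theorem frontier_diff_eq (a b : V) (N : Fin 3 → Set ℝ) {X : Set V}
    (hX : ∀ x, x ∈ X ↔ ∀ k, x k ∈ N k) : frontier (Icc a b) \ X = outer a b N := by
  ext x
  rw [frontier_Icc_pi']
  constructor
  · rintro ⟨⟨h1, h2⟩, h3⟩
    refine ⟨h1, ?_, ?_⟩
    · by_contra hne
      push Not at hne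
      exact h2 fun k => ⟨lt_of_le_of_ne (h1 k).1 (Ne.symm (hne k).1),
        lt_of_le_of_ne (h1 k).2 (hne k).2⟩
    · by_contra hne
      push Not at hne
      exact h3 ((hX x).2 hne)
  · rintro ⟨h1, ⟨k, hk⟩, l, hl⟩
    refine ⟨⟨h1, fun h2 => ?_⟩, fun h3 => hl ((hX x).1 h3 l)⟩
    rcases hk with hk | hk
    · exact absurd hk (h2 k).1.ne'
    · exact absurd hk (h2 k).2.ne

/-- both forms of an interval -/
structure IntLike (N : Set ℝ) (c d : ℝ) : Prop where
  sub : N ⊆ Icc c d
  sup : Ioo c d ⊆ N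
  conn : N.OrdConnected

theorem isPreconnected_outer_upper (hab : ∀ k, a k < b k) {N : Fin 3 → Set ℝ} {a' b' : V}
    (hN : ∀ k, IntLike (N k) (a' k) (b' k)) (i : Fin 3) (h1 : a' i < a i) (h2 : b' i < b i) :
    IsPreconnected (outer a b N) := by
  refine isPreconnected_outer hab i ?_ ?_ ?_
  · intro h
    exact absurd ((hN i).sub h).2 (not_le.2 h2)
  · intro s hs1 hs2 hs s' hss' hs' h
    -- `a' i < s`, `s ∉ N i`, so `b' i ≤ s`
    have h3 : b' i ≤ s := by
      by_contra hlt
      exact hs ((hN i).sup ⟨h1.trans_le hs1, not_le.1 hlt⟩)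
    have h4 : s' ≤ b' i := ((hN i).sub h).2
    have h5 : s = s' := le_antisymm hss' (h4.trans h3)
    exact hs (h5 ▸ h)
  · intro k _ s hs1 hs2 hs
    by_cases h : ∃ s' ∈ N k, s' ≤ s
    · right
      intro s'' hs'' _ h''
      obtain ⟨s', hs', hle⟩ := h
      exact hs ((hN k).conn.out hs' h'' ⟨hle, hs''⟩)
    · left
      intro s' _ hs' h'
      exact h ⟨s', h', hs'⟩

theorem IntLike.neg {N : Set ℝ} {c d : ℝ} (h : IntLike N c d) :
    IntLike {s | -s ∈ N} (-d) (-c) := by
  refine ⟨fun s hs => ?_, fun s hs => ?_, ⟨fun s hs t ht r hr => ?_⟩⟩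
  · have := h.sub hs
    exact ⟨by linarith [this.2], by linarith [this.1]⟩
  · exact h.sup ⟨by linarith [hs.2], by linarith [hs.1]⟩
  · exact h.conn.out ht hs ⟨by linarith [hr.2], by linarith [hr.1]⟩

theorem isPreconnected_outer_box (hab : ∀ k, a k < b k) {N : Fin 3 → Set ℝ} {a' b' : V}
    (hN : ∀ k, IntLike (N k) (a' k) (b' k))
    (h : (∀ k, a k < a' k ∧ b' k < b k) ∨
      ∃ i, (a' i < a i ∧ b' i < b i) ∨ (a i < a' i ∧ b i < b' i)) :
    IsPreconnected (outer a b N) := by
  rcases h with h | ⟨i, h | h⟩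
  · -- the box is inside
    have : outer a b N = outer a b (fun _ => (∅ : Set ℝ)) := by
      ext x
      constructor
      · rintro ⟨h1, h2, -⟩
        exact ⟨h1, h2, ⟨0, notMem_empty _⟩⟩
      · rintro ⟨h1, ⟨k, hk⟩, -⟩
        refine ⟨h1, ⟨k, hk⟩, ⟨k, fun hN' => ?_⟩⟩
        have h3 := (hN k).sub hN'
        rcases hk with hk | hk
        · rw [hk] at h3; exact absurd h3.1 (not_le.2 (h k).1)
        · rw [hk] at h3; exact absurd h3.2 (not_le.2 (h k).2)
    rw [this]
    exact isPreconnected_outer hab 0 (notMem_empty _) (fun _ _ _ _ _ _ _ => notMem_empty _)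
      (fun _ _ _ _ _ _ => Or.inl fun _ _ _ => notMem_empty _)
  · exact isPreconnected_outer_upper hab hN i h.1 h.2
  · rw [outer_neg]
    refine IsPreconnected.image ?_ _ continuous_neg.continuousOn
    refine isPreconnected_outer_upper (a := -b) (b := -a) (a' := -b') (b' := -a')
      (fun k => neg_lt_neg (hab k)) (fun k => (hN k).neg) i ?_ ?_
    · exact neg_lt_neg h.2
    · exact neg_lt_neg h.1

theorem specSep : SpecSep := by
  intro a b a' b' hab h
  constructor
  · rw [frontier_diff_eq a b (fun k => Icc (a' k) (b' k)) (X := Icc a' b')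
      (fun x => ⟨fun hx k => ⟨hx.1 k, hx.2 k⟩, fun hx => ⟨fun k => (hx k).1, fun k => (hx k).2⟩⟩)]
    exact isPreconnected_outer_box hab
      (fun k => ⟨Subset.rfl, Ioo_subset_Icc_self, ordConnected_Icc⟩) h
  · rw [frontier_diff_eq a b (fun k => Ioo (a' k) (b' k)) (fun x => by rw [interior_Icc_pi']; rfl)]
    exact isPreconnected_outer_box hab
      (fun k => ⟨Ioo_subset_Icc_self, Subset.rfl, ordConnected_Ioo⟩) h

end P073.GBM
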