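import Vale.Agent.P073.GBM.CellSpec2
import Vale.Agent.P073.GBM.PatProof
import Vale.Agent.P073.GBM.Sep

/-!
# P073, block SpecCell: separation of the bodies (`SpecS1`, `SpecS2`, `SpecS3`)
-/

open Set Metric Topology Filter

namespace P073.Cell

open P073 P073.PR720 P073.GB73 P073.GBM P073.Gauge P073.GB1W
open Vale.Agent.P073.St (V)
open Vale.Agent.P073.AB
open Vale.Agent.P073.SQ (ev)
open P073.Net (dyc dyo)

section bodies

variable {o : V} {A : V ≃L[ℝ] V} {c w : V} {T : Set ℝ} {t : ℝ}

theorem symm_sub' (x : V) : A.symm (x - (o + A c)) = A.symm (x - o) - c := by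
  have : x - (o + A c) = (x - o) - A c := by abel
  rw [this, map_sub, A.symm_apply_apply]

theorem mem_aff_image {S : Set V} {y : V} : y ∈ aff o A '' S ↔ A.symm (y - o) ∈ S := by
  rw [Homeomorph.image_eq_preimage_symm, mem_preimage, aff_symm]

/-- the levels of a box body as images of boxes -/
theorem at_Icc (ht : 0 < t) : (bBody (o + A c) A w T).at t =
    aff o A '' Icc (fun k => c k - t * w k) (fun k => c k + t * w k) := by
  ext y
  rw [mem_at ht, mem_aff_image, symm_sub']
  simp only [mem_Icc, Pi.le_def, Pi.sub_apply, abs_le]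
  constructor
  · intro h
    exact ⟨fun k => by linarith [(h k).1], fun k => by linarith [(h k).2]⟩
  · intro h k
    exact ⟨by linarith [h.1 k], by linarith [h.2 k]⟩

/-- separation in affine coordinates -/
theorem sep_aff {a b a' b' : V} (hab : ∀ k, a k < b k)
    (h : ∃ i, (a' i < a i ∧ b' i < b i) ∨ (a i < a' i ∧ b i < b' i)) :
    IsPreconnected (frontier (aff o A '' Icc a b) \ aff o A '' Icc a' b') ∧
    IsPreconnected (frontier (aff o A '' Icc a b) \ interior (aff o A '' Icc a' b')) := by
  obtain ⟨h1, h2⟩ := specSep a b a' b' hab (Or.inr h)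
  rw [← Homeomorph.image_frontier, ← Homeomorph.image_interior,
    ← image_sdiff (aff o A).injective, ← image_sdiff (aff o A).injective]
  exact ⟨h1.image _ (aff o A).continuous.continuousOn,
    h2.image _ (aff o A).continuous.continuousOn⟩

end bodies

variable {Vx B J I : Type} {e0 e1 : B → Vx} {inc : B → J → Prop} {qC : J → I → Prop} {Ω : Set V}
  {K : Cx3 e0 e1 inc qC Ω} {Λ : Set V} {h : V → V} {v : V} {N : ℕ} {q0 q1 o : V}
  {A : V ≃L[ℝ] V} {μ η : ℝ} {α β : Fin 3 → ℤ}

/-- a crossed edge in direction `i` through the upper wall -/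
theorem exists_top (L : Lat K v N (interior (Icc q0 q1))) (hαβ : ∀ k, α k < β k)
    (hU : frontier (hbox v N α β) ⊆ interior (Icc q0 q1)) (i : Fin 3) :
    ∃ b a, K.arc b = edge v ((N, a), i) ∧ CrossZ α β a i ∧ a i = β i ∧
      b ∈ crossed K (hbox v N α β) := by
  have hc : CrossZ α β β i := crossZ_top hαβ i
  obtain ⟨b, hb⟩ := L.exists_arc hαβ hU hc
  exact ⟨b, β, hb, hc, rfl, (L.mem_crossed_of hαβ hU hb).2 hc⟩

/-- a crossed edge in direction `i` through the lower wall -/
theorem exists_bot (L : Lat K v N (interior (Icc q0 q1))) (hαβ : ∀ k, α k < β k)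
    (hU : frontier (hbox v N α β) ⊆ interior (Icc q0 q1)) (i : Fin 3) :
    ∃ b a, K.arc b = edge v ((N, a), i) ∧ CrossZ α β a i ∧ a i = α i ∧
      b ∈ crossed K (hbox v N α β) := by
  have hc : CrossZ α β (Function.update β i (α i)) i := by
    refine ⟨Or.inl (Function.update_self _ _ _), fun j hj => ?_⟩
    rw [Function.update_of_ne hj]
    exact ⟨hαβ j, le_refl _⟩
  obtain ⟨b, hb⟩ := L.exists_arc hαβ hU hc
  exact ⟨b, _, hb, hc, Function.update_self _ _ _, (L.mem_crossed_of hαβ hU hb).2 hc⟩

/-- **(S1)** -/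
theorem specS1 : SpecS1 := by
  intro Vx B J I e0 e1 inc qC Ω K Λ h v N q0 q1 o A μ η hN w w' l l' T T' y' hne hT hT' hU hpos
    t ht s hs
  have hε : (0:ℝ) < 1 / 2 ^ N := by positivity
  obtain ⟨ht1, ht2⟩ := hT ht
  obtain ⟨hs1, hs2⟩ := hT' hs
  have ht0 : 0 < t := by linarith
  have hs0 : 0 < s := by linarith
  -- units
  set ε : ℝ := 1 / 2 ^ N with hεd
  have hsc : ∀ (w : Fin 3 → ℤ) (l k : Fin 3), sc v N w l k =
      v k + (w k + if k = l then 0 else 1 / 2) * ε := fun w l k => by
    simp only [sc, hεd]; ring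
  have hfw : ∀ k, fw N k = 9 / 4 * ε := fun k => by simp only [fw, hεd]; ring
  have hαβ : ∀ k, fa w' l' k < fb w' k := fun k => by
    simp only [fa, fb]; split_ifs <;> omega
  -- the coordinate where the centres differ
  obtain ⟨i, hi⟩ : ∃ i, sc v N w l i + 1 / 2 * ε ≤ sc v N w' l' i ∨
      sc v N w' l' i + 1 / 2 * ε ≤ sc v N w l i := by
    by_contra hcon
    push Not at hcon
    have key : ∀ i, (2 * w i + (if i = l then 0 else 1) : ℤ) =
        2 * w' i + (if i = l' then 0 else 1) := by
      intro i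
      obtain ⟨h1, h2⟩ := hcon i
      rw [hsc, hsc] at h1 h2
      have e1 : ((2 * w i + (if i = l then 0 else 1) : ℤ) : ℝ) =
          2 * (w i + if i = l then 0 else 1 / 2) := by
        push_cast; split_ifs <;> ring
      have e2 : ((2 * w' i + (if i = l' then 0 else 1) : ℤ) : ℝ) =
          2 * (w' i + if i = l' then 0 else 1 / 2) := by
        push_cast; split_ifs <;> ring
      have h3 : ((w' i : ℝ) + (if i = l' then 0 else 1 / 2)) <
          ((w i : ℝ) + (if i = l then 0 else 1 / 2)) + 1 / 2 := by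
        by_contra hcon2
        push Not at hcon2
        have := mul_le_mul_of_nonneg_right hcon2 hε.le
        linarith
      have h4 : ((w i : ℝ) + (if i = l then 0 else 1 / 2)) <
          ((w' i : ℝ) + (if i = l' then 0 else 1 / 2)) + 1 / 2 := by
        by_contra hcon2
        push Not at hcon2
        have := mul_le_mul_of_nonneg_right hcon2 hε.le
        linarith
      have h5 : ((2 * w i + (if i = l then 0 else 1) : ℤ) : ℝ) <
          ((2 * w' i + (if i = l' then 0 else 1) : ℤ) : ℝ) + 1 := by rw [e1, e2]; linarith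
      have h6 : ((2 * w' i + (if i = l' then 0 else 1) : ℤ) : ℝ) <
          ((2 * w i + (if i = l then 0 else 1) : ℤ) : ℝ) + 1 := by rw [e1, e2]; linarith
      have h5' : (2 * w i + (if i = l then 0 else 1) : ℤ) <
          (2 * w' i + (if i = l' then 0 else 1) : ℤ) + 1 := by exact_mod_cast h5
      have h6' : (2 * w' i + (if i = l' then 0 else 1) : ℤ) <
          (2 * w i + (if i = l then 0 else 1) : ℤ) + 1 := by exact_mod_cast h6
      omega
    have hl : l = l' := by
      by_contra hll
      have := key l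
      rw [if_pos rfl, if_neg hll] at this
      omega
    subst hl
    apply hne
    have hw : w = w' := by
      funext i
      have := key i
      split_ifs at this <;> omega
    rw [hw]
  have hst : s * (9 / 4 * ε) ≤ 37 / 16 * ε := by nlinarith
  have hst' : 35 / 16 * ε ≤ s * (9 / 4 * ε) := by nlinarith
  have htt : t * (9 / 4 * ε) ≤ 37 / 16 * ε := by nlinarith
  have htt' : 35 / 16 * ε ≤ t * (9 / 4 * ε) := by nlinarith
  have hX : (fBody v N o A w' l' T').at s = aff o A ''
      Icc (fun k => sc v N w' l' k - s * fw N k) (fun k => sc v N w' l' k + s * fw N k) :=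
    at_Icc hs0
  have hY : (fBody v N o A w l T).at t = aff o A ''
      Icc (fun k => sc v N w l k - t * fw N k) (fun k => sc v N w l k + t * fw N k) :=
    at_Icc ht0
  have hin : ∀ y, y ∈ interior ((fBody v N o A w l T).at t) →
      |A.symm (y - o) i - sc v N w l i| < t * fw N i := by
    intro y hy
    have h1 := (mem_interior_at ht0).1 hy i
    rw [symm_sub'] at h1
    exact h1
  refine ⟨?_, ?_⟩
  · rw [hX, hY]
    refine (sep_aff (fun k => ?_) ⟨i, ?_⟩).2
    · rw [hfw]
      have : 0 < s * (9 / 4 * ε) := by positivity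
      linarith
    · simp only [hfw]
      rcases hi with hi | hi
      · left
        constructor <;> linarith
      · right
        constructor <;> linarith
  · rcases hi with hi | hi
    · obtain ⟨b, a, hb, hc, hai, hbc⟩ := exists_top hN.lat hαβ hU i
      refine ⟨b, hbc, fun hy => ?_⟩
      have h1 := (hpos s hs b a i hb hc).2.1
      rw [if_pos hai] at h1
      have h2 := hin _ hy
      rw [h1, hfw] at h2
      have h3 := (abs_lt.1 h2).2
      linarith
    · obtain ⟨b, a, hb, hc, hai, hbc⟩ := exists_bot hN.lat hαβ hU i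
      refine ⟨b, hbc, fun hy => ?_⟩
      have h1 := (hpos s hs b a i hb hc).2.1
      rw [if_neg (by rw [hai]; exact (hαβ i).ne)] at h1
      have h2 := hin _ hy
      rw [h1, hfw] at h2
      have h3 := (abs_lt.1 h2).1
      linarith

/-- walls of the big body -/
theorem big_wall {s : ℝ} (hαβ : ∀ j, α j < β j)
    (hs : 0 < s ∧ ∀ j, |s - 1| * (β j - α j) ≤ 1 / 4) (j : Fin 3) :
    |s * bw N α β j - (β j - α j) / 2 * (1 / 2 ^ N)| ≤ 1 / 8 * (1 / 2 ^ N) := by
  have hε : (0:ℝ) < 1 / 2 ^ N := by positivity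
  have hj : (0:ℝ) < (β j : ℝ) - α j := by
    have : (α j : ℝ) < β j := by exact_mod_cast hαβ j
    linarith
  have e : s * bw N α β j - (β j - α j) / 2 * (1 / 2 ^ N) =
      (s - 1) * (β j - α j) / 2 * (1 / 2 ^ N) := by
    simp only [bw]; ring
  rw [e, abs_mul, abs_of_pos hε]
  apply mul_le_mul_of_nonneg_right _ hε.le
  rw [abs_div, abs_mul, abs_of_pos (by norm_num : (0:ℝ) < 2), abs_of_pos hj]
  have h1 := hs.2 j
  linarith

/-- **(S2)** -/
theorem specS2 : SpecS2 := by
  intro Vx B J I e0 e1 inc qC Ω K Λ h v N q0 q1 o A μ η hN α β w a l k T T0 y0 h8 hca hsub hT hT0 hU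
    hpos t ht s hs
  have hε : (0:ℝ) < 1 / 2 ^ N := by positivity
  obtain ⟨ht1, ht2⟩ := hT ht
  have hs0 := (hT0 s hs).1
  have ht0 : 0 < t := by linarith
  have hαβ : ∀ j, α j < β j := fun j => by have := h8 j; omega
  have hwall := fun j => big_wall (N := N) hαβ (hT0 s hs) j
  set ε : ℝ := 1 / 2 ^ N with hεd
  have hfw : ∀ k, fw N k = 9 / 4 * ε := fun k => by simp only [fw, hεd]; ring
  have hbc : ∀ k, bc v N α β k = v k + (α k + β k + 1) / 2 * ε := fun k => by
    simp only [bc, hεd]; ring
  have htt : t * (9 / 4 * ε) ≤ 37 / 16 * ε := by nlinarith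
  have htt' : 35 / 16 * ε ≤ t * (9 / 4 * ε) := by nlinarith
  -- position of the square
  have hE := edge_subset_squ.1 hsub
  have hkl : k ≠ l := hE.2.1
  have hak : a k = w k := hE.2.2.1
  have hsck : sc v N w l k = v k + (a k + 1 / 2) * ε := by
    simp only [sc, if_neg hkl, hak, hεd]; ring
  have h8k : (α k : ℝ) + 8 ≤ β k := by exact_mod_cast h8 k
  have h8e : (α k + 8 : ℝ) * ε ≤ β k * ε := mul_le_mul_of_nonneg_right h8k hε.le
  have hX : (bigBody v N o A α β T0).at s = aff o A ''
      Icc (fun k => bc v N α β k - s * bw N α β k) (fun k => bc v N α β k + s * bw N α β k) :=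
    at_Icc hs0
  have hY : (fBody v N o A w l T).at t = aff o A ''
      Icc (fun k => sc v N w l k - t * fw N k) (fun k => sc v N w l k + t * fw N k) :=
    at_Icc ht0
  have hin : ∀ y, y ∈ interior ((fBody v N o A w l T).at t) →
      |A.symm (y - o) k - sc v N w l k| < t * fw N k := by
    intro y hy
    have h1 := (mem_interior_at ht0).1 hy k
    rw [symm_sub'] at h1
    exact h1
  obtain ⟨hw1, hw2⟩ := abs_le.1 (hwall k)
  refine ⟨?_, ?_⟩
  · rw [hX, hY]
    refine (sep_aff (fun j => ?_) ⟨k, ?_⟩).2
    · have hj : (α j : ℝ) + 8 ≤ β j := by exact_mod_cast h8 j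
      have h3 := (abs_le.1 (hwall j)).1
      have h4 : (8:ℝ) / 2 * ε ≤ (β j - α j) / 2 * ε :=
        mul_le_mul_of_nonneg_right (by linarith) hε.le
      linarith
    · simp only [hfw, hsck, hbc]
      rcases hca.1 with h | h
      · left
        rw [h]
        constructor <;> nlinarith
      · right
        rw [h]
        constructor <;> nlinarith
  · rcases hca.1 with h | h
    · obtain ⟨b, a', hb, hc, hai, hbc'⟩ := exists_top hN.lat hαβ hU k
      refine ⟨b, hbc', fun hy => ?_⟩
      have h1 := (hpos s hs b a' k hb hc).2.1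
      rw [if_pos hai] at h1
      have h2 := hin _ hy
      rw [h1, hfw, hsck, hbc, h] at h2
      have h3 := (abs_lt.1 h2).2
      nlinarith
    · obtain ⟨b, a', hb, hc, hai, hbc'⟩ := exists_bot hN.lat hαβ hU k
      refine ⟨b, hbc', fun hy => ?_⟩
      have h1 := (hpos s hs b a' k hb hc).2.1
      rw [if_neg (by rw [hai]; exact (hαβ k).ne)] at h1
      have h2 := hin _ hy
      rw [h1, hfw, hsck, hbc, h] at h2
      have h3 := (abs_lt.1 h2).1
      nlinarith

/-- **(S3)** -/
theorem specS3 : SpecS3 := by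
  intro Vx B J I e0 e1 inc qC Ω K Λ h v N q0 q1 o A μ η hN α β z' T0 y0 h8 hT0 hU hpos hz
  have hε : (0:ℝ) < 1 / 2 ^ N := by positivity
  have hαβ : ∀ j, α j < β j := fun j => by have := h8 j; omega
  have hcc : ∀ k, cc v N z' k = v k + (z' k + 1 / 2) * (1 / 2 ^ N) := fun k => by
    simp only [cc]; ring
  have hbc : ∀ k, bc v N α β k = v k + (α k + β k + 1) / 2 * (1 / 2 ^ N) := fun k => by
    simp only [bc]; ring
  have hfw : ∀ k, fw N k = 9 / 4 * (1 / 2 ^ N) := fun k => by simp only [fw]; ring
  have h3 : (3:ℝ) / 2 ^ N = 3 * (1 / 2 ^ N) := by ring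
  have h72 : (7 / 2:ℝ) / 2 ^ N = 7 / 2 * (1 / 2 ^ N) := by ring
  have hdy : ∀ x, x ∈ dyc v N z' ↔ ∀ k, v k + z' k * (1 / 2 ^ N) ≤ x k ∧
      x k ≤ v k + (z' k + 1) * (1 / 2 ^ N) := by
    intro x
    simp only [dyc, mem_ofPred_eq, div_eq_mul_inv, one_mul]
  set ε : ℝ := 1 / 2 ^ N with hεd
  refine ⟨?_, ?_, ?_⟩
  · intro w l hsub T hT t ht y hy
    obtain ⟨ht1, ht2⟩ := hT ht
    have ht0 : 0 < t := by linarith
    have htt : t * (9 / 4 * ε) ≤ 37 / 16 * ε := by nlinarith
    rw [fBody, mem_at ht0] at hy
    rw [Wset, mem_aff_image]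
    have hsc : ∀ k, sc v N w l k = v k + (w k + if k = l then 0 else 1 / 2) * ε := fun k => by
      simp only [sc, hεd]; ring
    -- the centre is in the cube
    have hcen : sc v N w l ∈ dyc v N z' := by
      apply hsub
      rw [mem_squ]
      have hp1 : ∀ k, pt v N w k = v k + w k * ε := fun k => by simp only [pt, hεd]; ring
      refine ⟨?_, fun k hk => ?_⟩
      · rw [hsc, hp1, if_pos rfl, add_zero]
      · rw [hsc, hp1, if_neg hk]
        constructor <;> nlinarith
    have hb : ∀ k, |A.symm (y - o) k - cc v N z' k| ≤ 3 * ε := by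
      intro k
      have h1 := hy k
      rw [symm_sub', hfw] at h1
      have h1' : |A.symm (y - o) k - sc v N w l k| ≤ t * (9 / 4 * ε) := h1
      have h2 := (hdy _).1 hcen k
      have h4 : |sc v N w l k - cc v N z' k| ≤ 1 / 2 * ε := by
        rw [hcc, abs_le]
        constructor <;> nlinarith [h2.1, h2.2]
      calc |A.symm (y - o) k - cc v N z' k| = |(A.symm (y - o) k - sc v N w l k) +
            (sc v N w l k - cc v N z' k)| := by ring_nf
        _ ≤ _ := abs_add_le _ _
        _ ≤ 3 * ε := by nlinarith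
    refine ⟨fun k => ?_, fun k => ?_⟩
    · have := (abs_le.1 (hb k)).1
      show cc v N z' k - 3 / 2 ^ N ≤ _
      rw [h3]; linarith
    · have := (abs_le.1 (hb k)).2
      show _ ≤ cc v N z' k + 3 / 2 ^ N
      rw [h3]; linarith
  · intro s hs
    have hs0 := (hT0 s hs).1
    have hwall := fun j => big_wall (N := N) hαβ (hT0 s hs) j
    rw [← hεd] at hwall
    -- the wall met by the cube
    obtain ⟨x, hx1, hx2⟩ := hz
    rw [mem_frontier_hbox] at hx2
    obtain ⟨-, k, hk⟩ := hx2
    have hx1k := (hdy x).1 hx1 k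
    have hhp : ∀ γ : Fin 3 → ℤ, hp v N γ k = v k + (γ k + 1 / 2) * ε := fun γ => by
      simp only [hp, hεd]; ring
    have hzk : z' k = α k ∨ z' k = β k := by
      have aux : ∀ γ : Fin 3 → ℤ, x k = hp v N γ k → z' k = γ k := by
        intro γ hγ
        rw [hγ, hhp] at hx1k
        have h1 : (z' k : ℝ) < γ k + 1 := by
          by_contra hcon
          push Not at hcon
          have := mul_le_mul_of_nonneg_right hcon hε.le
          nlinarith [hx1k.1]
        have h2 : (γ k : ℝ) < z' k + 1 := by
          by_contra hcon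
          push Not at hcon
          have := mul_le_mul_of_nonneg_right hcon hε.le
          nlinarith [hx1k.2]
        have h1' : z' k < γ k + 1 := by exact_mod_cast h1
        have h2' : γ k < z' k + 1 := by exact_mod_cast h2
        omega
      rcases hk with hk | hk
      · exact Or.inl (aux α hk)
      · exact Or.inr (aux β hk)
    have hX : (bigBody v N o A α β T0).at s = aff o A ''
        Icc (fun k => bc v N α β k - s * bw N α β k) (fun k => bc v N α β k + s * bw N α β k) :=
      at_Icc hs0
    have h8k : (α k : ℝ) + 8 ≤ β k := by exact_mod_cast h8 k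
    have h8e : (α k + 8 : ℝ) * ε ≤ β k * ε := mul_le_mul_of_nonneg_right h8k hε.le
    obtain ⟨hw1, hw2⟩ := abs_le.1 (hwall k)
    have hmid : ∀ (a : Fin 3 → ℤ), mid v N a k k = v k + (a k + 1 / 2) * ε := fun a => by
      have : mid v N a k k = pt v N a k + (1 / 2 / 2 ^ N : ℝ) * ev k k := rfl
      rw [this, ev_same]
      simp only [pt, hεd]; ring
    have hinW : ∀ y, y ∈ Wset v N o A z' → |A.symm (y - o) k - cc v N z' k| ≤ 3 * ε := by
      intro y hy
      rw [Wset, mem_aff_image] at hy
      have h1 := hy.1 k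
      have h2 := hy.2 k
      simp only [h3] at h1 h2
      rw [abs_le]
      constructor <;> linarith
    refine ⟨?_, ?_⟩
    · rw [hX]
      refine (sep_aff (fun j => ?_) ⟨k, ?_⟩).1
      · have hj : (α j : ℝ) + 8 ≤ β j := by exact_mod_cast h8 j
        have h5 := (abs_le.1 (hwall j)).1
        have h6 : (8:ℝ) / 2 * ε ≤ (β j - α j) / 2 * ε :=
          mul_le_mul_of_nonneg_right (by linarith) hε.le
        linarith
      · simp only [h3, hcc, hbc]
        rcases hzk with h | h
        · left
          rw [h]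
          constructor <;> nlinarith
        · right
          rw [h]
          constructor <;> nlinarith
    · rcases hzk with h | h
      · obtain ⟨b, a, hb, hc, hai, -⟩ := exists_top hN.lat hαβ hU k
        refine ⟨b, a, k, hb, hc, fun hm => ?_, fun hy => ?_⟩
        · have h1 := ((hdy _).1 hm k).2
          rw [hmid, hai, h] at h1
          nlinarith
        · have h1 := (hpos s hs b a k hb hc).2.1
          rw [if_pos hai] at h1
          have h2 := hinW _ hy
          rw [h1, hcc, hbc, h] at h2
          have h5 := (abs_le.1 h2).2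
          nlinarith
      · obtain ⟨b, a, hb, hc, hai, -⟩ := exists_bot hN.lat hαβ hU k
        refine ⟨b, a, k, hb, hc, fun hm => ?_, fun hy => ?_⟩
        · have h1 := ((hdy _).1 hm k).1
          rw [hmid, hai, h] at h1
          nlinarith
        · have h1 := (hpos s hs b a k hb hc).2.1
          rw [if_neg (by rw [hai]; exact (hαβ k).ne)] at h1
          have h2 := hinW _ hy
          rw [h1, hcc, hbc, h] at h2
          have h5 := (abs_le.1 h2).1
          nlinarith
  · intro x hx y hy
    rw [Wset, mem_aff_image] at hy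
    rw [pi_norm_le_iff_of_nonneg (by positivity)]
    intro k
    have h1 := hy.1 k
    have h2 := hy.2 k
    simp only [h3] at h1 h2
    have h4 := (hdy x).1 hx k
    rw [hcc] at h1 h2
    rw [Pi.sub_apply, Real.norm_eq_abs, abs_le, h72]
    constructor <;> nlinarith [h4.1, h4.2]

end P073.Cell
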