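import Vale.Agent.P073.GBM.CellSpec3
import Vale.Agent.P073.GBM.Lattice

/-!
# P073, block SpecCell: vertices in the box, and boundaries of faces (`SpecVert`, `SpecBdIn`)
-/

open Set Metric Topology Filter MeasureTheory
open scoped ENNReal NNReal

namespace P073.Cell

open P073 P073.PR720 P073.GB73 P073.GBM P073.Gauge P073.GB1W
open Vale.Agent.P073.St (V)
open Vale.Agent.P073.AB
open Vale.Agent.P073.SQ (ev)

namespace Vert225

theorem mem_int_hbox {v x : V} {n : ℕ} {α β : Fin 3 → ℤ} : x ∈ interior (hbox v n α β) ↔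
    ∀ k, hp v n α k < x k ∧ x k < hp v n β k := by
  unfold hbox
  rw [interior_Icc_pi']
  rfl

/-- position with respect to a body, in the coordinates of the cell -/
theorem mem_int {o c w : V} {A : V ≃L[ℝ] V} {T : Set ℝ} {t : ℝ} (ht : 0 < t) {y : V} :
    y ∈ interior ((bBody (o + A c) A w T).at t) ↔ ∀ k, |A.symm (y - o) k - c k| < t * w k := by
  rw [mem_interior_at ht]
  have e : y - (o + A c) = (y - o) - A c := by abel
  rw [e, map_sub, A.symm_apply_apply]
  rfl

/-- comparison of a near-lattice coordinate with the box and with the body -/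
theorem coord {v0 X P t : ℝ} {a α β : ℤ} (hP : 0 < P) (hX : |X - (v0 + a / P)| ≤ 1 / 8 / P)
    (ht : |t - 1| * (β - α) ≤ 1 / 4) (hαβ : α < β) :
    (v0 + (α + 1 / 2) / P < v0 + a / P ∧ v0 + a / P < v0 + (β + 1 / 2) / P) ↔
      |X - (v0 + (α + β + 1) / 2 / P)| < t * ((β - α) / 2 / P) := by
  obtain ⟨s, rfl⟩ : ∃ s, X = v0 + s / P := ⟨(X - v0) * P, by field_simp; ring⟩
  have e1 : v0 + s / P - (v0 + a / P) = (s - a) / P := by ring
  have e2 : v0 + s / P - (v0 + (α + β + 1) / 2 / P) = (s - (α + β + 1) / 2) / P := by ring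
  have e3 : t * (((β:ℝ) - α) / 2 / P) = t * ((β - α) / 2) / P := by ring
  rw [e1, abs_div, abs_of_pos hP, div_le_div_iff_of_pos_right hP] at hX
  rw [e2, e3, abs_div, abs_of_pos hP, div_lt_div_iff_of_pos_right hP, add_lt_add_iff_left,
    add_lt_add_iff_left, div_lt_div_iff_of_pos_right hP, div_lt_div_iff_of_pos_right hP]
  have hd : (0:ℝ) < (β:ℝ) - α := by
    have : (α:ℝ) < β := by exact_mod_cast hαβ
    linarith
  obtain ⟨hX1, hX2⟩ := abs_le.1 hX
  have ht1 : |t * ((β:ℝ) - α) - (β - α)| ≤ 1 / 4 := by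
    have : t * ((β:ℝ) - α) - (β - α) = (t - 1) * (β - α) := by ring
    rw [this, abs_mul, abs_of_pos hd]
    exact ht
  obtain ⟨ht2, ht3⟩ := abs_le.1 ht1
  constructor
  · rintro ⟨h1, h2⟩
    have h1' : (α:ℝ) + 1 ≤ a := by
      have : (α:ℝ) < a := by linarith
      exact_mod_cast this
    have h2' : (a:ℝ) ≤ β := by
      have : (a:ℝ) < β + 1 := by linarith
      have : a < β + 1 := by exact_mod_cast this
      exact_mod_cast Int.lt_add_one_iff.1 this
    rw [abs_lt]
    constructor <;> linarith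
  · intro h
    obtain ⟨h1, h2⟩ := abs_lt.1 h
    have h1' : (α:ℝ) + 1 ≤ a := by
      have : (α:ℝ) < a := by linarith
      exact_mod_cast this
    have h2' : (a:ℝ) ≤ β := by
      have : (a:ℝ) < β + 1 := by linarith
      have : a < β + 1 := by exact_mod_cast this
      exact_mod_cast Int.lt_add_one_iff.1 this
    constructor <;> linarith

/-- distance of two points of a lattice edge, coordinatewise -/
theorem edge_dist {v : V} {N : ℕ} {z : Fin 3 → ℤ} {k : Fin 3} {x y : V}
    (hx : x ∈ edge v ((N, z), k)) (hy : y ∈ edge v ((N, z), k)) (j : Fin 3) :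
    |y j - x j| ≤ 1 / 2 ^ N := by
  have hpos : (0:ℝ) < 1 / 2 ^ N := by positivity
  rw [mem_edge] at hx hy
  by_cases hj : j = k
  · subst hj
    rw [abs_le]
    constructor <;> linarith [hx.2.1, hx.2.2, hy.2.1, hy.2.2]
  · rw [hx.1 j hj, hy.1 j hj, sub_self, abs_zero]
    exact hpos.le

/-- an edge with a point in the shrunk cell is in the cell -/
theorem edge_sub {v : V} {N : ℕ} {z : Fin 3 → ℤ} {k : Fin 3} {x q0 q1 : V}
    (hx : x ∈ edge v ((N, z), k))
    (h : ∀ j, q0 j + 1 / 2 ^ N ≤ x j ∧ x j ≤ q1 j - 1 / 2 ^ N) :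
    edge v ((N, z), k) ⊆ Icc q0 q1 := by
  intro y hy
  refine ⟨fun j => ?_, fun j => ?_⟩ <;>
    linarith [(abs_le.1 (edge_dist hx hy j)).1, (abs_le.1 (edge_dist hx hy j)).2, (h j).1, (h j).2]

end Vert225

open Vert225

/-- **(VERT)** -/
theorem specVert : SpecVert := by
  intro Vx B J I e0 e1 inc qC Ω K Λ h v N q0 q1 o A μ η hN hμ α β T0 hαβ hT0 hq t ht u
  obtain ⟨ht0, htj⟩ := hT0 t ht
  have hP : (0:ℝ) < 2 ^ N := by positivity
  have hpos : (0:ℝ) < 1 / 2 ^ N := by positivity
  have h8 : (1:ℝ) / 8 / 2 ^ N = 1 / 2 ^ N / 8 := by ring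
  have h22 : (2:ℝ) / 2 ^ N = 2 * (1 / 2 ^ N) := by ring
  obtain ⟨b, hb⟩ := K.vert_arc u
  have hub : K.y u ∈ K.arc b := by
    have h1 := (K.ball b).1
    rcases hb with rfl | rfl
    · exact h1 (Or.inl rfl)
    · exact h1 (Or.inr rfl)
  rw [mem_int_hbox]
  show _ ↔ h (K.y u) ∈ interior ((bBody (o + A (bc v N α β)) A (bw N α β) T0).at t)
  rw [mem_int ht0]
  rcases hN.off b with ⟨w, k, hbe, hsub⟩ | hoff
  · -- a lattice edge
    have hx : K.y u ∈ edge v ((N, w), k) := hbe ▸ hub
    have hsup := hN.sup w k hsub (K.y u) hx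
    obtain ⟨a, ha⟩ : ∃ a : Fin 3 → ℤ, K.y u = pt v N a := by
      rcases hb with rfl | rfl
      · exact ⟨w, hN.y0 b w k hbe⟩
      · refine ⟨fun j => if j = k then w j + 1 else w j, ?_⟩
        rw [hN.y1 b w k hbe]
        funext j
        by_cases hj : j = k
        · subst hj
          simp only [Pi.add_apply, Pi.smul_apply, smul_eq_mul, ev_same, mul_one, pt_succ]
          simp [pt]
        · simp only [Pi.add_apply, Pi.smul_apply, smul_eq_mul, ev_of_ne hj, mul_zero, add_zero]
          simp [pt, hj]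
    refine forall_congr' fun j => ?_
    have h1 : |A.symm (h (K.y u) - o) j - (v j + a j / 2 ^ N)| ≤ 1 / 8 / 2 ^ N := by
      have h2 := (norm_le_pi_norm (A.symm (h (K.y u) - o) - K.y u) j).trans (hsup.trans hμ)
      rw [Real.norm_eq_abs, Pi.sub_apply] at h2
      have h3 : K.y u j = v j + a j / 2 ^ N := by rw [ha]; rfl
      rwa [h3] at h2
    have h3 : K.y u j = v j + a j / 2 ^ N := by rw [ha]; rfl
    rw [h3]
    exact coord hP h1 (htj j) (hαβ j)
  · -- far away
    constructor
    · intro hx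
      exfalso
      have hx' : ∀ j, q0 j + 2 / 2 ^ N < K.y u j ∧ K.y u j < q1 j - 2 / 2 ^ N := fun j =>
        ⟨(hq j).1.trans_lt (hx j).1, (hx j).2.trans_le (hq j).2⟩
      have hxi : K.y u ∈ interior (Icc q0 q1) := by
        rw [interior_Icc_pi']
        intro j
        have := hx' j
        constructor <;> linarith
      obtain ⟨z, k, hz⟩ := hN.lat.arc b ⟨K.y u, hub, hxi⟩
      have hxe : K.y u ∈ edge v ((N, z), k) := hz ▸ hub
      have hsub : edge v ((N, z), k) ⊆ Icc q0 q1 := edge_sub hxe fun j => by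
        have := hx' j
        constructor <;> linarith
      have hsup := hN.sup z k hsub (K.y u) hxe
      apply hoff (K.y u) hub
      intro j
      have h2 := (norm_le_pi_norm (A.symm (h (K.y u) - o) - K.y u) j).trans (hsup.trans hμ)
      rw [Real.norm_eq_abs, Pi.sub_apply, abs_le, h8] at h2
      have := hx' j
      rw [h22] at this
      constructor <;> linarith
    · intro hx
      exfalso
      apply hoff (K.y u) hub
      intro j
      have h1 := abs_lt.1 (hx j)
      have hd : (0:ℝ) < (β j:ℝ) - α j := by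
        have : (α j:ℝ) < β j := by exact_mod_cast hαβ j
        linarith
      have h2 : |(t - 1) * ((β j:ℝ) - α j)| ≤ 1 / 4 := by
        rw [abs_mul, abs_of_pos hd]
        exact htj j
      have h3 : t * bw N α β j ≤ bw N α β j + 1 / 8 / 2 ^ N := by
        have e : t * bw N α β j - bw N α β j = (t - 1) * ((β j:ℝ) - α j) / 2 / 2 ^ N := by
          simp only [bw]; ring
        have : (t - 1) * ((β j:ℝ) - α j) / 2 / 2 ^ N ≤ 1 / 8 / 2 ^ N := by
          rw [div_le_div_iff_of_pos_right hP]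
          linarith [(abs_le.1 h2).2]
        linarith
      have e1 : bc v N α β j - bw N α β j = hp v N α j := by
        simp only [bc, bw, hp]; ring
      have e2 : bc v N α β j + bw N α β j = hp v N β j := by
        simp only [bc, bw, hp]; ring
      have := hq j
      rw [h22] at this
      constructor <;> linarith [h1.1, h1.2]

/-- **(BD)** -/
theorem specBdIn : SpecBdIn := by
  intro Vx B J I e0 e1 inc qC Ω K Λ h v N q0 q1 o A μ η hN hμ j w l T hj hsq hT t ht
  have hP : (0:ℝ) < 2 ^ N := by positivity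
  have ht' := hT ht
  have ht0 : 0 < t := by linarith [ht'.1]
  rintro _ ⟨x, hx, rfl⟩
  obtain ⟨b, hb, hxb⟩ := mem_iUnion₂.1 hx
  have hbj : K.arc b ⊆ squ v ((N, w), l) := hj ▸ K.toCx2.arc_subset_tile hb
  obtain ⟨z, k, hz⟩ := hN.lat.arc b ⟨x, hxb, hsq (hbj hxb)⟩
  have hsub : edge v ((N, z), k) ⊆ Icc q0 q1 := by
    rw [← hz]
    exact (hbj.trans hsq).trans interior_subset
  have hsup := hN.sup z k hsub x (hz ▸ hxb)
  show h x ∈ interior ((bBody (o + A (sc v N w l)) A (fw N) T).at t)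
  rw [mem_int ht0]
  intro i
  have h2 := (norm_le_pi_norm (A.symm (h x - o) - x) i).trans (hsup.trans hμ)
  rw [Real.norm_eq_abs, Pi.sub_apply, abs_le] at h2
  have hxs := mem_squ.1 (hbj hxb)
  have h3 : |x i - sc v N w l i| ≤ 1 / 2 / 2 ^ N := by
    have e : pt v N w i = v i + w i / 2 ^ N := rfl
    by_cases hi : i = l
    · subst hi
      have e2 : sc v N w i i = v i + w i / 2 ^ N := by simp [sc]
      rw [hxs.1, e2, e, sub_self, abs_zero]
      positivity
    · have e2 : sc v N w l i = pt v N w i + 1 / 2 / 2 ^ N := by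
        simp only [sc, hi, if_false]; rw [e]; ring
      have e3 : (1:ℝ) / 2 ^ N = 1 / 2 / 2 ^ N + 1 / 2 / 2 ^ N := by ring
      have h4 := hxs.2 i hi
      rw [e2, abs_le]
      rw [e3] at h4
      constructor <;> linarith [h4.1, h4.2]
  rw [abs_le] at h3
  have h5 : (1:ℝ) / 8 / 2 ^ N + 1 / 2 / 2 ^ N < t * fw N i := by
    have e : t * fw N i = t * (9 / 4) / 2 ^ N := by simp only [fw]; ring
    have e2 : (1:ℝ) / 8 / 2 ^ N + 1 / 2 / 2 ^ N = (5 / 8) / 2 ^ N := by ring
    rw [e, e2, div_lt_div_iff_of_pos_right hP]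
    linarith [ht'.1]
  rw [abs_lt]
  constructor <;> linarith [h2.1, h2.2, h3.1, h3.2]

end P073.Cell
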