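import Vale.Agent.P073.GBM.CellCore
import Vale.Agent.P073.GBM.CellU
import Vale.Agent.P073.GBM.Vert225
import Vale.Agent.P073.GBM.Gap489
import Vale.Agent.P073.GBM.S371
import Vale.Agent.P073.GB73.SpecCollar
import Vale.Agent.P073.Spec.Gauge2

/-!
# P073, block SpecCell: the composition
-/

open Set Metric Topology Filter MeasureTheory
open scoped ENNReal NNReal

namespace P073.Cell

open P073 P073.PR720 P073.GB73 P073.GBM P073.Gauge P073.GB1W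
open Vale.Agent.P073.St (V)
open Vale.Agent.P073.AB
open Vale.Agent.P073.SQ (ev)
open P073.Net (dyc dyo)

section aux

variable {v : V} {n₂ k₁ k₀ : ℕ} {z : Fin 3 → ℤ}

theorem interior_boxB : interior (boxB v n₂ k₁ z) =
    {x | ∀ k, qlo v n₂ z k + 1 / 2 ^ (n₂ + k₁) < x k ∧
      x k < qhi v n₂ z k - 1 / 2 ^ (n₂ + k₁)} := by
  have h1 : boxB v n₂ k₁ z = Icc (fun k => qlo v n₂ z k + 1 / 2 ^ (n₂ + k₁))
      (fun k => qhi v n₂ z k - 1 / 2 ^ (n₂ + k₁)) := by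
    ext x
    simp only [mem_Icc, Pi.le_def]
    constructor
    · intro h; exact ⟨fun k => (h k).1, fun k => (h k).2⟩
    · intro h k; exact ⟨h.1 k, h.2 k⟩
  rw [h1, interior_Icc_pi']

/-- the crossed edges are in the interior of `boxB`, up to one end point -/
theorem crossed_end {a : Fin 3 → ℤ} {k : Fin 3} (hk₁ : 3 ≤ k₁) (hk₀ : 3 ≤ k₀)
    (hc : CrossZ (al k₁ k₀ z) (be k₁ k₀ z) a k)
    {x : V} (hx : x ∈ edge v ((gN n₂ k₁ k₀, a), k)) (hxB : x ∉ interior (boxB v n₂ k₁ z)) :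
    x = pt v (gN n₂ k₁ k₀) a ∨
      x = pt v (gN n₂ k₁ k₀) a + (1 / 2 ^ (gN n₂ k₁ k₀) : ℝ) • ev k := by
  have hd : (0:ℝ) < 1 / 2 ^ (gN n₂ k₁ k₀) := by positivity
  have h8 := pow_k0R hk₀
  have h64 := pow_k1R (k₀ := k₀) hk₁
  rw [GBM.mem_edge] at hx
  obtain ⟨h1, h2, h3⟩ := hx
  rw [interior_boxB] at hxB
  have hpt : ∀ j, pt v (gN n₂ k₁ k₀) a j = v j + a j * (1 / 2 ^ (gN n₂ k₁ k₀)) := by
    intro j; unfold pt; ring
  -- the other coordinates are inside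
  have hj : ∀ j, j ≠ k → qlo v n₂ z j + 1 / 2 ^ (n₂ + k₁) < x j ∧
      x j < qhi v n₂ z j - 1 / 2 ^ (n₂ + k₁) := by
    intro j hj
    have h4 := hc.2 j hj
    have h5 : (z j : ℝ) * 2 ^ (k₁ + k₀) + 2 ^ k₀ < a j := by
      have : al k₁ k₀ z j < a j := h4.1
      unfold al at this
      exact_mod_cast this
    have h6 : (a j : ℝ) ≤ (z j + 1) * 2 ^ (k₁ + k₀) - 2 ^ k₀ - 1 := by
      have : a j ≤ be k₁ k₀ z j := h4.2
      unfold be at this
      exact_mod_cast this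
    rw [h1 j hj, hpt, qlo_eq n₂ k₁ k₀, qhi_eq n₂ k₁ k₀, gd n₂ k₁ k₀]
    have h7 := mul_lt_mul_of_pos_right h5 hd
    have h9 : (a j : ℝ) * (1 / 2 ^ (gN n₂ k₁ k₀)) <
        ((z j + 1) * 2 ^ (k₁ + k₀) - 2 ^ k₀) * (1 / 2 ^ (gN n₂ k₁ k₀)) :=
      mul_lt_mul_of_pos_right (by linarith) hd
    constructor <;> linarith
  have hk : ¬ (qlo v n₂ z k + 1 / 2 ^ (n₂ + k₁) < x k ∧ x k < qhi v n₂ z k - 1 / 2 ^ (n₂ + k₁)) := by
    intro hk
    apply hxB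
    intro j
    by_cases hjk : j = k
    · rw [hjk]; exact hk
    · exact hj j hjk
  rw [qlo_eq n₂ k₁ k₀, qhi_eq n₂ k₁ k₀, gd n₂ k₁ k₀] at hk
  rw [hpt] at h2 h3
  rcases hc.1 with h4 | h4
  · left
    have h5 : (a k : ℝ) = z k * 2 ^ (k₁ + k₀) + 2 ^ k₀ := by
      rw [h4]; unfold al; push_cast; ring
    have h6 : x k = pt v (gN n₂ k₁ k₀) a k := by
      rw [hpt]
      by_contra hne
      apply hk
      rw [h5] at h2 h3 hne
      have h7 : (0:ℝ) < (2 ^ (k₁ + k₀) - 2 * 2 ^ k₀ - 1) * (1 / 2 ^ (gN n₂ k₁ k₀)) :=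
        mul_pos (by linarith) hd
      constructor
      · rcases h2.lt_or_eq with h9 | h9
        · linarith
        · exact absurd h9.symm hne
      · linarith
    funext j
    by_cases hjk : j = k
    · rw [hjk]; exact h6
    · exact h1 j hjk
  · right
    have h5 : (a k : ℝ) = (z k + 1) * 2 ^ (k₁ + k₀) - 2 ^ k₀ - 1 := by
      rw [h4]; unfold be; push_cast; ring
    have h6 : x k = pt v (gN n₂ k₁ k₀) a k + 1 / 2 ^ (gN n₂ k₁ k₀) := by
      rw [hpt]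
      by_contra hne
      apply hk
      rw [h5] at h2 h3 hne
      have h7 : (0:ℝ) < (2 ^ (k₁ + k₀) - 2 * 2 ^ k₀ - 1) * (1 / 2 ^ (gN n₂ k₁ k₀)) :=
        mul_pos (by linarith) hd
      constructor
      · linarith
      · rcases h3.lt_or_eq with h9 | h9
        · linarith
        · exact absurd h9 hne
    funext j
    by_cases hjk : j = k
    · subst hjk
      rw [h6, Pi.add_apply, Pi.smul_apply, ev_same, smul_eq_mul, mul_one]
    · rw [h1 j hjk, Pi.add_apply, Pi.smul_apply, ev_of_ne hjk, smul_zero, add_zero]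

end aux

/-- the choice of `k₀` -/
theorem exists_K0 (a b : ℝ) (k₁ : ℕ) : ∃ K₀ : ℕ, ∀ k₀ ≥ K₀, 3 ≤ k₀ ∧ a ≤ 2 ^ k₀ ∧
    b ≤ 2 ^ (k₁ + k₀) := by
  obtain ⟨m, hm⟩ := pow_unbounded_of_one_lt (max a b) (by norm_num : (1:ℝ) < 2)
  refine ⟨max 3 m, fun k₀ hk => ⟨(le_max_left _ _).trans hk, ?_, ?_⟩⟩
  · calc a ≤ max a b := le_max_left _ _
      _ ≤ 2 ^ m := hm.le
      _ ≤ 2 ^ k₀ := pow_le_pow_right₀ (by norm_num) ((le_max_right _ _).trans hk)
  · calc b ≤ max a b := le_max_right _ _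
      _ ≤ 2 ^ m := hm.le
      _ ≤ 2 ^ (k₁ + k₀) := pow_le_pow_right₀ (by norm_num)
          (((le_max_right _ _).trans hk).trans (Nat.le_add_left _ _))

/-- the choice of `κ` -/
theorem exists_kappa {θ p R : ℝ} (hθ : 0 < θ) (hR : 1 ≤ R) :
    ∃ l > 0, ∃ κ > 0, κ ≤ 1 ∧ κ ≤ l ^ p ∧ ∀ N : ℕ,
      θ⁻¹ * κ / 2 ^ N ≤ 1 / 8 / 2 ^ N ∧
      450 * ((2 * (θ⁻¹ * κ / 2 ^ N) + θ⁻¹ * (2 * l) / 2 ^ N) / (9 / 4 / 2 ^ N)) < 1 / 18 ∧
      3 * (R + 1) ^ 3 * ((2 * (θ⁻¹ * κ / 2 ^ N) + θ⁻¹ * (2 * l) / 2 ^ N) / (R / 2 / 2 ^ N)) <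
        1 / (2 * R) := by
  set X : ℝ := 100000 * (R + 1) ^ 3 with hX
  have hR3 : 8 ≤ (R + 1) ^ 3 := by nlinarith [sq_nonneg (R - 1), sq_nonneg R]
  have hX0 : 0 < X := by positivity
  have hX1 : 800000 ≤ X := by linarith
  set l : ℝ := θ / X with hl
  have hl0 : 0 < l := by positivity
  have hθl : θ⁻¹ * l = 1 / X := by rw [hl]; field_simp
  refine ⟨l, hl0, min 1 (min l (l ^ p)), by positivity, min_le_left _ _,
    (min_le_right _ _).trans (min_le_right _ _), fun N => ?_⟩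
  set κ : ℝ := min 1 (min l (l ^ p)) with hκ
  have hκl : κ ≤ l := (min_le_right _ _).trans (min_le_left _ _)
  have hθi : 0 < θ⁻¹ := inv_pos.2 hθ
  have h1 : θ⁻¹ * κ ≤ 1 / X := hθl ▸ mul_le_mul_of_nonneg_left hκl hθi.le
  have h2 : 1 / X ≤ 1 / 800000 := one_div_le_one_div_of_le (by norm_num) hX1
  have hN : (0:ℝ) < 2 ^ N := by positivity
  have h3 : ∀ c : ℝ, 0 < c → (2 * (θ⁻¹ * κ / 2 ^ N) + θ⁻¹ * (2 * l) / 2 ^ N) / (c / 2 ^ N) ≤
      4 * (1 / X) / c := by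
    intro c hc
    have h4 : (2 * (θ⁻¹ * κ / 2 ^ N) + θ⁻¹ * (2 * l) / 2 ^ N) / (c / 2 ^ N) =
        (2 * (θ⁻¹ * κ) + 2 * (θ⁻¹ * l)) / c := by
      field_simp
    rw [h4, hθl]
    exact div_le_div_of_nonneg_right (by linarith) hc.le
  refine ⟨?_, ?_, ?_⟩
  · exact div_le_div_of_nonneg_right (by linarith) hN.le
  · have := h3 (9 / 4) (by norm_num)
    have h5 : 4 * (1 / X) / (9 / 4) ≤ 4 * (1 / 800000) / (9 / 4) :=
      div_le_div_of_nonneg_right (by linarith) (by norm_num)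
    have h6 : (450:ℝ) * (4 * (1 / 800000) / (9 / 4)) < 1 / 18 := by norm_num
    linarith
  · have hR0 : 0 < R := by linarith
    have := h3 (R / 2) (by positivity)
    have h7 : 3 * (R + 1) ^ 3 * (4 * (1 / X) / (R / 2)) < 1 / (2 * R) := by
      have h8 : 3 * (R + 1) ^ 3 * (4 * (1 / X) / (R / 2)) = 24 / 100000 / R := by
        rw [hX]
        field_simp
        ring
      rw [h8, div_lt_div_iff₀ hR0 (by positivity)]
      nlinarith
    have h9 : 0 ≤ 3 * (R + 1) ^ 3 := by positivity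
    exact (mul_le_mul_of_nonneg_left this h9).trans_lt h7

/-- **(CELL2)** from the block GB -/
theorem specCell2_of (hGB : SpecGB) : SpecCell2 := by
  intro p θ M hp hθ hM
  have hCpos : 0 < (9 / 4 * M) ^ p + 4 ^ p * (1 + M ^ p) := by positivity
  refine ⟨(9 / 4 * M) ^ p + 4 ^ p * (1 + M ^ p), hCpos, fun k₁ hk₁ => ?_⟩
  obtain ⟨ρ0, hρ0, hU⟩ := specU specCollar k₁ hk₁
  obtain ⟨K₀, hK₀⟩ := exists_K0 (4 / ρ0) (4 * M) k₁
  refine ⟨K₀, fun k₀ hk₀' => ?_⟩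
  obtain ⟨hk₀, hρk, hMk⟩ := hK₀ k₀ hk₀'
  have hR : (1:ℝ) ≤ RR k₁ k₀ := by
    have := RR_ge hk₁ hk₀
    have h2 : (47:ℝ) ≤ RR k₁ k₀ := by exact_mod_cast this
    linarith
  obtain ⟨l, hl, κ, hκ, hκ1, hκl, hnum⟩ := exists_kappa (θ := θ) (p := p) hθ hR
  refine ⟨κ, hκ, ?_⟩
  intro Ω Λ v I D n₂ z A L h hΩ hΛ hI H Z hZ hZd hZh
  obtain ⟨AL, hAL, hAs, hA, HN⟩ := near_of_cellHyp hp hθ hl hκ.le hκl hΩ hI H H.fine D
  obtain ⟨hn1, hn2, hn3⟩ := hnum (gN n₂ k₁ k₀)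
  have hd : (0:ℝ) < 1 / 2 ^ (gN n₂ k₁ k₀) := by positivity
  have hshr : ∀ y, Reg (gN n₂ k₁ k₀) (qlo v n₂ z) (qhi v n₂ z) (A 0) AL y →
      y ∈ A '' shrink v n₂ z (1 / 2 ^ (n₂ + k₁ + k₀)) := by
    intro y hy
    refine ⟨AL.symm (y - A 0), fun k => hy k, ?_⟩
    rw [hA, AL.apply_symm_apply]; abel
  obtain ⟨h3, Lt, χ, q, O⟩ := cell_core hGB specS1 specS2 specS3 specVert specBdIn hΩ hΛ HN hk₁ hk₀ hn1
    hn2 hn3 (hU v n₂ k₀ z (by omega)) (by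
      rw [show (4:ℝ) / 2 ^ (gN n₂ k₁ k₀) = 4 * (1 / 2 ^ (gN n₂ k₁ k₀)) by ring,
        div_eq_mul_one_div ρ0, gd n₂ k₁ k₀, ← mul_assoc]
      refine mul_le_mul_of_nonneg_right ?_ hd.le
      rwa [div_le_iff₀' hρ0] at hρk) hZ hZd
    (fun x hx hr => hZh x hx (hshr _ hr))
  refine ⟨h3, ⟨fun x hx => ?_, fun e he hs1 hs2 => ?_⟩, fun e he x hx => ?_, O.prot⟩
  · exact (O.box x hx).trans (hA x).symm
  · obtain ⟨g1, g2⟩ := specGap D.Vx D.B D.J I D.e0 D.e1 D.inc D.qC Ω D.K Λ h.toFun v n₂ k₁ k₀ z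
      (qlo v n₂ z) (qhi v n₂ z) (A 0) AL _ _ HN (dyc_eq_Icc v n₂ z).symm p M κ hp hM hκ.le
      (fun w => by rw [hAL]; exact H.above w) hk₁ hk₀ hn1 hMk
      (fun e he hs => by rw [hAL]; exact (H.own e he hs).2)
      h3.toFun Lt χ q O.cut O.out O.chi O.box O.mark O.close O.lip e he hs1 hs2
    refine ⟨fun x hx => by rw [hA x]; exact g1 x hx, g2.trans (ENNReal.ofReal_le_ofReal ?_)⟩
    gcongr
  · obtain ⟨S, hS⟩ := D.edges e he
    have hx' := hx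
    rw [hS] at hx'
    obtain ⟨b, hbS, hxb⟩ := mem_iUnion₂.1 hx'
    have hsub : edge v (D.φ b) ⊆ edge v e := by
      rw [hS]
      exact subset_biUnion_of_mem (u := fun b => edge v (D.φ b)) hbS
    rw [← D.arc b] at hsub hxb
    refine ⟨fun hxB => ?_, ?_⟩
    · have hxI : x ∉ interior (Icc (lo v n₂ k₁ k₀ z) (hi v n₂ k₁ k₀ z)) := by
        intro hxI
        apply hxB
        rw [interior_Icc_pi'] at hxI
        rw [interior_boxB]
        intro k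
        have h1 := hxI k
        rw [lo_apply, hi_apply] at h1
        rw [qlo_eq n₂ k₁ k₀, qhi_eq n₂ k₁ k₀, gd n₂ k₁ k₀]
        constructor <;> linarith [h1.1, h1.2]
      rw [O.out b x hxb hxI]
      by_cases hc : b ∈ crossed D.K (hbox v (gN n₂ k₁ k₀) (al k₁ k₀ z) (be k₁ k₀ z))
      · have hαβ : ∀ k, al k₁ k₀ z k < be k₁ k₀ z k := fun k => by
          have := RR_ge hk₁ hk₀
          rw [be_eq]; linarith
        have hfr : frontier (hbox v (gN n₂ k₁ k₀) (al k₁ k₀ z) (be k₁ k₀ z)) ⊆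
            interior (Icc (qlo v n₂ z) (qhi v n₂ z)) := by
          rw [interior_Icc_pi']
          intro x hx k
          have h1 := (mem_frontier_hbox.1 hx).1 k
          have h0 : (al k₁ k₀ z k : ℝ) < be k₁ k₀ z k := by exact_mod_cast hαβ k
          have h2 := (near_box (n₂ := n₂) (v := v) hk₀ (w := al k₁ k₀ z k + 1 / 2)
            (k := k) (z := z) (k₁ := k₁) (by linarith) (by linarith)).1
          have h3 := (near_box (n₂ := n₂) (v := v) hk₀ (w := be k₁ k₀ z k + 1 / 2)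
            (k := k) (z := z) (k₁ := k₁) (by linarith) (by linarith)).2
          have e8 : (8:ℝ) / 2 ^ (gN n₂ k₁ k₀) = 8 * (1 / 2 ^ (gN n₂ k₁ k₀)) := by ring
          rw [e8] at h2 h3
          unfold GBM.hp at h1
          constructor <;> linarith [h1.1, h1.2]
        obtain ⟨a, k, ha, hck⟩ := (HN.lat.mem_crossed hαβ hfr b).1 hc
        rw [ha] at hxb
        rcases crossed_end hk₁ hk₀ hck hxb hxB with hx1 | hx1
        · rw [hx1, ← HN.y0 b a k ha, O.chi0]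
        · rw [hx1, ← HN.y1 b a k ha, O.chi1]
      · rw [O.chi_id b hc x hxb]
    · by_cases hxI : x ∈ Icc (lo v n₂ k₁ k₀ z) (hi v n₂ k₁ k₀ z)
      · right
        exact hshr _ (O.reg x hxI)
      · left
        rw [O.out b x hxb (fun h' => hxI (interior_subset h'))]
        exact ⟨χ b x, hsub (O.chi_mem b x hxb), rfl⟩

end P073.Cell
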