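import Vale.Agent.P073.GBM.CellSpec2
import Vale.Agent.P073.GBM.CellLa
import Vale.Agent.P073.Gauge.Lin907

/-!
# P073, block SpecCell: the normalised situation `Near` from `CellHyp`
-/

open Set Metric Topology Filter MeasureTheory
open scoped ENNReal NNReal

namespace P073.Cell

open P073 P073.PR720 P073.GB73 P073.GBM P073.Gauge P073.GB1W
open Vale.Agent.P073.St (V)
open Vale.Agent.P073.AB
open Vale.Agent.P073.SQ (ev)
open P073.Net (dyc dyo)

/-- lower corner of the cell -/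
noncomputable def qlo (v : V) (n₂ : ℕ) (z : Fin 3 → ℤ) : V := fun k => v k + z k / 2 ^ n₂

/-- upper corner of the cell -/
noncomputable def qhi (v : V) (n₂ : ℕ) (z : Fin 3 → ℤ) : V := fun k => v k + (z k + 1) / 2 ^ n₂

theorem dyc_eq_Icc (v : V) (n₂ : ℕ) (z : Fin 3 → ℤ) : dyc v n₂ z = Icc (qlo v n₂ z) (qhi v n₂ z) := by
  ext x
  simp only [mem_Icc, Pi.le_def, qlo, qhi]
  constructor
  · intro h; exact ⟨fun k => (h k).1, fun k => (h k).2⟩
  · intro h k; exact ⟨h.1 k, h.2 k⟩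

/-- elementary inequality replacing Jensen's -/
theorem le_add_rpow {p x l : ℝ} (hp : 1 ≤ p) (hx : 0 ≤ x) (hl : 0 < l) :
    x ≤ l + l ^ (1 - p) * x ^ p := by
  rcases le_total x l with h | h
  · have : 0 ≤ l ^ (1 - p) * x ^ p := by positivity
    linarith
  · have hx0 : 0 < x := hl.trans_le h
    have h1 : x = x ^ (1 - p) * x ^ p := by
      rw [← Real.rpow_add hx0]; simp
    have h2 : x ^ (1 - p) ≤ l ^ (1 - p) := Real.rpow_le_rpow_of_nonpos hl h (by linarith)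
    have h3 : x ^ (1 - p) * x ^ p ≤ l ^ (1 - p) * x ^ p :=
      mul_le_mul_of_nonneg_right h2 (by positivity)
    linarith

theorem lintegral_le_of_rpow {p κ l d : ℝ} (hp : 1 ≤ p) (hd : 0 < d) (hl : 0 < l) (hκ0 : 0 ≤ κ)
    (hκ : κ ≤ l ^ p) {f : ℝ → ℝ} (hf : ∀ t, 0 ≤ f t)
    (H : ∫⁻ t in Icc (0:ℝ) 1, ENNReal.ofReal (f t ^ p) ≤ ENNReal.ofReal (κ * d ^ p)) :
    ∫⁻ t in Icc (0:ℝ) 1, ENNReal.ofReal (f t) ≤ ENNReal.ofReal (2 * l * d) := by
  have hld : 0 < l * d := by positivity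
  calc ∫⁻ t in Icc (0:ℝ) 1, ENNReal.ofReal (f t)
      ≤ ∫⁻ t in Icc (0:ℝ) 1, (ENNReal.ofReal (l * d) +
          ENNReal.ofReal ((l * d) ^ (1 - p)) * ENNReal.ofReal (f t ^ p)) := by
        refine lintegral_mono fun t => ?_
        rw [← ENNReal.ofReal_mul (by positivity),
          ← ENNReal.ofReal_add hld.le (mul_nonneg (by positivity) (Real.rpow_nonneg (hf t) p))]
        exact ENNReal.ofReal_le_ofReal (le_add_rpow hp (hf t) hld)
    _ = ENNReal.ofReal (l * d) + ENNReal.ofReal ((l * d) ^ (1 - p)) *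
          ∫⁻ t in Icc (0:ℝ) 1, ENNReal.ofReal (f t ^ p) := by
        rw [lintegral_add_left measurable_const, lintegral_const_mul' _ _ ENNReal.ofReal_ne_top]
        congr 1
        rw [lintegral_const]
        simp
    _ ≤ ENNReal.ofReal (l * d) + ENNReal.ofReal ((l * d) ^ (1 - p)) *
          ENNReal.ofReal (κ * d ^ p) := by gcongr
    _ = ENNReal.ofReal (l * d + (l * d) ^ (1 - p) * (κ * d ^ p)) := by
        rw [← ENNReal.ofReal_mul (by positivity), ← ENNReal.ofReal_add hld.le (by positivity)]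
    _ ≤ _ := by
        refine ENNReal.ofReal_le_ofReal ?_
        have h1 : (l * d) ^ (1 - p) * (κ * d ^ p) ≤ (l * d) ^ (1 - p) * (l ^ p * d ^ p) := by
          gcongr
        have h2 : (l * d) ^ (1 - p) * (l ^ p * d ^ p) = l * d := by
          rw [← Real.mul_rpow hl.le hd.le, ← Real.rpow_add hld]; simp
        rw [h2] at h1
        linarith

/-- the linear part as a continuous linear equivalence -/
theorem exists_equiv {L : V →L[ℝ] V} {θ : ℝ} (hθ : 0 < θ) (hb : ∀ w, θ * ‖w‖ ≤ ‖L w‖) :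
    ∃ A : V ≃L[ℝ] V, (∀ w, A w = L w) ∧ ∀ w, ‖A.symm w‖ ≤ θ⁻¹ * ‖w‖ := by
  have hinj : Function.Injective (L : V →ₗ[ℝ] V) := by
    rw [← LinearMap.ker_eq_bot, LinearMap.ker_eq_bot']
    intro w hw
    have h1 := hb w
    have h2 : L w = 0 := hw
    rw [h2, norm_zero] at h1
    have h3 : ‖w‖ ≤ 0 := by
      by_contra h4
      push Not at h4
      have := mul_pos hθ h4
      linarith
    exact norm_le_zero_iff.1 h3
  let A : V ≃L[ℝ] V := (LinearEquiv.ofInjectiveEndo (L : V →ₗ[ℝ] V) hinj).toContinuousLinearEquiv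
  have hA : ∀ w, A w = L w := fun w => rfl
  refine ⟨A, hA, fun w => ?_⟩
  have h1 := hb (A.symm w)
  rw [← hA, A.apply_symm_apply] at h1
  rw [le_inv_mul_iff₀ hθ]
  exact h1

/-- **`Near` from `CellHyp`** -/
theorem near_of_cellHyp {p θ M κ l : ℝ} {k₁ k₀ n₂ : ℕ} {Ω Λ : Set V} {v : V} {I : Set Idx}
    {z : Fin 3 → ℤ} {A : V → V} {L : V →L[ℝ] V} {h : ConHomeo Ω Λ} (hp : 1 ≤ p) (hθ : 0 < θ)
    (hl : 0 < l) (hκ0 : 0 ≤ κ) (hκ : κ ≤ l ^ p) (hΩ : IsOpen Ω) (hI : Part Ω v I)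
    (H : CellHyp p θ M κ k₁ k₀ n₂ Λ v I z A L h.toFun)
    (hfine : ∀ z', (dyc v (n₂ + k₁ + k₀) z' ∩ dyc v n₂ z).Nonempty →
      ((n₂ + k₁ + k₀, z') : Idx) ∈ I) (D : DyCx Ω v I) :
    ∃ AL : V ≃L[ℝ] V, (∀ w, AL w = L w) ∧ (∀ w, ‖AL.symm w‖ ≤ θ⁻¹ * ‖w‖) ∧
      (∀ x, A x = A 0 + AL x) ∧
      Near D.K Λ h.toFun v (n₂ + k₁ + k₀) (qlo v n₂ z) (qhi v n₂ z) (A 0) AL
        (θ⁻¹ * κ / 2 ^ (n₂ + k₁ + k₀)) (θ⁻¹ * (2 * l) / 2 ^ (n₂ + k₁ + k₀)) := by
  obtain ⟨AL, hAL, hAs⟩ := exists_equiv hθ H.below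
  have hA : ∀ x, A x = A 0 + AL x := by
    intro x
    have := H.aff 0 x
    rw [hAL, ← sub_eq_iff_eq_add', this, sub_zero]
  set N := n₂ + k₁ + k₀ with hN
  have hd : (0:ℝ) < 1 / 2 ^ N := by positivity
  have hθi : 0 < θ⁻¹ := inv_pos.2 hθ
  obtain ⟨hlat, hgen, hφ⟩ := specLa Ω v I D n₂ N z hΩ hI hfine
  have hyy0 : ∀ b w k, D.K.arc b = edge v ((N, w), k) → D.K.y (D.e0 b) = pt v N w := by
    intro b w k hb
    rw [D.y0 b, hφ b w k hb]
  have hyy1 : ∀ b w k, D.K.arc b = edge v ((N, w), k) →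
      D.K.y (D.e1 b) = pt v N w + (1 / 2 ^ N : ℝ) • ev k := by
    intro b w k hb
    rw [D.y1 b, hφ b w k hb]
  have hsub : ∀ b, D.K.arc b ⊆ Ω := by
    intro b
    rw [D.arc b]
    obtain ⟨q, hq, he⟩ := D.edgeOf b
    exact (Gr.edge_subset_dyc he).trans (hI.sub q hq)
  refine ⟨AL, hAL, hAs, hA, ?_, hyy0, hyy1, ?_, ?_, ?_, ?_, ?_, ?_, ?_⟩
  · rw [← dyc_eq_Icc]; exact hlat
  · intro b w k hb
    have hseg : ∀ t ∈ Icc (0:ℝ) 1, D.K.y (D.e0 b) + t • (D.K.y (D.e1 b) - D.K.y (D.e0 b)) ∈ Ω := by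
      intro t ht
      apply hsub b
      rw [hb, hyy0 b w k hb, hyy1 b w k hb]
      unfold edge
      rw [segment_eq_image']
      exact ⟨t, ht, rfl⟩
    exact (specLin Ω Λ h _ _ hΩ hseg).2.2
  · intro w k hw x hx
    have h1 := (H.own ((N, w), k) rfl (by rw [dyc_eq_Icc]; exact hw)).1 x hx
    have h2 : AL.symm (h.toFun x - A 0) - x = AL.symm (h.toFun x - A x) := by
      rw [hA x, ← sub_sub, map_sub AL.symm (h.toFun x - A 0), AL.symm_apply_apply]
    rw [h2]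
    refine (hAs _).trans ?_
    rw [mul_div_assoc]
    exact mul_le_mul_of_nonneg_left h1 hθi.le
  · intro b w k hb hw
    have h1 := (H.own ((N, w), k) rfl (by rw [dyc_eq_Icc]; exact hw)).2
    have hy0 := hyy0 b w k hb
    have hy1 := hyy1 b w k hb
    have hg : (fun s => h.toFun (gam v ((N, w), k) s)) = fun s => h.toFun (eb D.K.toGraph b s) := by
      funext s
      unfold gam eb
      simp only
      rw [hy0, hy1, add_sub_cancel_left]
    have h2 : ∫⁻ t in Icc (0:ℝ) 1, ENNReal.ofReal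
        (‖deriv (fun s => h.toFun (eb D.K.toGraph b s)) t - L ((1 / 2 ^ N : ℝ) • ev k)‖ ^ p) ≤
        ENNReal.ofReal (κ * (1 / 2 ^ N) ^ p) := by
      rw [← hg]; exact h1
    have h3 := lintegral_le_of_rpow hp hd hl hκ0 hκ (fun t => norm_nonneg
      (deriv (fun s => h.toFun (eb D.K.toGraph b s)) t - L ((1 / 2 ^ N : ℝ) • ev k))) h2
    calc ∫⁻ s in Icc (0:ℝ) 1, ENNReal.ofReal
          ‖AL.symm (deriv (fun s => h.toFun (eb D.K.toGraph b s)) s) -
            (D.K.y (D.e1 b) - D.K.y (D.e0 b))‖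
        ≤ ∫⁻ s in Icc (0:ℝ) 1, ENNReal.ofReal θ⁻¹ * ENNReal.ofReal
          ‖deriv (fun s => h.toFun (eb D.K.toGraph b s)) s - L ((1 / 2 ^ N : ℝ) • ev k)‖ := by
          refine lintegral_mono fun s => ?_
          rw [← ENNReal.ofReal_mul hθi.le]
          refine ENNReal.ofReal_le_ofReal ?_
          rw [hy0, hy1, add_sub_cancel_left]
          have h4 : AL.symm (deriv (fun s => h.toFun (eb D.K.toGraph b s)) s) -
              (1 / 2 ^ N : ℝ) • ev k =
              AL.symm (deriv (fun s => h.toFun (eb D.K.toGraph b s)) s -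
                L ((1 / 2 ^ N : ℝ) • ev k)) := by
            rw [← hAL, map_sub AL.symm, AL.symm_apply_apply]
          rw [h4]
          exact hAs _
      _ = ENNReal.ofReal θ⁻¹ * ∫⁻ s in Icc (0:ℝ) 1, ENNReal.ofReal
          ‖deriv (fun s => h.toFun (eb D.K.toGraph b s)) s - L ((1 / 2 ^ N : ℝ) • ev k)‖ :=
          lintegral_const_mul' _ _ ENNReal.ofReal_ne_top
      _ ≤ ENNReal.ofReal θ⁻¹ * ENNReal.ofReal (2 * l * (1 / 2 ^ N)) := by gcongr
      _ = _ := by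
          rw [← ENNReal.ofReal_mul hθi.le]
          congr 1; ring
  · intro b
    by_cases hb : edge v (D.φ b) ⊆ dyc v n₂ z
    · left
      have hne : (edge v (D.φ b) ∩ dyc v n₂ z).Nonempty := by
        have h1 : pt v (D.φ b).1.1 (D.φ b).1.2 ∈ edge v (D.φ b) := by
          unfold edge; exact left_mem_segment _ _ _
        exact ⟨_, h1, hb h1⟩
      have h1 := hgen b hne
      refine ⟨(D.φ b).1.2, (D.φ b).2, ?_, ?_⟩
      · rw [D.arc b, ← h1]
      · rw [← h1, ← dyc_eq_Icc]; exact hb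
    · right
      intro x hx hxx
      rw [D.arc b] at hx
      refine H.foreign (D.φ b) (D.edgeOf b) hb x hx ⟨AL.symm (h.toFun x - A 0), fun k => ?_, ?_⟩
      · exact hxx k
      · rw [hA, AL.apply_symm_apply]; abel
  · intro x hx
    rw [← hA]
    exact H.inside ⟨x, fun k => hx k, rfl⟩
  · positivity
  · positivity

end P073.Cell
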