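import Vale.Agent.P073.GBM.CellFace
import Vale.Agent.P073.GBM.CellNear

/-!
# P073, block SpecCell: numbers
-/

open Set Metric Topology Filter MeasureTheory
open scoped ENNReal NNReal

namespace P073.Cell

open P073 P073.PR720 P073.GB73 P073.GBM P073.Gauge P073.GB1W
open Vale.Agent.P073.St (V)
open Vale.Agent.P073.AB
open Vale.Agent.P073.SQ (ev)
open P073.Net (dyc dyo)

section num

variable {v : V} {n₂ k₁ k₀ : ℕ} {z : Fin 3 → ℤ}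

/-- `g * d = 1 / 2 ^ (n₂ + k₁)` -/
theorem gd (n₂ k₁ k₀ : ℕ) : (1:ℝ) / 2 ^ (n₂ + k₁) = 2 ^ k₀ * (1 / 2 ^ (gN n₂ k₁ k₀)) := by
  unfold gN
  rw [pow_add 2 (n₂ + k₁) k₀]
  field_simp

theorem Dd (n₂ k₁ k₀ : ℕ) : (1:ℝ) / 2 ^ n₂ = 2 ^ (k₁ + k₀) * (1 / 2 ^ (gN n₂ k₁ k₀)) := by
  unfold gN
  rw [add_assoc, pow_add 2 n₂ (k₁ + k₀)]
  field_simp

theorem qlo_eq (n₂ k₁ k₀ : ℕ) (z : Fin 3 → ℤ) (k : Fin 3) :
    qlo v n₂ z k = v k + z k * 2 ^ (k₁ + k₀) * (1 / 2 ^ (gN n₂ k₁ k₀)) := by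
  unfold qlo
  rw [div_eq_mul_one_div, Dd n₂ k₁ k₀]
  ring

theorem qhi_eq (n₂ k₁ k₀ : ℕ) (z : Fin 3 → ℤ) (k : Fin 3) :
    qhi v n₂ z k = v k + (z k + 1) * 2 ^ (k₁ + k₀) * (1 / 2 ^ (gN n₂ k₁ k₀)) := by
  unfold qhi
  rw [div_eq_mul_one_div, Dd n₂ k₁ k₀]
  ring

theorem lo_apply (k : Fin 3) : lo v n₂ k₁ k₀ z k =
    v k + (z k * 2 ^ (k₁ + k₀) + 2 ^ k₀ + 1 / 2) * (1 / 2 ^ (gN n₂ k₁ k₀)) := by
  unfold lo hp al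
  push_cast
  ring

theorem hi_apply (k : Fin 3) : hi v n₂ k₁ k₀ z k =
    v k + ((z k + 1) * 2 ^ (k₁ + k₀) - 2 ^ k₀ - 1 / 2) * (1 / 2 ^ (gN n₂ k₁ k₀)) := by
  unfold hi hp be
  push_cast
  ring

theorem mg_apply : mg n₂ k₁ k₀ = (2 ^ k₀ - 1 / 2) * (1 / 2 ^ (gN n₂ k₁ k₀)) := by
  unfold mg
  rw [gd n₂ k₁ k₀]
  ring

/-- the size of the box -/
def RR (k₁ k₀ : ℕ) : ℤ := 2 ^ (k₁ + k₀) - 2 * 2 ^ k₀ - 1

theorem be_eq (k : Fin 3) : be k₁ k₀ z k = al k₁ k₀ z k + RR k₁ k₀ := by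
  unfold be al RR
  ring

theorem pow_k1 (h1 : 3 ≤ k₁) : (8:ℤ) * 2 ^ k₀ ≤ 2 ^ (k₁ + k₀) := by
  rw [pow_add]
  have : (8:ℤ) ≤ 2 ^ k₁ := by
    calc (8:ℤ) = 2 ^ 3 := by norm_num
      _ ≤ 2 ^ k₁ := pow_le_pow_right₀ (by norm_num) h1
  exact mul_le_mul_of_nonneg_right this (by positivity)

theorem pow_k0 (h0 : 3 ≤ k₀) : (8:ℤ) ≤ 2 ^ k₀ := by
  calc (8:ℤ) = 2 ^ 3 := by norm_num
    _ ≤ 2 ^ k₀ := pow_le_pow_right₀ (by norm_num) h0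

theorem RR_ge (h1 : 3 ≤ k₁) (h0 : 3 ≤ k₀) : 47 ≤ RR k₁ k₀ := by
  have := pow_k1 (k₀ := k₀) h1
  have := pow_k0 h0
  unfold RR
  linarith

theorem pow_k0R (h0 : 3 ≤ k₀) : (8:ℝ) ≤ 2 ^ k₀ := by exact_mod_cast pow_k0 h0

theorem pow_k1R (h1 : 3 ≤ k₁) : (8:ℝ) * 2 ^ k₀ ≤ 2 ^ (k₁ + k₀) := by exact_mod_cast pow_k1 h1

/-- faces and cubes near the box are well inside the cell -/
theorem near_box (h0 : 3 ≤ k₀) {w : ℝ} {k : Fin 3} (h1 : (al k₁ k₀ z k : ℝ) ≤ w)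
    (h2 : w ≤ be k₁ k₀ z k + 1) :
    qlo v n₂ z k + 8 / 2 ^ (gN n₂ k₁ k₀) ≤ v k + w / 2 ^ (gN n₂ k₁ k₀) ∧
      v k + w / 2 ^ (gN n₂ k₁ k₀) ≤ qhi v n₂ z k - 8 / 2 ^ (gN n₂ k₁ k₀) := by
  have hd : (0:ℝ) < 1 / 2 ^ (gN n₂ k₁ k₀) := by positivity
  have h8 := pow_k0R h0
  rw [qlo_eq n₂ k₁ k₀, qhi_eq n₂ k₁ k₀]
  unfold al at h1
  unfold be at h2
  push_cast at h1 h2
  rw [div_eq_mul_one_div w, div_eq_mul_one_div (8:ℝ)]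
  constructor
  · have : (z k * 2 ^ (k₁ + k₀) + 8) * (1 / 2 ^ (gN n₂ k₁ k₀) : ℝ) ≤
        w * (1 / 2 ^ (gN n₂ k₁ k₀)) := mul_le_mul_of_nonneg_right (by linarith) hd.le
    linarith
  · have : w * (1 / 2 ^ (gN n₂ k₁ k₀) : ℝ) ≤
        ((z k + 1) * 2 ^ (k₁ + k₀) - 8) * (1 / 2 ^ (gN n₂ k₁ k₀)) :=
        mul_le_mul_of_nonneg_right (by linarith) hd.le
    linarith

end num

section faces

variable {Vx B J I : Type} {e0 e1 : B → Vx} {inc : B → J → Prop} {qC : J → I → Prop} {Ω : Set V}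
  {K : Cx3 e0 e1 inc qC Ω} {v : V} {N : ℕ} {U : Set V} {α β : Fin 3 → ℤ}

theorem finite_faces (K : Cx3 e0 e1 inc qC Ω) {P : Set B} (hP : P.Finite) :
    {j | ∃ b ∈ P, inc b j}.Finite := by
  have h1 : {j | ∃ b ∈ P, inc b j} ⊆ ⋃ b ∈ P, {j | inc b j} := by
    rintro j ⟨b, hb, hj⟩
    exact mem_biUnion hb hj
  refine (hP.biUnion fun b _ => ?_).subset h1
  obtain ⟨j0, hj0⟩ := K.arc_tile b
  have hy : K.y (e0 b) ∈ K.arc b := (K.ball b).1 (Or.inl rfl)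
  obtain ⟨W, hW, hf⟩ := K.lf (K.y (e0 b)) (mem_iUnion.2 ⟨j0, K.toCx2.arc_subset_tile hj0 hy⟩)
  refine hf.subset fun j hj => ?_
  exact ⟨K.y (e0 b), K.toCx2.arc_subset_tile hj hy, mem_of_mem_nhds hW⟩

/-- the crossed faces are lattice squares near the box -/
theorem face_data (L : Lat K v N U) (hαβ : ∀ k, α k < β k) (hU : frontier (hbox v N α β) ⊆ U)
    {b : B} {j : J} (hb : b ∈ crossed K (hbox v N α β)) (hj : inc b j) :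
    ∃ w l, K.tile j = squ v ((N, w), l) ∧ (∃ a k, CrossZ α β a k ∧
      edge v ((N, a), k) ⊆ squ v ((N, w), l)) ∧ (∀ i, α i ≤ w i ∧ w i ≤ β i) ∧ α l < w l := by
  obtain ⟨w, l, hw⟩ := L.exists_squ hU hb hj
  obtain ⟨a, k, ha, hc⟩ := (L.mem_crossed hαβ hU b).1 hb
  have h1 := (Lat.inc_iff_edgeOfSq ha hw).1 hj
  refine ⟨w, l, hw, ⟨a, k, hc, edge_subset_squ.2 h1⟩, ?_, ?_⟩
  · obtain ⟨-, hkl, h3, h4, h5⟩ := h1
    simp only at hkl h3 h4 h5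
    intro i
    by_cases hik : i = k
    · subst hik
      have := hαβ i
      rcases hc.1 with h | h
      · rw [← h3, h]; exact ⟨le_rfl, this.le⟩
      · rw [← h3, h]; exact ⟨this.le, le_rfl⟩
    · have h6 := hc.2 i hik
      by_cases hil : i = l
      · subst hil
        rw [← h4]; exact ⟨h6.1.le, h6.2⟩
      · rcases h5 i hik hil with h | h <;> omega
  · obtain ⟨-, hkl, h3, h4, h5⟩ := h1
    simp only at hkl h3 h4 h5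
    have := hc.2 l (Ne.symm hkl)
    omega

end faces

end P073.Cell
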