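import Vale.Agent.P073.GBM.Spec
import Vale.Agent.P073.Spec.Gauge

/-!
# P073, block GBM3 / SpecCell: parts of the proof of `Gauge.SpecCell`

Numbers: `N = n₂ + k₁ + k₀` (fine generation), cell `Q = dyc v n₂ z`, box
`Icc (lo ..) (hi ..) = hbox v N (al ..) (be ..)` = `boxB` shrunk by half a fine mesh.
-/

open Set Metric Topology Filter MeasureTheory
open scoped ENNReal

namespace P073.Cell

open P073 P073.PR720 P073.GB73 P073.GBM P073.Gauge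
open Vale.Agent.P073.St (V)
open Vale.Agent.P073.AB
open Vale.Agent.P073.SQ (ev)
open P073.Net (dyc dyo)

/-- `N = n₂ + k₁ + k₀` -/
abbrev gN (n₂ k₁ k₀ : ℕ) : ℕ := n₂ + k₁ + k₀

/-- integer position of the lower faces of the box -/
def al (k₁ k₀ : ℕ) (z : Fin 3 → ℤ) : Fin 3 → ℤ := fun k => z k * 2 ^ (k₁ + k₀) + 2 ^ k₀

/-- integer position of the upper faces of the box -/
def be (k₁ k₀ : ℕ) (z : Fin 3 → ℤ) : Fin 3 → ℤ := fun k => (z k + 1) * 2 ^ (k₁ + k₀) - 2 ^ k₀ - 1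

/-- lower corner of the box -/
noncomputable def lo (v : V) (n₂ k₁ k₀ : ℕ) (z : Fin 3 → ℤ) : V := hp v (gN n₂ k₁ k₀) (al k₁ k₀ z)

/-- upper corner of the box -/
noncomputable def hi (v : V) (n₂ k₁ k₀ : ℕ) (z : Fin 3 → ℤ) : V := hp v (gN n₂ k₁ k₀) (be k₁ k₀ z)

/-- the margin: thickness of the gap minus half a fine mesh -/
noncomputable def mg (n₂ k₁ k₀ : ℕ) : ℝ := 1 / 2 ^ (n₂ + k₁) - 1 / 2 / 2 ^ (gN n₂ k₁ k₀)

/-- marked lattice edges: the crossed edges on the lines of generation `n₂ + k₁` which meet the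
protected box -/
def Marked (k₁ k₀ : ℕ) (z w : Fin 3 → ℤ) (k : Fin 3) : Prop :=
  CrossZ (al k₁ k₀ z) (be k₁ k₀ z) w k ∧ ∀ j, j ≠ k → (2 : ℤ) ^ k₀ ∣ w j ∧
    z j * 2 ^ (k₁ + k₀) + 2 * 2 ^ k₀ ≤ w j ∧ w j ≤ (z j + 1) * 2 ^ (k₁ + k₀) - 2 * 2 ^ k₀

/-- middle of a fine lattice edge -/
noncomputable def mid (v : V) (N : ℕ) (w : Fin 3 → ℤ) (k : Fin 3) : V :=
  pt v N w + (1 / 2 / 2 ^ N : ℝ) • ev k

/-- the marked points -/
def mpt (v : V) (n₂ k₁ k₀ : ℕ) (z : Fin 3 → ℤ) : Set V :=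
  {x | ∃ w k, Marked k₁ k₀ z w k ∧ x = mid v (gN n₂ k₁ k₀) w k}

/-- the conclusion of `SpecCollar` for the box `[a, b]` -/
def CollarProp (a b : V) (m : ℝ) (X : Set V) (ρ : ℝ) : Prop :=
  ∀ φ : ConHomeo (frontier (Icc a b)) (frontier (Icc a b)),
    (∀ x ∈ X, φ.toFun x = x) → (∀ x ∈ frontier (Icc a b), ‖φ.toFun x - x‖ ≤ ρ) →
    ∀ θ, 0 < θ → θ < m → ∃ Φ : ConHomeo (Icc a b) (Icc a b),
      EqOn Φ.toFun φ.toFun (frontier (Icc a b)) ∧ (∀ x ∈ shr a b θ, Φ.toFun x = x) ∧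
      ∀ x ∈ X, ∀ z ∈ Icc a b, ‖z - x‖ ≤ m →
        (∃ i, (x i = a i ∨ x i = b i) ∧ (∀ j ≠ i, z j = x j)) → Φ.toFun z = z

/-- **(U)** uniform collar: `ρ` depends on `k₁` only, up to scaling. Proof: `SpecCollar` for the
box `[1, 2 ^ k₁ - 1]³` with `m = 1` and `X` the integer points of the faces which are at distance at
least one from the edges; conjugation with `x ↦` (corner of the cell) `+ 2 ^ -(n₂ + k₁) x` and the
coordinatewise PL map of `boxB` onto `Icc lo hi`, identity on the range of `boxR`, linear on the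
two end intervals. -/
def SpecU : Prop :=
  SpecCollar → ∀ k₁ : ℕ, 3 ≤ k₁ → ∃ ρ > 0, ∀ (v : V) (n₂ k₀ : ℕ) (z : Fin 3 → ℤ), 1 ≤ k₀ →
    CollarProp (lo v n₂ k₁ k₀ z) (hi v n₂ k₁ k₀ z) (mg n₂ k₁ k₀) (mpt v n₂ k₁ k₀ z)
      (ρ / 2 ^ (n₂ + k₁))

/-- **(La)** the complex of the partition is the lattice near the cell -/
def SpecLa : Prop :=
  ∀ (Ω : Set V) (v : V) (I : Set Idx) (D : DyCx Ω v I) (n₂ N : ℕ) (z : Fin 3 → ℤ), IsOpen Ω →
    Part Ω v I → (∀ z', (dyc v N z' ∩ dyc v n₂ z).Nonempty → ((N, z') : Idx) ∈ I) →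
    Lat D.K v N (interior (dyc v n₂ z)) ∧
    (∀ b, (edge v (D.φ b) ∩ dyc v n₂ z).Nonempty → (D.φ b).1.1 = N) ∧
    ∀ b w k, D.K.arc b = edge v ((N, w), k) → D.φ b = ((N, w), k)

/-- **(Z)** a union of cubes of the partition is a protected set -/
def SpecZ : Prop :=
  ∀ (Ω : Set V) (v : V) (I I' : Set Idx) (D : DyCx Ω v I), IsOpen Ω → Part Ω v I → I' ⊆ I →
    Prot D.K (⋃ q ∈ I', dyc v q.1 q.2)

end P073.Cell
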