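import Vale.Agent.P073.GBM.CellSpec
import Vale.Agent.P073.GB1.Model
import Vale.Agent.P073.GB1.Chi

/-!
# P073, block SpecCell: normalised situation near a good cell, and the parts of the proof

The affine map of the cell is `x ↦ o + A x`; the cell is `Icc q0 q1`; the fine mesh is `1 / 2 ^ N`.
-/

open Set Metric Topology Filter MeasureTheory
open scoped ENNReal NNReal

namespace P073.Cell

open P073 P073.PR720 P073.GB73 P073.GBM P073.Gauge P073.GB1W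
open Vale.Agent.P073.St (V)
open Vale.Agent.P073.AB
open Vale.Agent.P073.SQ (ev)
open P073.Net (dyc dyo)

variable {Vx B J I : Type} {e0 e1 : B → Vx} {inc : B → J → Prop} {qC : J → I → Prop} {Ω : Set V}

/-- The situation near a good cell `Icc q0 q1`, where `h` is close to `x ↦ o + A x`. -/
structure Near (K : Cx3 e0 e1 inc qC Ω) (Λ : Set V) (h : V → V) (v : V) (N : ℕ) (q0 q1 o : V)
    (A : V ≃L[ℝ] V) (μ η : ℝ) : Prop where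
  lat : Lat K v N (interior (Icc q0 q1))
  y0 : ∀ b w k, K.arc b = edge v ((N, w), k) → K.y (e0 b) = pt v N w
  y1 : ∀ b w k, K.arc b = edge v ((N, w), k) → K.y (e1 b) = pt v N w + (1 / 2 ^ N : ℝ) • ev k
  lip : ∀ b w k, K.arc b = edge v ((N, w), k) →
    ∃ C : ℝ≥0, LipschitzOnWith C (fun s => h (eb K.toGraph b s)) (Icc 0 1)
  sup : ∀ w k, edge v ((N, w), k) ⊆ Icc q0 q1 → ∀ x ∈ edge v ((N, w), k),
    ‖A.symm (h x - o) - x‖ ≤ μ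
  der : ∀ b w k, K.arc b = edge v ((N, w), k) → edge v ((N, w), k) ⊆ Icc q0 q1 →
    ∫⁻ s in Icc (0:ℝ) 1, ENNReal.ofReal ‖A.symm (deriv (fun s => h (eb K.toGraph b s)) s) -
      (K.y (e1 b) - K.y (e0 b))‖ ≤ ENNReal.ofReal η
  off : ∀ b, (∃ w k, K.arc b = edge v ((N, w), k) ∧ edge v ((N, w), k) ⊆ Icc q0 q1) ∨
    ∀ x ∈ K.arc b, ¬ ∀ k, q0 k + 1 / 2 ^ N ≤ A.symm (h x - o) k ∧
      A.symm (h x - o) k ≤ q1 k - 1 / 2 ^ N
  inside : ∀ x, (∀ k, q0 k + 1 / 2 ^ N ≤ x k ∧ x k ≤ q1 k - 1 / 2 ^ N) → o + A x ∈ Λ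
  mu0 : 0 ≤ μ
  eta0 : 0 ≤ η

/-- Positions of the crossing points of the body with centre `c`, half sides `w`, pattern
`hbox v N α β`. -/
def PosY (K : Cx3 e0 e1 inc qC Ω) (h : V → V) (v : V) (N : ℕ) (o : V) (A : V ≃L[ℝ] V) (μ : ℝ)
    (c w : V) (α β : Fin 3 → ℤ) (T : Set ℝ) (y : ℝ → B → V) : Prop :=
  ∀ t ∈ T, ∀ b a k, K.arc b = edge v ((N, a), k) → CrossZ α β a k →
    y t b ∈ h '' K.arc b ∧
    A.symm (y t b - o) k = c k + (if a k = β k then t * w k else -(t * w k)) ∧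
    ∀ j, j ≠ k → |A.symm (y t b - o) j - pt v N a j| ≤ μ

/-- **(LEV)** (owner helper865) the levels of a body with centre `c` and half sides `w`, at levels
between `s` and `r`, whose pattern is that of `hbox v N α β`. -/
def SpecLev : Prop :=
  ∀ (Vx B J I : Type) (e0 e1 : B → Vx) (inc : B → J → Prop) (qC : J → I → Prop) (Ω : Set V)
    (K : Cx3 e0 e1 inc qC Ω) (Λ : Set V) (h : V → V) (v : V) (N : ℕ) (q0 q1 o : V)
    (A : V ≃L[ℝ] V) (μ η : ℝ), Near K Λ h v N q0 q1 o A μ η →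
  ∀ (c w : V) (α β : Fin 3 → ℤ) (s r w₀ : ℝ), 0 < s → s < r → 0 < w₀ → (∀ k, α k < β k) →
    (∀ k, w₀ ≤ w k) →
    (∀ k, pt v N α k + μ ≤ c k - r * w k) →
    (∀ k, c k - s * w k + μ < pt v N α k + 1 / 2 ^ N) →
    (∀ k, pt v N β k + μ < c k + s * w k) →
    (∀ k, c k + r * w k + μ ≤ pt v N β k + 1 / 2 ^ N) →
    (∀ k, q0 k + 1 / 2 ^ N ≤ c k - r * w k ∧ c k + r * w k ≤ q1 k - 1 / 2 ^ N) →
    3 * (∏ k, ((β k - α k + 1 : ℤ) : ℝ)) * ((2 * μ + η) / w₀) < r - s →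
    ∃ T : Set ℝ, T ⊆ Ioo s r ∧ (bBody (o + A c) A w T).Good Λ ∧
      frontier (hbox v N α β) ⊆ interior (Icc q0 q1) ∧
      Pat inc (crossed K (hbox v N α β)) ∧ ∃ y : ℝ → B → V,
      (∀ t ∈ T, Crosses K.toGraph h ((bBody (o + A c) A w T).at t) (crossed K (hbox v N α β))
        (y t)) ∧
      PosY K h v N o A μ c w α β T y

/-- centre of the square `((N, w), l)` -/
noncomputable def sc (v : V) (N : ℕ) (w : Fin 3 → ℤ) (l : Fin 3) : V :=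
  fun k => v k + (w k + if k = l then 0 else 1 / 2) / 2 ^ N

/-- pattern of the face bodies, lower end -/
def fa (w : Fin 3 → ℤ) (l : Fin 3) : Fin 3 → ℤ := fun k => if k = l then w k - 3 else w k - 2

/-- pattern of the face bodies, upper end -/
def fb (w : Fin 3 → ℤ) : Fin 3 → ℤ := fun k => w k + 2

/-- half sides of the face bodies -/
noncomputable def fw (N : ℕ) : V := fun _ => 9 / 4 / 2 ^ N

/-- body of the face `((N, w), l)`; levels between `35 / 36` and `37 / 36` -/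
noncomputable def fBody (v : V) (N : ℕ) (o : V) (A : V ≃L[ℝ] V) (w : Fin 3 → ℤ) (l : Fin 3)
    (T : Set ℝ) : Body := bBody (o + A (sc v N w l)) A (fw N) T

/-- centre of `hbox v N α β` -/
noncomputable def bc (v : V) (N : ℕ) (α β : Fin 3 → ℤ) : V :=
  fun k => v k + (α k + β k + 1) / 2 / 2 ^ N

/-- half sides of `hbox v N α β` -/
noncomputable def bw (N : ℕ) (α β : Fin 3 → ℤ) : V := fun k => (β k - α k) / 2 / 2 ^ N

/-- the big body; levels with `|t - 1| (β k - α k) ≤ 1 / 4` -/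
noncomputable def bigBody (v : V) (N : ℕ) (o : V) (A : V ≃L[ℝ] V) (α β : Fin 3 → ℤ)
    (T : Set ℝ) : Body := bBody (o + A (bc v N α β)) A (bw N α β) T

/-- centre of the cube `(N, z)` -/
noncomputable def cc (v : V) (N : ℕ) (z : Fin 3 → ℤ) : V := fun k => v k + (z k + 1 / 2) / 2 ^ N

/-- the set `W` of the cell `(N, z)` -/
noncomputable def Wset (v : V) (N : ℕ) (o : V) (A : V ≃L[ℝ] V) (z : Fin 3 → ℤ) : Set V :=
  aff o A '' Icc (fun k => cc v N z k - 3 / 2 ^ N) (fun k => cc v N z k + 3 / 2 ^ N)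

/-- **(S1)** (owner helper527) separation of two face bodies -/
def SpecS1 : Prop :=
  ∀ (Vx B J I : Type) (e0 e1 : B → Vx) (inc : B → J → Prop) (qC : J → I → Prop) (Ω : Set V)
    (K : Cx3 e0 e1 inc qC Ω) (Λ : Set V) (h : V → V) (v : V) (N : ℕ) (q0 q1 o : V)
    (A : V ≃L[ℝ] V) (μ η : ℝ), Near K Λ h v N q0 q1 o A μ η →
  ∀ (w w' : Fin 3 → ℤ) (l l' : Fin 3) (T T' : Set ℝ) (y' : ℝ → B → V), (w, l) ≠ (w', l') →
    T ⊆ Ioo (35 / 36) (37 / 36) → T' ⊆ Ioo (35 / 36) (37 / 36) →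
    frontier (hbox v N (fa w' l') (fb w')) ⊆ interior (Icc q0 q1) →
    PosY K h v N o A μ (sc v N w' l') (fw N) (fa w' l') (fb w') T' y' →
    ∀ t ∈ T, ∀ s ∈ T', IsPreconnected (frontier ((fBody v N o A w' l' T').at s) \
        interior ((fBody v N o A w l T).at t)) ∧
      ∃ b ∈ crossed K (hbox v N (fa w' l') (fb w')), y' s b ∉ interior ((fBody v N o A w l T).at t)

/-- **(S2)** (owner helper527) separation of a face body and the big body -/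
def SpecS2 : Prop :=
  ∀ (Vx B J I : Type) (e0 e1 : B → Vx) (inc : B → J → Prop) (qC : J → I → Prop) (Ω : Set V)
    (K : Cx3 e0 e1 inc qC Ω) (Λ : Set V) (h : V → V) (v : V) (N : ℕ) (q0 q1 o : V)
    (A : V ≃L[ℝ] V) (μ η : ℝ), Near K Λ h v N q0 q1 o A μ η →
  ∀ (α β w a : Fin 3 → ℤ) (l k : Fin 3) (T T0 : Set ℝ) (y0 : ℝ → B → V),
    (∀ j, α j + 8 ≤ β j) → CrossZ α β a k → edge v ((N, a), k) ⊆ squ v ((N, w), l) →
    T ⊆ Ioo (35 / 36) (37 / 36) → (∀ t ∈ T0, 0 < t ∧ ∀ j, |t - 1| * (β j - α j) ≤ 1 / 4) →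
    frontier (hbox v N α β) ⊆ interior (Icc q0 q1) →
    PosY K h v N o A μ (bc v N α β) (bw N α β) α β T0 y0 →
    ∀ t ∈ T, ∀ s ∈ T0, IsPreconnected (frontier ((bigBody v N o A α β T0).at s) \
        interior ((fBody v N o A w l T).at t)) ∧
      ∃ b ∈ crossed K (hbox v N α β), y0 s b ∉ interior ((fBody v N o A w l T).at t)

/-- **(S3)** (owner helper527) the `W` sets -/
def SpecS3 : Prop :=
  ∀ (Vx B J I : Type) (e0 e1 : B → Vx) (inc : B → J → Prop) (qC : J → I → Prop) (Ω : Set V)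
    (K : Cx3 e0 e1 inc qC Ω) (Λ : Set V) (h : V → V) (v : V) (N : ℕ) (q0 q1 o : V)
    (A : V ≃L[ℝ] V) (μ η : ℝ), Near K Λ h v N q0 q1 o A μ η →
  ∀ (α β z' : Fin 3 → ℤ) (T0 : Set ℝ) (y0 : ℝ → B → V), (∀ j, α j + 8 ≤ β j) →
    (∀ t ∈ T0, 0 < t ∧ ∀ j, |t - 1| * (β j - α j) ≤ 1 / 4) →
    frontier (hbox v N α β) ⊆ interior (Icc q0 q1) →
    PosY K h v N o A μ (bc v N α β) (bw N α β) α β T0 y0 →
    (dyc v N z' ∩ frontier (hbox v N α β)).Nonempty →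
    (∀ w l, squ v ((N, w), l) ⊆ dyc v N z' → ∀ T ⊆ Ioo (35 / 36 : ℝ) (37 / 36), ∀ t ∈ T,
      (fBody v N o A w l T).at t ⊆ Wset v N o A z') ∧
    (∀ t ∈ T0, IsPreconnected (frontier ((bigBody v N o A α β T0).at t) \ Wset v N o A z') ∧
      ∃ b a k, K.arc b = edge v ((N, a), k) ∧ CrossZ α β a k ∧ mid v N a k ∉ dyc v N z' ∧
        y0 t b ∉ Wset v N o A z') ∧
    ∀ x ∈ dyc v N z', ∀ y ∈ Wset v N o A z', ‖A.symm (y - o) - x‖ ≤ 7 / 2 / 2 ^ N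

/-- **(MOD)** (owner helper580) the model maps and the reparametrisations of the crossed edges, for
the box `Icc lo hi = hbox v N (al ..) (be ..)`, `N = n₂ + k₁ + k₀`. -/
def SpecMod : Prop :=
  ∀ (Vx B J I : Type) (e0 e1 : B → Vx) (inc : B → J → Prop) (qC : J → I → Prop) (Ω : Set V)
    (K : Cx3 e0 e1 inc qC Ω) (Λ : Set V) (h : V → V) (v : V) (n₂ k₁ k₀ : ℕ) (z : Fin 3 → ℤ)
    (q0 q1 o : V) (A : V ≃L[ℝ] V) (μ η : ℝ), Near K Λ h v (gN n₂ k₁ k₀) q0 q1 o A μ η →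
  3 ≤ k₁ → 3 ≤ k₀ → μ ≤ 1 / 8 / 2 ^ (gN n₂ k₁ k₀) →
  (∀ k, q0 k + 1 / 2 ^ (gN n₂ k₁ k₀) ≤ lo v n₂ k₁ k₀ z k ∧
    hi v n₂ k₁ k₀ z k ≤ q1 k - 1 / 2 ^ (gN n₂ k₁ k₀)) →
  ∀ (T0 : Set ℝ) (y0 : ℝ → B → V) (p : B → V),
    (∀ t ∈ T0, 0 < t ∧ ∀ j, |t - 1| * (be k₁ k₀ z j - al k₁ k₀ z j) ≤ 1 / 4) →
    PosY K h v (gN n₂ k₁ k₀) o A μ (bc v (gN n₂ k₁ k₀) (al k₁ k₀ z) (be k₁ k₀ z))
      (bw (gN n₂ k₁ k₀) (al k₁ k₀ z) (be k₁ k₀ z)) (al k₁ k₀ z) (be k₁ k₀ z) T0 y0 →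
    IsCut K v (gN n₂ k₁ k₀) (al k₁ k₀ z) (be k₁ k₀ z) p →
    -- model maps
    (∃ L : (t : T0) → ConHomeo (Icc (lo v n₂ k₁ k₀ z) (hi v n₂ k₁ k₀ z))
        ((bigBody v (gN n₂ k₁ k₀) o A (al k₁ k₀ z) (be k₁ k₀ z) T0).at t),
      ∀ t : T0,
        (∀ b a k, K.arc b = edge v ((gN n₂ k₁ k₀, a), k) → Marked k₁ k₀ z a k →
          y0 t b = (L t).toFun (p b)) ∧
        (∀ x ∈ boxR v n₂ k₁ z, (L t).toFun x = o + A x) ∧
        (∀ x ∈ Icc (lo v n₂ k₁ k₀ z) (hi v n₂ k₁ k₀ z),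
          ‖A.symm ((L t).toFun x - o) - x‖ ≤ μ + 1 / 8 / 2 ^ (gN n₂ k₁ k₀)) ∧
        ∀ x y, ‖A.symm ((L t).toFun x - (L t).toFun y)‖ ≤ 9 / 4 * ‖x - y‖) ∧
    -- reparametrisations
    (∃ χ : (t : T0) → (b : B) → ConHomeo (K.arc b) (K.arc b), ∀ t : T0,
      (∀ b, (χ t b).toFun (K.y (e0 b)) = K.y (e0 b)) ∧
      (∀ b, (χ t b).toFun (K.y (e1 b)) = K.y (e1 b)) ∧
      (∀ b ∉ crossed K (Icc (lo v n₂ k₁ k₀ z) (hi v n₂ k₁ k₀ z)), ∀ x ∈ K.arc b,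
        (χ t b).toFun x = x) ∧
      (∀ b ∈ crossed K (Icc (lo v n₂ k₁ k₀ z) (hi v n₂ k₁ k₀ z)),
        h ((χ t b).toFun (p b)) = y0 t b) ∧
      ∀ b a k, K.arc b = edge v ((gN n₂ k₁ k₀, a), k) →
        CrossZ (al k₁ k₀ z) (be k₁ k₀ z) a k → ∃ r ∈ Icc (1 / 4 : ℝ) (3 / 4), ∀ s ∈ Icc (0:ℝ) 1,
          (χ t b).toFun (pt v (gN n₂ k₁ k₀) a + s • ((1 / 2 ^ (gN n₂ k₁ k₀) : ℝ) • ev k)) =
            pt v (gN n₂ k₁ k₀) a +
              GB1.rep (1 / 2) r s • ((1 / 2 ^ (gN n₂ k₁ k₀) : ℝ) • ev k)) ∧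
    -- the marked points, as in `SpecGB`
    ∀ b a k, K.arc b = edge v ((gN n₂ k₁ k₀, a), k) → Marked k₁ k₀ z a k →
      (p b k = lo v n₂ k₁ k₀ z k ∨ p b k = hi v n₂ k₁ k₀ z k) ∧
      ∀ j ≠ k, lo v n₂ k₁ k₀ z j + mg n₂ k₁ k₀ ≤ p b j ∧ p b j ≤ hi v n₂ k₁ k₀ z j - mg n₂ k₁ k₀

end P073.Cell
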