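import Vale.Agent.P073.GBM.CellSpec2

/-!
# P073, block SpecCell: further parts of the proof
-/

open Set Metric Topology Filter MeasureTheory
open scoped ENNReal NNReal

namespace P073.Cell

open P073 P073.PR720 P073.GB73 P073.GBM P073.Gauge P073.GB1W
open Vale.Agent.P073.St (V)
open Vale.Agent.P073.AB
open Vale.Agent.P073.SQ (ev)
open P073.Net (dyc dyo)

/-- **(VERT)** (owner helper225) the vertices in the box are those mapped into the big body -/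
def SpecVert : Prop :=
  ∀ (Vx B J I : Type) (e0 e1 : B → Vx) (inc : B → J → Prop) (qC : J → I → Prop) (Ω : Set V)
    (K : Cx3 e0 e1 inc qC Ω) (Λ : Set V) (h : V → V) (v : V) (N : ℕ) (q0 q1 o : V)
    (A : V ≃L[ℝ] V) (μ η : ℝ), Near K Λ h v N q0 q1 o A μ η → μ ≤ 1 / 8 / 2 ^ N →
  ∀ (α β : Fin 3 → ℤ) (T0 : Set ℝ), (∀ k, α k < β k) →
    (∀ t ∈ T0, 0 < t ∧ ∀ j, |t - 1| * (β j - α j) ≤ 1 / 4) →
    (∀ k, q0 k + 2 / 2 ^ N ≤ hp v N α k ∧ hp v N β k ≤ q1 k - 2 / 2 ^ N) →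
    ∀ t ∈ T0, ∀ u, K.y u ∈ interior (hbox v N α β) ↔
      h (K.y u) ∈ interior ((bigBody v N o A α β T0).at t)

/-- **(BD)** (owner helper225) the boundary of a face is mapped into its body -/
def SpecBdIn : Prop :=
  ∀ (Vx B J I : Type) (e0 e1 : B → Vx) (inc : B → J → Prop) (qC : J → I → Prop) (Ω : Set V)
    (K : Cx3 e0 e1 inc qC Ω) (Λ : Set V) (h : V → V) (v : V) (N : ℕ) (q0 q1 o : V)
    (A : V ≃L[ℝ] V) (μ η : ℝ), Near K Λ h v N q0 q1 o A μ η → μ ≤ 1 / 8 / 2 ^ N →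
  ∀ (j : J) (w : Fin 3 → ℤ) (l : Fin 3) (T : Set ℝ), K.tile j = squ v ((N, w), l) →
    squ v ((N, w), l) ⊆ interior (Icc q0 q1) → T ⊆ Ioo (35 / 36) (37 / 36) →
    ∀ t ∈ T, h '' (K.toCx2.bd j) ⊆ interior ((fBody v N o A w l T).at t)

/-- **(GAP)** (owner helper489) closeness and energy on the edges of generation `n₂ + k₁` of the
gap. `h3` is the new map, `Lt` the model map of the box. -/
def SpecGap : Prop :=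
  ∀ (Vx B J I : Type) (e0 e1 : B → Vx) (inc : B → J → Prop) (qC : J → I → Prop) (Ω : Set V)
    (K : Cx3 e0 e1 inc qC Ω) (Λ : Set V) (h : V → V) (v : V) (n₂ k₁ k₀ : ℕ) (z : Fin 3 → ℤ)
    (q0 q1 o : V) (A : V ≃L[ℝ] V) (μ η : ℝ), Near K Λ h v (gN n₂ k₁ k₀) q0 q1 o A μ η →
    Icc q0 q1 = dyc v n₂ z →
  ∀ (p M κ : ℝ), 1 ≤ p → 0 < M → 0 ≤ κ → (∀ w, ‖A w‖ ≤ M * ‖w‖) → 3 ≤ k₁ → 3 ≤ k₀ →
    μ ≤ 1 / 8 / 2 ^ (gN n₂ k₁ k₀) → 4 * M ≤ 2 ^ (k₁ + k₀) →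
    (∀ e : Idx × Fin 3, e.1.1 = gN n₂ k₁ k₀ → edge v e ⊆ dyc v n₂ z →
      dvar p h v e (A ((1 / 2 ^ (gN n₂ k₁ k₀) : ℝ) • ev e.2)) ≤
        ENNReal.ofReal (κ * (1 / 2 ^ (gN n₂ k₁ k₀)) ^ p)) →
  ∀ (h3 Lt : V → V) (χ : B → V → V) (p' : B → V),
    IsCut K v (gN n₂ k₁ k₀) (al k₁ k₀ z) (be k₁ k₀ z) p' →
    (∀ b, ∀ x ∈ K.arc b, x ∉ interior (Icc (lo v n₂ k₁ k₀ z) (hi v n₂ k₁ k₀ z)) →
      h3 x = h (χ b x)) →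
    (∀ b a k, K.arc b = edge v ((gN n₂ k₁ k₀, a), k) →
        CrossZ (al k₁ k₀ z) (be k₁ k₀ z) a k → ∃ r ∈ Icc (1 / 4 : ℝ) (3 / 4), ∀ s ∈ Icc (0:ℝ) 1,
          χ b (pt v (gN n₂ k₁ k₀) a + s • ((1 / 2 ^ (gN n₂ k₁ k₀) : ℝ) • ev k)) =
            pt v (gN n₂ k₁ k₀) a +
              GB1.rep (1 / 2) r s • ((1 / 2 ^ (gN n₂ k₁ k₀) : ℝ) • ev k)) →
    (∀ x ∈ boxR v n₂ k₁ z, h3 x = o + A x) →
    (∀ b a k, K.arc b = edge v ((gN n₂ k₁ k₀, a), k) → Marked k₁ k₀ z a k →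
      ∀ x ∈ Icc (lo v n₂ k₁ k₀ z) (hi v n₂ k₁ k₀ z), ‖x - p' b‖ ≤ mg n₂ k₁ k₀ →
        (∀ j, j ≠ k → x j = p' b j) → h3 x = Lt x) →
    (∀ x ∈ Icc (lo v n₂ k₁ k₀ z) (hi v n₂ k₁ k₀ z),
      ‖A.symm (Lt x - o) - x‖ ≤ μ + 1 / 8 / 2 ^ (gN n₂ k₁ k₀)) →
    (∀ x y, ‖A.symm (Lt x - Lt y)‖ ≤ 9 / 4 * ‖x - y‖) →
    ∀ e : Idx × Fin 3, e.1.1 = n₂ + k₁ →
      edge v e ⊆ boxB v n₂ k₁ z \ interior (boxR v n₂ k₁ z) →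
      ¬ edge v e ⊆ frontier (boxB v n₂ k₁ z) →
      (∀ x ∈ edge v e, ‖h3 x - (o + A x)‖ ≤ 1 / 2 ^ (n₂ + 1)) ∧
      dvar p h3 v e 0 ≤ ENNReal.ofReal
        (((9 / 4 * M) ^ p + 4 ^ p * (κ + M ^ p)) * (1 / 2 ^ (n₂ + k₁)) ^ p)

end P073.Cell
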