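import Vale.Agent.P073.Spec.Gauge

/-!
# P073, block GBM, part (e): one-dimensional energy

`f` on `[0,1]` follows `g` with speed `lam ≤ 2N` on the first `1/(2N)` of the interval and is
Lipschitz on the rest; `‖·‖` is the sup norm of `V = Fin 3 → ℝ`.
-/

open Set Metric Topology MeasureTheory Filter
open scoped ENNReal

namespace P073.GBM489

open Vale.Agent.P073.St (V)
open Vale.Agent.P073.SQ (ev)
open Vale.Agent.P073.AB
open P073.Gauge

theorem rpow_add_le {a b p : ℝ} (ha : 0 ≤ a) (hb : 0 ≤ b) (hp : 0 ≤ p) :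
    (a + b) ^ p ≤ 2 ^ p * a ^ p + 2 ^ p * b ^ p := by
  rcases le_total a b with h | h
  · calc (a + b) ^ p ≤ (2 * b) ^ p := Real.rpow_le_rpow (by positivity) (by linarith) hp
      _ = 2 ^ p * b ^ p := Real.mul_rpow (by norm_num) hb
      _ ≤ 2 ^ p * a ^ p + 2 ^ p * b ^ p := le_add_of_nonneg_left (by positivity)
  · calc (a + b) ^ p ≤ (2 * a) ^ p := Real.rpow_le_rpow (by positivity) (by linarith) hp
      _ = 2 ^ p * a ^ p := Real.mul_rpow (by norm_num) ha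
      _ ≤ 2 ^ p * a ^ p + 2 ^ p * b ^ p := le_add_of_nonneg_right (by positivity)

theorem measurable_en (p : ℝ) (g : ℝ → V) (u : V) :
    Measurable fun s => ENNReal.ofReal (‖deriv g s - u‖ ^ p) := by
  have h := measurable_deriv g
  fun_prop

/-- the energy of `g` from the energy of `g - u` -/
theorem energy_add {p : ℝ} (hp : 1 ≤ p) {g : ℝ → V} {u : V} {E U : ℝ} (hE : 0 ≤ E) (hU : 0 ≤ U)
    (hu : ‖u‖ ≤ U)
    (hg : ∫⁻ s in Icc (0:ℝ) 1, ENNReal.ofReal (‖deriv g s - u‖ ^ p) ≤ ENNReal.ofReal E) :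
    ∫⁻ s in Icc (0:ℝ) 1, ENNReal.ofReal (‖deriv g s‖ ^ p) ≤
      ENNReal.ofReal (2 ^ p * (E + U ^ p)) := by
  have hp0 : (0:ℝ) ≤ p := by linarith
  have h2 : (0:ℝ) ≤ 2 ^ p := by positivity
  calc ∫⁻ s in Icc (0:ℝ) 1, ENNReal.ofReal (‖deriv g s‖ ^ p)
      ≤ ∫⁻ s in Icc (0:ℝ) 1, (ENNReal.ofReal (2 ^ p) * ENNReal.ofReal (‖deriv g s - u‖ ^ p) +
          ENNReal.ofReal (2 ^ p * U ^ p)) := by
        apply lintegral_mono
        intro s
        show ENNReal.ofReal (‖deriv g s‖ ^ p) ≤ ENNReal.ofReal (2 ^ p) *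
          ENNReal.ofReal (‖deriv g s - u‖ ^ p) + ENNReal.ofReal (2 ^ p * U ^ p)
        rw [← ENNReal.ofReal_mul h2, ← ENNReal.ofReal_add (by positivity) (by positivity)]
        apply ENNReal.ofReal_le_ofReal
        calc ‖deriv g s‖ ^ p ≤ (‖deriv g s - u‖ + U) ^ p := by
              apply Real.rpow_le_rpow (norm_nonneg _) _ hp0
              calc ‖deriv g s‖ = ‖(deriv g s - u) + u‖ := by rw [sub_add_cancel]
                _ ≤ ‖deriv g s - u‖ + ‖u‖ := norm_add_le _ _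
                _ ≤ _ := by linarith
          _ ≤ _ := rpow_add_le (norm_nonneg _) hU hp0
    _ = ENNReal.ofReal (2 ^ p) * (∫⁻ s in Icc (0:ℝ) 1, ENNReal.ofReal (‖deriv g s - u‖ ^ p)) +
          ENNReal.ofReal (2 ^ p * U ^ p) := by
        rw [lintegral_add_right _ measurable_const, lintegral_const_mul _ (measurable_en p g u)]
        simp
    _ ≤ ENNReal.ofReal (2 ^ p) * ENNReal.ofReal E + ENNReal.ofReal (2 ^ p * U ^ p) := by
        gcongr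
    _ = _ := by
        rw [← ENNReal.ofReal_mul h2, ← ENNReal.ofReal_add (by positivity) (by positivity)]
        congr 1
        ring

/-- the energy of `t ↦ g (lam t)` on `[0,c]`, `lam c ≤ 1` -/
theorem energy_scale {p lam c : ℝ} (hp : 1 ≤ p) (hl : 0 < lam) (hc : lam * c ≤ 1) {f g : ℝ → V}
    (hf : ∀ t ∈ Icc (0:ℝ) c, f t = g (lam * t)) :
    ∫⁻ t in Ioo (0:ℝ) c, ENNReal.ofReal (‖deriv f t‖ ^ p) ≤
      ENNReal.ofReal (lam ^ p * lam⁻¹) *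
        ∫⁻ s in Icc (0:ℝ) 1, ENNReal.ofReal (‖deriv g s‖ ^ p) := by
  have hp0 : (0:ℝ) ≤ p := by linarith
  have hm : Measurable fun s => ENNReal.ofReal (‖deriv g s‖ ^ p) := by
    simpa using measurable_en p g 0
  have hd : ∀ t ∈ Ioo (0:ℝ) c, ENNReal.ofReal (‖deriv f t‖ ^ p) =
      ENNReal.ofReal (lam ^ p) * ENNReal.ofReal (‖deriv g (lam * t)‖ ^ p) := by
    intro t ht
    have h1 : f =ᶠ[𝓝 t] fun s => g (lam * s) := by
      filter_upwards [isOpen_Ioo.mem_nhds ht] with s hs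
      exact hf s (Ioo_subset_Icc_self hs)
    rw [h1.deriv_eq, deriv_comp_mul_left, norm_smul, Real.norm_of_nonneg hl.le,
      Real.mul_rpow hl.le (norm_nonneg _), ENNReal.ofReal_mul (by positivity)]
  have hmul : Measurable fun t : ℝ => lam * t := measurable_const_mul lam
  calc ∫⁻ t in Ioo (0:ℝ) c, ENNReal.ofReal (‖deriv f t‖ ^ p)
      = ∫⁻ t in Ioo (0:ℝ) c,
          ENNReal.ofReal (lam ^ p) * ENNReal.ofReal (‖deriv g (lam * t)‖ ^ p) :=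
        setLIntegral_congr_fun measurableSet_Ioo hd
    _ = ENNReal.ofReal (lam ^ p) * ∫⁻ t in Ioo (0:ℝ) c,
          ENNReal.ofReal (‖deriv g (lam * t)‖ ^ p) := by
        exact lintegral_const_mul _ (hm.comp hmul)
    _ ≤ ENNReal.ofReal (lam ^ p) * ∫⁻ t in (lam * ·) ⁻¹' Icc (0:ℝ) 1,
          ENNReal.ofReal (‖deriv g (lam * t)‖ ^ p) := by
        gcongr
        intro t ht
        refine ⟨by have := ht.1; positivity, ?_⟩
        calc lam * t ≤ lam * c := by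
              apply mul_le_mul_of_nonneg_left ht.2.le hl.le
          _ ≤ 1 := hc
    _ = ENNReal.ofReal (lam ^ p) * ∫⁻ s in Icc (0:ℝ) 1,
          ENNReal.ofReal (‖deriv g s‖ ^ p) ∂(Measure.map (lam * ·) volume) := by
        rw [setLIntegral_map measurableSet_Icc hm hmul]
    _ = _ := by
        rw [Real.map_volume_mul_left hl.ne', Measure.restrict_smul, lintegral_smul_measure,
          abs_of_pos (inv_pos.2 hl), ENNReal.ofReal_mul (by positivity), smul_eq_mul, mul_assoc]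

/-- the energy of a Lipschitz map -/
theorem energy_lip {p a b D : ℝ} (hp : 1 ≤ p) (hD : 0 ≤ D) (hab : b - a ≤ 1) {f : ℝ → V}
    (hf : ∀ s ∈ Icc a b, ∀ t ∈ Icc a b, ‖f s - f t‖ ≤ D * |s - t|) :
    ∫⁻ t in Ioo a b, ENNReal.ofReal (‖deriv f t‖ ^ p) ≤ ENNReal.ofReal (D ^ p) := by
  have hp0 : (0:ℝ) ≤ p := by linarith
  calc ∫⁻ t in Ioo a b, ENNReal.ofReal (‖deriv f t‖ ^ p)
      ≤ ∫⁻ t in Ioo a b, ENNReal.ofReal (D ^ p) := by
        apply setLIntegral_mono measurable_const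
        intro t ht
        apply ENNReal.ofReal_le_ofReal
        apply Real.rpow_le_rpow (norm_nonneg _) _ hp0
        apply norm_deriv_le_of_lip' hD
        filter_upwards [isOpen_Ioo.mem_nhds ht] with s hs
        exact hf s (Ioo_subset_Icc_self hs) t (Ioo_subset_Icc_self ht)
    _ = ENNReal.ofReal (D ^ p) * ENNReal.ofReal (b - a) := by
        rw [setLIntegral_const, Real.volume_Ioo]
    _ ≤ ENNReal.ofReal (D ^ p) * 1 := by
        gcongr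
        rw [← ENNReal.ofReal_one]
        exact ENNReal.ofReal_le_ofReal hab
    _ = _ := mul_one _

theorem numbers {p N lam w κ M : ℝ} (hp : 1 ≤ p) (hN : 1 ≤ N) (hw : 0 < w) (hl0 : 0 < lam)
    (hl : lam ≤ 2 * N) (hκ : 0 ≤ κ) (hM : 0 ≤ M) :
    lam ^ p * lam⁻¹ * (2 ^ p * (κ * (w / N) ^ p + (M * w / N) ^ p)) ≤
      4 ^ p * (κ + M ^ p) * w ^ p := by
  have hp0 : (0:ℝ) ≤ p := by linarith
  have hN0 : 0 < N := by linarith
  have h1 : lam ^ p * lam⁻¹ ≤ (2 * N) ^ p := by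
    calc lam ^ p * lam⁻¹ = lam ^ (p - 1) := by
          rw [Real.rpow_sub hl0, Real.rpow_one, div_eq_mul_inv]
      _ ≤ (2 * N) ^ (p - 1) := Real.rpow_le_rpow hl0.le hl (by linarith)
      _ ≤ (2 * N) ^ p := Real.rpow_le_rpow_of_exponent_le (by linarith) (by linarith)
  have h2 : (M * w / N) ^ p = M ^ p * (w / N) ^ p := by
    rw [mul_div_assoc, Real.mul_rpow hM (by positivity)]
  have h3 : (2 * N) ^ p * (2 ^ p * (κ * (w / N) ^ p + M ^ p * (w / N) ^ p)) =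
      4 ^ p * (κ + M ^ p) * w ^ p := by
    have h4 : (4:ℝ) ^ p = 2 ^ p * 2 ^ p := by
      rw [← Real.mul_rpow (by norm_num) (by norm_num)]
      norm_num
    have h5 : w ^ p = N ^ p * (w / N) ^ p := by
      rw [← Real.mul_rpow hN0.le (by positivity)]
      congr 1
      field_simp
    rw [h4, h5, Real.mul_rpow (by norm_num) hN0.le]
    ring
  rw [h2, ← h3]
  apply mul_le_mul_of_nonneg_right h1
  positivity

theorem Icc_le_add (F : ℝ → ℝ≥0∞) {c : ℝ} (h0 : 0 ≤ c) (h1 : c ≤ 1) :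
    ∫⁻ t in Icc (0:ℝ) 1, F t ≤ (∫⁻ t in Ioo (0:ℝ) c, F t) + ∫⁻ t in Ioo c 1, F t := by
  calc ∫⁻ t in Icc (0:ℝ) 1, F t ≤ ∫⁻ t in Icc (0:ℝ) c ∪ Icc c 1, F t := by
        rw [Icc_union_Icc_eq_Icc h0 h1]
    _ ≤ (∫⁻ t in Icc (0:ℝ) c, F t) + ∫⁻ t in Icc c 1, F t := lintegral_union_le _ _ _
    _ = _ := by
        rw [Measure.restrict_congr_set (Ioo_ae_eq_Icc (a := (0:ℝ)) (b := c)),
          Measure.restrict_congr_set (Ioo_ae_eq_Icc (a := c) (b := 1))]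

/-- **(e1)** `f` follows `g` at the left end. -/
theorem energyLeft {p : ℝ} (hp : 1 ≤ p) {N : ℕ} (hN : 1 ≤ N) {f g : ℝ → V} {w lam K κ M : ℝ}
    {u : V} (hw : 0 < w) (hl0 : 0 < lam) (hl : lam ≤ 2 * N) (hK : 0 ≤ K) (hκ : 0 ≤ κ)
    (hM : 0 ≤ M) (hu : ‖u‖ ≤ M * w / N)
    (hf : ∀ t ∈ Icc (0:ℝ) (1 / (2 * N)), f t = g (lam * t))
    (hLip : ∀ s ∈ Icc (1 / (2 * N) : ℝ) 1, ∀ t ∈ Icc (1 / (2 * N) : ℝ) 1,
      ‖f s - f t‖ ≤ K * w * |s - t|)
    (hg : ∫⁻ s in Icc (0:ℝ) 1, ENNReal.ofReal (‖deriv g s - u‖ ^ p) ≤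
      ENNReal.ofReal (κ * (w / N) ^ p)) :
    ∫⁻ t in Icc (0:ℝ) 1, ENNReal.ofReal (‖deriv f t‖ ^ p) ≤
      ENNReal.ofReal ((K ^ p + 4 ^ p * (κ + M ^ p)) * w ^ p) := by
  have hN1 : (1:ℝ) ≤ N := by exact_mod_cast hN
  have hN0 : (0:ℝ) < N := by linarith
  have hc0 : (0:ℝ) ≤ 1 / (2 * N) := by positivity
  have hc1 : 1 / (2 * N) ≤ (1:ℝ) := by
    rw [div_le_one (by positivity)]
    linarith
  have hlc : lam * (1 / (2 * N)) ≤ 1 := by
    rw [mul_one_div, div_le_one (by positivity)]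
    exact hl
  have h1 := energy_add hp (by positivity) (by positivity) hu hg
  have h2 := energy_scale hp hl0 hlc hf
  have h3 := energy_lip hp (by positivity) (by linarith) hLip
  calc ∫⁻ t in Icc (0:ℝ) 1, ENNReal.ofReal (‖deriv f t‖ ^ p)
      ≤ _ := Icc_le_add _ hc0 hc1
    _ ≤ ENNReal.ofReal (lam ^ p * lam⁻¹) *
          ENNReal.ofReal (2 ^ p * (κ * (w / N) ^ p + (M * w / N) ^ p)) +
          ENNReal.ofReal ((K * w) ^ p) := by
        gcongr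
        exact h2.trans (by gcongr)
    _ ≤ _ := by
        rw [← ENNReal.ofReal_mul (by positivity), ← ENNReal.ofReal_add (by positivity)
          (by positivity)]
        apply ENNReal.ofReal_le_ofReal
        rw [Real.mul_rpow hK hw.le, add_mul]
        have := numbers hp hN1 hw hl0 hl hκ hM
        linarith

theorem lintegral_reflect (F : ℝ → ℝ≥0∞) (hF : Measurable F) :
    ∫⁻ t in Icc (0:ℝ) 1, F (1 - t) = ∫⁻ t in Icc (0:ℝ) 1, F t := by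
  have h := (Measure.measurePreserving_sub_left (volume : Measure ℝ) 1).setLIntegral_comp_preimage
    (measurableSet_Icc (a := (0:ℝ)) (b := 1)) hF
  rw [← h]
  congr 2
  ext t
  simp only [mem_Icc, mem_preimage]
  constructor <;> rintro ⟨h1, h2⟩ <;> constructor <;> linarith

theorem lintegral_reflect_deriv (p : ℝ) (f : ℝ → V) (u : V) :
    ∫⁻ t in Icc (0:ℝ) 1, ENNReal.ofReal (‖deriv (fun s => f (1 - s)) t - -u‖ ^ p) =
      ∫⁻ t in Icc (0:ℝ) 1, ENNReal.ofReal (‖deriv f t - u‖ ^ p) := by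
  rw [← lintegral_reflect _ (measurable_en p f u)]
  congr 1
  ext t
  rw [deriv_comp_const_sub, ← neg_add', norm_neg, ← sub_eq_add_neg]

/-- **(e2)** `f` follows `g` at the right end. -/
theorem energyRight {p : ℝ} (hp : 1 ≤ p) {N : ℕ} (hN : 1 ≤ N) {f g : ℝ → V} {w lam K κ M : ℝ}
    {u : V} (hw : 0 < w) (hl0 : 0 < lam) (hl : lam ≤ 2 * N) (hK : 0 ≤ K) (hκ : 0 ≤ κ)
    (hM : 0 ≤ M) (hu : ‖u‖ ≤ M * w / N)
    (hf : ∀ t ∈ Icc (1 - 1 / (2 * N) : ℝ) 1, f t = g (1 - lam * (1 - t)))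
    (hLip : ∀ s ∈ Icc (0:ℝ) (1 - 1 / (2 * N)), ∀ t ∈ Icc (0:ℝ) (1 - 1 / (2 * N)),
      ‖f s - f t‖ ≤ K * w * |s - t|)
    (hg : ∫⁻ s in Icc (0:ℝ) 1, ENNReal.ofReal (‖deriv g s - u‖ ^ p) ≤
      ENNReal.ofReal (κ * (w / N) ^ p)) :
    ∫⁻ t in Icc (0:ℝ) 1, ENNReal.ofReal (‖deriv f t‖ ^ p) ≤
      ENNReal.ofReal ((K ^ p + 4 ^ p * (κ + M ^ p)) * w ^ p) := by
  have h := energyLeft (f := fun t => f (1 - t)) (g := fun t => g (1 - t)) (u := -u) hp hN hw hl0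
    hl hK hκ hM (by rwa [norm_neg]) (fun t ht => by
      have h1 := hf (1 - t) ⟨by linarith [ht.2], by linarith [ht.1]⟩
      simpa using h1)
    (fun s hs t ht => by
      have h1 := hLip (1 - s) ⟨by linarith [hs.2], by linarith [hs.1]⟩ (1 - t)
        ⟨by linarith [ht.2], by linarith [ht.1]⟩
      have h2 : |1 - s - (1 - t)| = |s - t| := by
        rw [abs_sub_comm s t]
        congr 1
        ring
      rwa [h2] at h1)
    (by rwa [lintegral_reflect_deriv])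
  have h2 := lintegral_reflect_deriv p f 0
  simp only [neg_zero, sub_zero] at h2
  rwa [h2] at h

/-- **(e3)** an edge on which the map is affine -/
theorem dvar_affine {p M : ℝ} (hp : 1 ≤ p) {v : V} {e : Idx × Fin 3} {A h' : V → V}
    {L : V →L[ℝ] V} (hA : ∀ x y, A y - A x = L (y - x)) (hL : ∀ w, ‖L w‖ ≤ M * ‖w‖)
    (he : ∀ x ∈ edge v e, h' x = A x) :
    dvar p h' v e 0 ≤ ENNReal.ofReal ((M / 2 ^ e.1.1) ^ p) := by
  have hp0 : (0:ℝ) ≤ p := by linarith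
  set q : V := pt v e.1.1 e.1.2 with hq
  set d : V := (1 / 2 ^ e.1.1 : ℝ) • ev e.2 with hd
  have hgam : ∀ t ∈ Icc (0:ℝ) 1, gam v e t ∈ edge v e := by
    intro t ht
    refine ⟨1 - t, t, by linarith [ht.2], ht.1, by ring, ?_⟩
    rw [gam, ← hq, ← hd]
    module
  have hfd : ∀ t ∈ Ioo (0:ℝ) 1, deriv (fun s => h' (gam v e s)) t = L d := by
    intro t ht
    have h1 : (fun s => h' (gam v e s)) =ᶠ[𝓝 t] fun s => A q + s • L d := by
      filter_upwards [isOpen_Ioo.mem_nhds ht] with s hs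
      rw [he _ (hgam s (Ioo_subset_Icc_self hs))]
      have h2 := hA q (gam v e s)
      rw [gam, ← hq, ← hd, add_sub_cancel_left, map_smul] at h2
      rw [gam, ← hq, ← hd, ← h2]
      abel
    rw [h1.deriv_eq]
    have h3 : HasDerivAt (fun s : ℝ => A q + s • L d) (L d) t := by
      simpa using ((hasDerivAt_id t).smul_const (L d)).const_add (A q)
    exact h3.deriv
  have hn : ‖L d‖ ≤ M / 2 ^ e.1.1 := by
    have h1 : ‖d‖ = 1 / 2 ^ e.1.1 := by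
      rw [hd, norm_smul, Real.norm_of_nonneg (by positivity), ev, Pi.norm_single]
      simp
    calc ‖L d‖ ≤ M * ‖d‖ := hL d
      _ = _ := by rw [h1]; ring
  unfold dvar
  rw [Measure.restrict_congr_set (Ioo_ae_eq_Icc (a := (0:ℝ)) (b := 1)).symm]
  calc ∫⁻ t in Ioo (0:ℝ) 1, ENNReal.ofReal (‖deriv (fun s => h' (gam v e s)) t - 0‖ ^ p)
      ≤ ∫⁻ t in Ioo (0:ℝ) 1, ENNReal.ofReal ((M / 2 ^ e.1.1) ^ p) := by
        apply setLIntegral_mono measurable_const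
        intro t ht
        rw [sub_zero, hfd t ht]
        exact ENNReal.ofReal_le_ofReal (Real.rpow_le_rpow (norm_nonneg _) hn hp0)
    _ = _ := by
        rw [setLIntegral_const, Real.volume_Ioo]
        simp

theorem dvar_affine' {p M : ℝ} (hp : 1 ≤ p) (hM : 0 ≤ M) {v : V} {e : Idx × Fin 3} {A h' : V → V}
    {L : V →L[ℝ] V} (hA : ∀ x y, A y - A x = L (y - x)) (hL : ∀ w, ‖L w‖ ≤ M * ‖w‖)
    (he : ∀ x ∈ edge v e, h' x = A x) :
    dvar p h' v e 0 ≤ ENNReal.ofReal (M ^ p * (1 / 2 ^ e.1.1) ^ p) := by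
  have h := dvar_affine hp hA hL he
  rwa [div_eq_mul_one_div, Real.mul_rpow hM (by positivity)] at h

/-- `‖L ((1/2^m) ev)‖ ≤ M w / 2^k₀` -/
theorem norm_dir {M : ℝ} {L : V →L[ℝ] V} (hL : ∀ w, ‖L w‖ ≤ M * ‖w‖) (n k : ℕ) (j : Fin 3) :
    ‖L ((1 / 2 ^ (n + k) : ℝ) • ev j)‖ ≤ M * (1 / 2 ^ n) / ((2 ^ k : ℕ) : ℝ) := by
  have h1 : ‖(1 / 2 ^ (n + k) : ℝ) • ev j‖ = 1 / 2 ^ (n + k) := by
    rw [norm_smul, Real.norm_of_nonneg (by positivity), ev, Pi.norm_single]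
    simp
  calc ‖L ((1 / 2 ^ (n + k) : ℝ) • ev j)‖ ≤ M * ‖(1 / 2 ^ (n + k) : ℝ) • ev j‖ := hL _
    _ = _ := by
      rw [h1, pow_add]
      push_cast
      field_simp

/-- **(e1)** for `dvar`: `e` is the coarse edge, `e'` the first fine edge in it, `h'` follows `h`
with speed `lam` near the left end. -/
theorem dvarLeft {p M κ K lam : ℝ} (hp : 1 ≤ p) {v : V} {e e' : Idx × Fin 3} {h h' : V → V}
    {L : V →L[ℝ] V} (k₀ : ℕ) (he' : e'.1.1 = e.1.1 + k₀) (hl0 : 0 < lam) (hl : lam ≤ 2 * 2 ^ k₀)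
    (hK : 0 ≤ K) (hκ : 0 ≤ κ) (hM : 0 ≤ M) (hL : ∀ w, ‖L w‖ ≤ M * ‖w‖)
    (hf : ∀ t ∈ Icc (0:ℝ) (1 / (2 * 2 ^ k₀)), h' (gam v e t) = h (gam v e' (lam * t)))
    (hLip : ∀ s ∈ Icc (1 / (2 * 2 ^ k₀) : ℝ) 1, ∀ t ∈ Icc (1 / (2 * 2 ^ k₀) : ℝ) 1,
      ‖h' (gam v e s) - h' (gam v e t)‖ ≤ K * (1 / 2 ^ e.1.1) * |s - t|)
    (hg : dvar p h v e' (L ((1 / 2 ^ e'.1.1 : ℝ) • ev e'.2)) ≤
      ENNReal.ofReal (κ * (1 / 2 ^ e'.1.1) ^ p)) :
    dvar p h' v e 0 ≤ ENNReal.ofReal ((K ^ p + 4 ^ p * (κ + M ^ p)) * (1 / 2 ^ e.1.1) ^ p) := by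
  have hc : ((2 ^ k₀ : ℕ) : ℝ) = 2 ^ k₀ := by push_cast; rfl
  have h1 := norm_dir hL e.1.1 k₀ e'.2
  rw [← he'] at h1
  have h2 : (1 / 2 ^ e'.1.1 : ℝ) = (1 / 2 ^ e.1.1) / ((2 ^ k₀ : ℕ) : ℝ) := by
    rw [he', pow_add, hc]
    field_simp
  have h3 := energyLeft (N := 2 ^ k₀) (f := fun t => h' (gam v e t))
    (g := fun t => h (gam v e' t)) (w := 1 / 2 ^ e.1.1) (lam := lam) hp Nat.one_le_two_pow
    (by positivity) hl0 (by rwa [hc]) hK hκ hM h1 (by rwa [hc]) (by rwa [hc])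
    (by rw [← h2]; exact hg)
  unfold dvar
  simpa only [sub_zero] using h3

/-- **(e2)** for `dvar`: `e'` is the last fine edge in `e`. -/
theorem dvarRight {p M κ K lam : ℝ} (hp : 1 ≤ p) {v : V} {e e' : Idx × Fin 3} {h h' : V → V}
    {L : V →L[ℝ] V} (k₀ : ℕ) (he' : e'.1.1 = e.1.1 + k₀) (hl0 : 0 < lam) (hl : lam ≤ 2 * 2 ^ k₀)
    (hK : 0 ≤ K) (hκ : 0 ≤ κ) (hM : 0 ≤ M) (hL : ∀ w, ‖L w‖ ≤ M * ‖w‖)
    (hf : ∀ t ∈ Icc (1 - 1 / (2 * 2 ^ k₀) : ℝ) 1,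
      h' (gam v e t) = h (gam v e' (1 - lam * (1 - t))))
    (hLip : ∀ s ∈ Icc (0:ℝ) (1 - 1 / (2 * 2 ^ k₀)), ∀ t ∈ Icc (0:ℝ) (1 - 1 / (2 * 2 ^ k₀)),
      ‖h' (gam v e s) - h' (gam v e t)‖ ≤ K * (1 / 2 ^ e.1.1) * |s - t|)
    (hg : dvar p h v e' (L ((1 / 2 ^ e'.1.1 : ℝ) • ev e'.2)) ≤
      ENNReal.ofReal (κ * (1 / 2 ^ e'.1.1) ^ p)) :
    dvar p h' v e 0 ≤ ENNReal.ofReal ((K ^ p + 4 ^ p * (κ + M ^ p)) * (1 / 2 ^ e.1.1) ^ p) := by
  have hc : ((2 ^ k₀ : ℕ) : ℝ) = 2 ^ k₀ := by push_cast; rfl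
  have h1 := norm_dir hL e.1.1 k₀ e'.2
  rw [← he'] at h1
  have h2 : (1 / 2 ^ e'.1.1 : ℝ) = (1 / 2 ^ e.1.1) / ((2 ^ k₀ : ℕ) : ℝ) := by
    rw [he', pow_add, hc]
    field_simp
  have h3 := energyRight (N := 2 ^ k₀) (f := fun t => h' (gam v e t))
    (g := fun t => h (gam v e' t)) (w := 1 / 2 ^ e.1.1) (lam := lam) hp Nat.one_le_two_pow
    (by positivity) hl0 (by rwa [hc]) hK hκ hM h1 (by rwa [hc]) (by rwa [hc])
    (by rw [← h2]; exact hg)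
  unfold dvar
  simpa only [sub_zero] using h3

end P073.GBM489
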