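import Vale.Agent.P073.GBM.CellSpec3
import Vale.Agent.P073.GBM.Lattice
import Vale.Agent.P073.GBM.En489

/-!
# P073, block SpecCell, part (GAP) (helper489): the edges of generation `n₂ + k₁` of the gap
-/

open Set Metric Topology Filter MeasureTheory
open scoped ENNReal NNReal

namespace P073.Cell

open P073 P073.PR720 P073.GB73 P073.GBM P073.Gauge P073.GB1W
open Vale.Agent.P073.St (V)
open Vale.Agent.P073.AB
open Vale.Agent.P073.SQ (ev)
open P073.Net (dyc dyo)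

namespace Gap

/-- lower bounds of `boxB` in units of `1 / 2 ^ (n₂ + k₁)` -/
def P (k₁ : ℕ) (z : Fin 3 → ℤ) (j : Fin 3) : ℤ := z j * 2 ^ k₁ + 1

/-- upper bounds of `boxB` in units of `1 / 2 ^ (n₂ + k₁)` -/
def Q (k₁ : ℕ) (z : Fin 3 → ℤ) (j : Fin 3) : ℤ := (z j + 1) * 2 ^ k₁ - 1

theorem P_div (n₂ k₁ : ℕ) (z : Fin 3 → ℤ) (j : Fin 3) :
    (P k₁ z j : ℝ) / 2 ^ (n₂ + k₁) = z j / 2 ^ n₂ + 1 / 2 ^ (n₂ + k₁) := by
  unfold P
  rw [pow_add]
  push_cast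
  field_simp

theorem Q_div (n₂ k₁ : ℕ) (z : Fin 3 → ℤ) (j : Fin 3) :
    (Q k₁ z j : ℝ) / 2 ^ (n₂ + k₁) = (z j + 1) / 2 ^ n₂ - 1 / 2 ^ (n₂ + k₁) := by
  unfold Q
  rw [pow_add]
  push_cast
  field_simp

theorem mem_boxB {v : V} {n₂ k₁ : ℕ} {z : Fin 3 → ℤ} {x : V} : x ∈ boxB v n₂ k₁ z ↔
    ∀ j, v j + (P k₁ z j : ℝ) / 2 ^ (n₂ + k₁) ≤ x j ∧
      x j ≤ v j + (Q k₁ z j : ℝ) / 2 ^ (n₂ + k₁) := by
  unfold boxB shrink
  simp only [mem_ofPred_eq, P_div, Q_div]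
  refine forall_congr' fun j => ?_
  constructor
  · rintro ⟨h1, h2⟩
    constructor <;> linarith
  · rintro ⟨h1, h2⟩
    constructor <;> linarith

theorem mem_boxR {v : V} {n₂ k₁ : ℕ} {z : Fin 3 → ℤ} {x : V} : x ∈ boxR v n₂ k₁ z ↔
    ∀ j, v j + ((P k₁ z j : ℝ) + 1) / 2 ^ (n₂ + k₁) ≤ x j ∧
      x j ≤ v j + ((Q k₁ z j : ℝ) - 1) / 2 ^ (n₂ + k₁) := by
  unfold boxR shrink
  simp only [mem_ofPred_eq, add_div, sub_div, P_div, Q_div]
  refine forall_congr' fun j => ?_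
  have h : (2:ℝ) / 2 ^ (n₂ + k₁) = 1 / 2 ^ (n₂ + k₁) + 1 / 2 ^ (n₂ + k₁) := by ring
  rw [h]
  constructor
  · rintro ⟨h1, h2⟩
    constructor <;> linarith
  · rintro ⟨h1, h2⟩
    constructor <;> linarith

/-- coordinates of the points of an edge -/
theorem gam_apply (v : V) (n : ℕ) (w : Fin 3 → ℤ) (k : Fin 3) (t : ℝ) (j : Fin 3) :
    gam v ((n, w), k) t j = v j + (w j + if j = k then t else 0) / 2 ^ n := by
  unfold gam pt
  by_cases hj : j = k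
  · subst hj
    simp [ev_same]
    ring
  · simp [ev_of_ne hj, hj]

theorem gam_mem_edge (v : V) (e : Idx × Fin 3) {t : ℝ} (ht : t ∈ Icc (0:ℝ) 1) :
    gam v e t ∈ edge v e := by
  refine ⟨1 - t, t, by linarith [ht.2], ht.1, by ring, ?_⟩
  rw [gam]
  module

theorem exists_gam {v : V} {e : Idx × Fin 3} {x : V} (hx : x ∈ edge v e) :
    ∃ t ∈ Icc (0:ℝ) 1, x = gam v e t := by
  obtain ⟨a, b, ha, hb, hab, rfl⟩ := hx
  refine ⟨b, ⟨hb, by linarith⟩, ?_⟩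
  rw [gam]
  have : a = 1 - b := by linarith
  subst this
  module

/-- the bounds of an edge in `boxB` -/
theorem bounds {v : V} {n₂ k₁ : ℕ} {z w : Fin 3 → ℤ} {k : Fin 3}
    (h : edge v ((n₂ + k₁, w), k) ⊆ boxB v n₂ k₁ z) :
    (∀ j, P k₁ z j ≤ w j ∧ w j ≤ Q k₁ z j) ∧ w k + 1 ≤ Q k₁ z k := by
  have hD : (0:ℝ) < 2 ^ (n₂ + k₁) := by positivity
  have h0 := mem_boxB.1 (h (gam_mem_edge v _ (t := 0) ⟨le_refl _, zero_le_one⟩))
  have h1 := mem_boxB.1 (h (gam_mem_edge v _ (t := 1) ⟨zero_le_one, le_refl _⟩)) k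
  constructor
  · intro j
    have h2 := h0 j
    rw [gam_apply] at h2
    simp only [ite_self, add_zero, add_le_add_iff_left, div_le_div_iff_of_pos_right hD] at h2
    exact ⟨by exact_mod_cast h2.1, by exact_mod_cast h2.2⟩
  · have h2 := h1.2
    rw [gam_apply] at h2
    simp only [if_true, add_le_add_iff_left, div_le_div_iff_of_pos_right hD] at h2
    exact_mod_cast h2

/-- an edge in the boundary -/
theorem strict {v : V} {n₂ k₁ : ℕ} {z w : Fin 3 → ℤ} {k : Fin 3}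
    (h : edge v ((n₂ + k₁, w), k) ⊆ boxB v n₂ k₁ z)
    (hfr : ¬ edge v ((n₂ + k₁, w), k) ⊆ frontier (boxB v n₂ k₁ z)) {j : Fin 3} (hj : j ≠ k) :
    P k₁ z j + 1 ≤ w j ∧ w j ≤ Q k₁ z j - 1 := by
  obtain ⟨hb, -⟩ := bounds h
  have key : ∀ σ : ℝ, (∀ x ∈ boxB v n₂ k₁ z, σ * x j ≤ σ * (v j + (w j : ℝ) / 2 ^ (n₂ + k₁))) →
      σ ≠ 0 → False := by
    intro σ hσ h0
    apply hfr
    intro x hx
    refine ⟨subset_closure (h hx), fun hi => ?_⟩
    obtain ⟨t, ht, rfl⟩ := exists_gam hx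
    have hxj : gam v ((n₂ + k₁, w), k) t j = v j + (w j : ℝ) / 2 ^ (n₂ + k₁) := by
      rw [gam_apply, if_neg hj, add_zero]
    have hcont : Continuous fun s : ℝ => gam v ((n₂ + k₁, w), k) t + s • (σ • ev j) := by
      fun_prop
    have h1 : ∀ᶠ s : ℝ in 𝓝 0, gam v ((n₂ + k₁, w), k) t + s • (σ • ev j) ∈
        boxB v n₂ k₁ z := by
      have := hcont.continuousAt (x := 0)
      have h2 := this.eventually_mem (s := boxB v n₂ k₁ z) (by
        simp only [zero_smul, add_zero]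
        exact mem_interior_iff_mem_nhds.1 hi)
      exact h2
    have h2 : ∀ᶠ s : ℝ in 𝓝[>] 0, gam v ((n₂ + k₁, w), k) t + s • (σ • ev j) ∈
        boxB v n₂ k₁ z := h1.filter_mono nhdsWithin_le_nhds
    obtain ⟨s, hs, hs0⟩ := (h2.and self_mem_nhdsWithin).exists
    have hs0' : 0 < s := hs0
    have h3 := hσ _ hs
    simp only [Pi.add_apply, Pi.smul_apply, smul_eq_mul, ev_same, mul_one, hxj] at h3
    have h4 : 0 < σ * σ := mul_self_pos.2 h0
    nlinarith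
  constructor
  · by_contra hlt
    have he : w j = P k₁ z j := by
      have := (hb j).1
      omega
    refine key (-1) (fun x hx => ?_) (by norm_num)
    have := (mem_boxB.1 hx j).1
    rw [he]
    linarith
  · by_contra hlt
    have he : w j = Q k₁ z j := by
      have := (hb j).2
      omega
    refine key 1 (fun x hx => ?_) (by norm_num)
    have := (mem_boxB.1 hx j).2
    rw [he]
    linarith

theorem al_eq (k₁ k₀ : ℕ) (z : Fin 3 → ℤ) (j : Fin 3) : al k₁ k₀ z j = 2 ^ k₀ * P k₁ z j := by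
  unfold al P
  rw [pow_add]
  ring

theorem be_eq (k₁ k₀ : ℕ) (z : Fin 3 → ℤ) (j : Fin 3) : be k₁ k₀ z j = 2 ^ k₀ * Q k₁ z j - 1 := by
  unfold be Q
  rw [pow_add]
  ring

theorem mem_box {v : V} {n₂ k₁ k₀ : ℕ} {z : Fin 3 → ℤ} {x : V} :
    x ∈ Icc (lo v n₂ k₁ k₀ z) (hi v n₂ k₁ k₀ z) ↔
    ∀ j, v j + ((al k₁ k₀ z j : ℝ) + 1 / 2) / 2 ^ (gN n₂ k₁ k₀) ≤ x j ∧
      x j ≤ v j + ((be k₁ k₀ z j : ℝ) + 1 / 2) / 2 ^ (gN n₂ k₁ k₀) := by
  rw [mem_Icc, Pi.le_def, Pi.le_def, ← forall_and]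
  rfl

/-- the points in the interior of the box -/
theorem of_interior {v : V} {n₂ k₁ k₀ : ℕ} {z : Fin 3 → ℤ} {x : V}
    (hx : x ∈ interior (Icc (lo v n₂ k₁ k₀ z) (hi v n₂ k₁ k₀ z))) (j : Fin 3) :
    v j + ((al k₁ k₀ z j : ℝ) + 1 / 2) / 2 ^ (gN n₂ k₁ k₀) < x j ∧
      x j < v j + ((be k₁ k₀ z j : ℝ) + 1 / 2) / 2 ^ (gN n₂ k₁ k₀) := by
  have key : ∀ σ : ℝ, ∀ᶠ s : ℝ in 𝓝[>] 0, x + s • (σ • ev j) ∈
      Icc (lo v n₂ k₁ k₀ z) (hi v n₂ k₁ k₀ z) := by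
    intro σ
    have hcont : Continuous fun s : ℝ => x + s • (σ • ev j) := by fun_prop
    have h2 := (hcont.continuousAt (x := 0)).eventually_mem
      (s := Icc (lo v n₂ k₁ k₀ z) (hi v n₂ k₁ k₀ z)) (by
        simp only [zero_smul, add_zero]
        exact mem_interior_iff_mem_nhds.1 hx)
    exact h2.filter_mono nhdsWithin_le_nhds
  constructor
  · obtain ⟨s, hs, hs0⟩ := ((key (-1)).and self_mem_nhdsWithin).exists
    have hs0' : 0 < s := hs0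
    have h := (mem_box.1 hs j).1
    simp only [Pi.add_apply, Pi.smul_apply, smul_eq_mul, ev_same, mul_one] at h
    linarith
  · obtain ⟨s, hs, hs0⟩ := ((key 1).and self_mem_nhdsWithin).exists
    have hs0' : 0 < s := hs0
    have h := (mem_box.1 hs j).2
    simp only [Pi.add_apply, Pi.smul_apply, smul_eq_mul, ev_same, mul_one] at h
    linarith

end Gap

end P073.Cell
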