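import Vale.Agent.P073.GBM.Gap489a

/-!
# P073, block SpecCell, part (GAP) (helper489): closeness and energy of the gap edges
-/

open Set Metric Topology Filter MeasureTheory
open scoped ENNReal NNReal

namespace P073.Cell

open P073 P073.PR720 P073.GB73 P073.GBM P073.Gauge P073.GB1W
open Vale.Agent.P073.St (V)
open Vale.Agent.P073.AB
open Vale.Agent.P073.SQ (ev)
open P073.Net (dyc dyo)

namespace Gap

variable {Vx B J I : Type} {e0 e1 : B → Vx} {inc : B → J → Prop} {qC : J → I → Prop} {Ω : Set V}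

/-- the lower corner of the fine edge number `m` of the coarse edge `(w, k)` -/
def fc (k₀ : ℕ) (w : Fin 3 → ℤ) (k : Fin 3) (m : ℤ) (j : Fin 3) : ℤ :=
  2 ^ k₀ * w j + if j = k then m else 0

theorem gam_fine (v : V) (n k₀ : ℕ) (w : Fin 3 → ℤ) (k : Fin 3) (m : ℤ) (t : ℝ) :
    gam v ((n, w), k) t = gam v ((n + k₀, fc k₀ w k m), k) (2 ^ k₀ * t - m) := by
  funext j
  rw [gam_apply, gam_apply, pow_add]
  unfold fc
  have h1 : (0:ℝ) < 2 ^ n := by positivity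
  have h2 : (0:ℝ) < 2 ^ k₀ := by positivity
  by_cases hj : j = k
  · simp only [hj, if_true]
    push_cast
    field_simp
    ring
  · simp only [hj, if_false]
    push_cast
    field_simp
    ring

theorem gam_sub (v : V) (e : Idx × Fin 3) (s t : ℝ) :
    gam v e s - gam v e t = ((s - t) / 2 ^ e.1.1) • ev e.2 := by
  unfold gam
  rw [add_sub_add_left_eq_sub, ← sub_smul, smul_smul]
  congr 1
  ring

theorem norm_ev (k : Fin 3) : ‖ev k‖ = 1 := by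
  rw [ev, Pi.norm_single]
  simp

theorem norm_gam_sub (v : V) (e : Idx × Fin 3) (s t : ℝ) :
    ‖gam v e s - gam v e t‖ = |s - t| / 2 ^ e.1.1 := by
  rw [gam_sub, norm_smul, norm_ev, mul_one, Real.norm_eq_abs, abs_div, abs_of_pos (a := (2:ℝ) ^ _)
    (by positivity)]

/-- what is known about the new map on the line of a marked fine edge -/
structure Fine (v : V) (n₂ k₁ k₀ : ℕ) (z a : Fin 3 → ℤ) (k : Fin 3) (h h3 Lt : V → V) (r : ℝ) :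
    Prop where
  r_mem : r ∈ Icc (1 / 4 : ℝ) (3 / 4)
  fine : ∀ s ∈ Icc (0:ℝ) 1, gam v ((gN n₂ k₁ k₀, a), k) s ∉
    interior (Icc (lo v n₂ k₁ k₀ z) (hi v n₂ k₁ k₀ z)) →
    h3 (gam v ((gN n₂ k₁ k₀, a), k) s) = h (gam v ((gN n₂ k₁ k₀, a), k) (GB1.rep (1 / 2) r s))
  model : ∀ s : ℝ, gam v ((gN n₂ k₁ k₀, a), k) s ∈ Icc (lo v n₂ k₁ k₀ z) (hi v n₂ k₁ k₀ z) →
    |s - 1 / 2| ≤ 2 ^ k₀ - 1 / 2 →
    h3 (gam v ((gN n₂ k₁ k₀, a), k) s) = Lt (gam v ((gN n₂ k₁ k₀, a), k) s)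

theorem exists_fine {K : Cx3 e0 e1 inc qC Ω} {v : V} {n₂ k₁ k₀ : ℕ} {z a : Fin 3 → ℤ} {k : Fin 3}
    {h h3 Lt : V → V} {χ : B → V → V} {p' : B → V} {b : B}
    (hb : K.arc b = edge v ((gN n₂ k₁ k₀, a), k)) (hM : Marked k₁ k₀ z a k)
    (hcut : IsCut K v (gN n₂ k₁ k₀) (al k₁ k₀ z) (be k₁ k₀ z) p')
    (h1 : ∀ b, ∀ x ∈ K.arc b, x ∉ interior (Icc (lo v n₂ k₁ k₀ z) (hi v n₂ k₁ k₀ z)) →
      h3 x = h (χ b x))
    (h2 : ∀ b a k, K.arc b = edge v ((gN n₂ k₁ k₀, a), k) →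
        CrossZ (al k₁ k₀ z) (be k₁ k₀ z) a k → ∃ r ∈ Icc (1 / 4 : ℝ) (3 / 4), ∀ s ∈ Icc (0:ℝ) 1,
          χ b (pt v (gN n₂ k₁ k₀) a + s • ((1 / 2 ^ (gN n₂ k₁ k₀) : ℝ) • ev k)) =
            pt v (gN n₂ k₁ k₀) a +
              GB1.rep (1 / 2) r s • ((1 / 2 ^ (gN n₂ k₁ k₀) : ℝ) • ev k))
    (h3' : ∀ b a k, K.arc b = edge v ((gN n₂ k₁ k₀, a), k) → Marked k₁ k₀ z a k →
      ∀ x ∈ Icc (lo v n₂ k₁ k₀ z) (hi v n₂ k₁ k₀ z), ‖x - p' b‖ ≤ mg n₂ k₁ k₀ →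
        (∀ j, j ≠ k → x j = p' b j) → h3 x = Lt x) :
    ∃ r, Fine v n₂ k₁ k₀ z a k h h3 Lt r := by
  obtain ⟨r, hr, hχ⟩ := h2 b a k hb hM.1
  have hp : p' b = gam v ((gN n₂ k₁ k₀, a), k) (1 / 2) := by
    rw [hcut b a k hb hM.1, gam]
    congr 1
    show (1 / 2 / 2 ^ (gN n₂ k₁ k₀) : ℝ) • ev k =
      (1 / 2 : ℝ) • ((1 / 2 ^ (gN n₂ k₁ k₀) : ℝ) • ev k)
    rw [smul_smul]
    congr 1
    ring
  refine ⟨r, hr, fun s hs hni => ?_, fun s hs hsr => ?_⟩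
  · rw [h1 b _ (by rw [hb]; exact gam_mem_edge v _ hs) hni]
    congr 1
    exact hχ s hs
  · refine h3' b a k hb hM _ hs ?_ ?_
    · rw [hp, norm_gam_sub]
      show |s - 1 / 2| / 2 ^ (gN n₂ k₁ k₀) ≤ mg n₂ k₁ k₀
      have hD : (0:ℝ) < 2 ^ (n₂ + k₁) := by positivity
      have hT : (0:ℝ) < 2 ^ k₀ := by positivity
      unfold mg gN
      rw [div_le_iff₀ (by positivity)]
      have : (1 / 2 ^ (n₂ + k₁) - 1 / 2 / 2 ^ (n₂ + k₁ + k₀) : ℝ) * 2 ^ (n₂ + k₁ + k₀) =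
          2 ^ k₀ - 1 / 2 := by
        rw [pow_add 2 (n₂ + k₁) k₀]
        field_simp
      rw [this]
      exact hsr
    · intro j hj
      rw [hp, gam_apply, gam_apply, if_neg hj, if_neg hj]

section

variable {v : V} {n₂ k₁ k₀ : ℕ} {z a : Fin 3 → ℤ} {k : Fin 3} {h h3 Lt : V → V} {r : ℝ}
  {o : V} {A : V ≃L[ℝ] V} {M μ : ℝ}

theorem rep_mem {r s : ℝ} (hr : r ∈ Icc (1 / 4 : ℝ) (3 / 4)) (hs : s ∈ Icc (0:ℝ) 1) :
    GB1.rep (1 / 2) r s ∈ Icc (0:ℝ) 1 := by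
  obtain ⟨h1, h2⟩ := hr
  obtain ⟨h3, h4⟩ := hs
  rcases le_total s (1 / 2) with hh | hh
  · rw [GB1.rep_le hh]
    constructor
    · positivity
    · rw [← mul_div_assoc, div_le_one (by norm_num)]
      nlinarith
  · rw [GB1.rep_ge (by norm_num) hh]
    have e : r + (s - 1 / 2) * ((1 - r) / (1 - 1 / 2)) = r + (2 * s - 1) * (1 - r) := by ring
    rw [e]
    constructor <;> nlinarith

theorem norm_A_sub (hA : ∀ w, ‖A w‖ ≤ M * ‖w‖) (x y : V) : ‖A x - A y‖ ≤ M * ‖x - y‖ := by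
  rw [← map_sub]
  exact hA _

theorem norm_of_symm (hA : ∀ w, ‖A w‖ ≤ M * ‖w‖) (hM : 0 ≤ M) {x y : V} {d : ℝ}
    (hd : ‖A.symm (y - o) - x‖ ≤ d) : ‖y - (o + A x)‖ ≤ M * d := by
  have h1 : y - (o + A x) = A (A.symm (y - o) - x) := by
    rw [map_sub, A.apply_symm_apply]
    abel
  rw [h1]
  exact (hA _).trans (mul_le_mul_of_nonneg_left hd hM)

/-- closeness on the line of a marked fine edge -/
theorem Fine.close (F : Fine v n₂ k₁ k₀ z a k h h3 Lt r) (hA : ∀ w, ‖A w‖ ≤ M * ‖w‖) (hM : 0 < M)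
    (hsup : ∀ x ∈ edge v ((gN n₂ k₁ k₀, a), k), ‖A.symm (h x - o) - x‖ ≤ μ)
    (hμ : μ ≤ 1 / 8 / 2 ^ (gN n₂ k₁ k₀))
    (hLt : ∀ x ∈ Icc (lo v n₂ k₁ k₀ z) (hi v n₂ k₁ k₀ z),
      ‖A.symm (Lt x - o) - x‖ ≤ μ + 1 / 8 / 2 ^ (gN n₂ k₁ k₀)) {s : ℝ}
    (hs : (s ∈ Icc (0:ℝ) 1 ∧ gam v ((gN n₂ k₁ k₀, a), k) s ∉
        interior (Icc (lo v n₂ k₁ k₀ z) (hi v n₂ k₁ k₀ z))) ∨
      (gam v ((gN n₂ k₁ k₀, a), k) s ∈ Icc (lo v n₂ k₁ k₀ z) (hi v n₂ k₁ k₀ z) ∧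
        |s - 1 / 2| ≤ 2 ^ k₀ - 1 / 2)) :
    ‖h3 (gam v ((gN n₂ k₁ k₀, a), k) s) - (o + A (gam v ((gN n₂ k₁ k₀, a), k) s))‖ ≤
      2 * M * (1 / 2 ^ (gN n₂ k₁ k₀)) := by
  set d : ℝ := 1 / 2 ^ (gN n₂ k₁ k₀) with hd
  have hd0 : 0 < d := by positivity
  have hμ' : μ ≤ d / 8 := by
    rw [hd]
    calc μ ≤ 1 / 8 / 2 ^ (gN n₂ k₁ k₀) := hμ
      _ = _ := by ring
  rcases hs with ⟨hs1, hs2⟩ | ⟨hs1, hs2⟩
  · rw [F.fine s hs1 hs2]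
    have hr := rep_mem F.r_mem hs1
    set s' := GB1.rep (1 / 2) r s with hs'
    have h1 := norm_of_symm hA hM.le (hsup _ (gam_mem_edge v _ hr))
    have h2 := norm_A_sub hA (gam v ((gN n₂ k₁ k₀, a), k) s') (gam v ((gN n₂ k₁ k₀, a), k) s)
    rw [norm_gam_sub] at h2
    have h3 : |s' - s| ≤ 1 := by
      rw [abs_le]
      constructor
      · linarith [hr.1, hs1.2]
      · linarith [hr.2, hs1.1]
    have h4 : |s' - s| / 2 ^ (gN n₂ k₁ k₀) ≤ d := by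
      rw [hd]
      gcongr
    calc ‖h (gam v ((gN n₂ k₁ k₀, a), k) s') - (o + A (gam v ((gN n₂ k₁ k₀, a), k) s))‖
        = ‖(h (gam v ((gN n₂ k₁ k₀, a), k) s') - (o + A (gam v ((gN n₂ k₁ k₀, a), k) s'))) +
            (A (gam v ((gN n₂ k₁ k₀, a), k) s') - A (gam v ((gN n₂ k₁ k₀, a), k) s))‖ := by
          congr 1
          abel
      _ ≤ M * μ + M * (|s' - s| / 2 ^ (gN n₂ k₁ k₀)) :=
          (norm_add_le _ _).trans (add_le_add h1 h2)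
      _ ≤ M * (d / 8) + M * d := by gcongr
      _ ≤ 2 * M * d := by nlinarith [mul_pos hM hd0]
  · rw [F.model s hs1 hs2]
    refine (norm_of_symm hA hM.le (hLt _ hs1)).trans ?_
    have h1 : μ + 1 / 8 / 2 ^ (gN n₂ k₁ k₀) ≤ d / 8 + d / 8 := by
      have : (1 / 8 / 2 ^ (gN n₂ k₁ k₀) : ℝ) = d / 8 := by rw [hd]; ring
      rw [this]
      linarith
    calc M * (μ + 1 / 8 / 2 ^ (gN n₂ k₁ k₀)) ≤ M * (d / 8 + d / 8) := by gcongr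
      _ ≤ 2 * M * d := by nlinarith [mul_pos hM hd0]

theorem Lt_lip (hA : ∀ w, ‖A w‖ ≤ M * ‖w‖) (hM : 0 < M)
    (hLt : ∀ x y, ‖A.symm (Lt x - Lt y)‖ ≤ 9 / 4 * ‖x - y‖) (x y : V) :
    ‖Lt x - Lt y‖ ≤ 9 / 4 * M * ‖x - y‖ := by
  calc ‖Lt x - Lt y‖ = ‖A (A.symm (Lt x - Lt y))‖ := by rw [A.apply_symm_apply]
    _ ≤ M * ‖A.symm (Lt x - Lt y)‖ := hA _
    _ ≤ M * (9 / 4 * ‖x - y‖) := mul_le_mul_of_nonneg_left (hLt x y) hM.le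
    _ = _ := by ring

end

/-- positions on the line of the fine edge, relative to the box -/
theorem notMem_interior_low {v : V} {n₂ k₁ k₀ : ℕ} {z a : Fin 3 → ℤ} {k : Fin 3}
    (ha : a k = al k₁ k₀ z k) {s : ℝ} (hs : s ≤ 1 / 2) :
    gam v ((gN n₂ k₁ k₀, a), k) s ∉ interior (Icc (lo v n₂ k₁ k₀ z) (hi v n₂ k₁ k₀ z)) := by
  intro h
  have h1 := (of_interior h k).1
  rw [gam_apply, if_pos rfl, add_lt_add_iff_left, div_lt_div_iff_of_pos_right (by positivity),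
    ha] at h1
  linarith

theorem notMem_interior_high {v : V} {n₂ k₁ k₀ : ℕ} {z a : Fin 3 → ℤ} {k : Fin 3}
    (ha : a k = be k₁ k₀ z k) {s : ℝ} (hs : 1 / 2 ≤ s) :
    gam v ((gN n₂ k₁ k₀, a), k) s ∉ interior (Icc (lo v n₂ k₁ k₀ z) (hi v n₂ k₁ k₀ z)) := by
  intro h
  have h1 := (of_interior h k).2
  rw [gam_apply, if_pos rfl, add_lt_add_iff_left, div_lt_div_iff_of_pos_right (by positivity),
    ha] at h1
  linarith

theorem mem_box_line {v : V} {n₂ k₁ k₀ : ℕ} {z a : Fin 3 → ℤ} {k : Fin 3}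
    (hj : ∀ j, j ≠ k → al k₁ k₀ z j < a j ∧ a j ≤ be k₁ k₀ z j) {s : ℝ}
    (h1 : (al k₁ k₀ z k : ℝ) + 1 / 2 ≤ a k + s) (h2 : (a k : ℝ) + s ≤ be k₁ k₀ z k + 1 / 2) :
    gam v ((gN n₂ k₁ k₀, a), k) s ∈ Icc (lo v n₂ k₁ k₀ z) (hi v n₂ k₁ k₀ z) := by
  rw [mem_box]
  intro j
  rw [gam_apply, add_le_add_iff_left, add_le_add_iff_left,
    div_le_div_iff_of_pos_right (by positivity), div_le_div_iff_of_pos_right (by positivity)]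
  by_cases hjk : j = k
  · subst hjk
    rw [if_pos rfl]
    exact ⟨h1, h2⟩
  · rw [if_neg hjk, add_zero]
    obtain ⟨h3, h4⟩ := hj j hjk
    have h5 : (al k₁ k₀ z j : ℝ) + 1 ≤ a j := by exact_mod_cast h3
    have h6 : (a j : ℝ) ≤ be k₁ k₀ z j := by exact_mod_cast h4
    constructor <;> linarith

end Gap

end P073.Cell
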