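import Vale.Agent.P073.GBM.CellSpec2
import Vale.Agent.P073.GBM.PatProof

/-!
# P073, block SpecCell, part MOD: the model maps and the reparametrisations of the crossed edges
-/

open Set Metric Topology Filter MeasureTheory
open scoped ENNReal NNReal

namespace P073.Cell

open P073 P073.PR720 P073.GB73 P073.GBM P073.Gauge P073.GB1W
open Vale.Agent.P073.St (V)
open Vale.Agent.P073.AB
open Vale.Agent.P073.SQ (ev)
open P073.Net (dyc dyo)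

/-! ### Numbers -/

section numbers

variable (v : V) (n₂ k₁ k₀ : ℕ) (z : Fin 3 → ℤ)

/-- the fine mesh -/
noncomputable def fm (n₂ k₁ k₀ : ℕ) : ℝ := 1 / 2 ^ (gN n₂ k₁ k₀)

theorem fm_pos : 0 < fm n₂ k₁ k₀ := by unfold fm; positivity

theorem div_fm (x : ℝ) : x / 2 ^ (gN n₂ k₁ k₀) = x * fm n₂ k₁ k₀ := by
  rw [fm, mul_one_div]

theorem one_div_n2 : (1:ℝ) / 2 ^ n₂ = 2 ^ (k₁ + k₀) * fm n₂ k₁ k₀ := by
  rw [fm, gN, mul_one_div, add_assoc, pow_add 2 n₂]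
  field_simp

theorem one_div_n1 : (1:ℝ) / 2 ^ (n₂ + k₁) = 2 ^ k₀ * fm n₂ k₁ k₀ := by
  rw [fm, gN, mul_one_div, pow_add 2 (n₂ + k₁)]
  field_simp

theorem al_cast (k : Fin 3) : ((al k₁ k₀ z k : ℤ) : ℝ) = z k * 2 ^ (k₁ + k₀) + 2 ^ k₀ := by
  unfold al; push_cast; ring

theorem be_cast (k : Fin 3) :
    ((be k₁ k₀ z k : ℤ) : ℝ) = (z k + 1) * 2 ^ (k₁ + k₀) - 2 ^ k₀ - 1 := by
  unfold be; push_cast; ring

theorem lo_app (k : Fin 3) : lo v n₂ k₁ k₀ z k =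
    v k + (z k * 2 ^ (k₁ + k₀) + 2 ^ k₀ + 1 / 2) * fm n₂ k₁ k₀ := by
  unfold lo hp; rw [al_cast, div_fm]

theorem hi_app (k : Fin 3) : hi v n₂ k₁ k₀ z k =
    v k + ((z k + 1) * 2 ^ (k₁ + k₀) - 2 ^ k₀ - 1 / 2) * fm n₂ k₁ k₀ := by
  unfold hi hp; rw [be_cast, div_fm]; ring

theorem bc_app (k : Fin 3) : bc v (gN n₂ k₁ k₀) (al k₁ k₀ z) (be k₁ k₀ z) k =
    v k + (z k * 2 ^ (k₁ + k₀) + 2 ^ (k₁ + k₀) / 2) * fm n₂ k₁ k₀ := by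
  unfold bc; rw [al_cast, be_cast, div_fm]; ring

theorem bw_app (k : Fin 3) : bw (gN n₂ k₁ k₀) (al k₁ k₀ z) (be k₁ k₀ z) k =
    (2 ^ (k₁ + k₀) / 2 - 2 ^ k₀ - 1 / 2) * fm n₂ k₁ k₀ := by
  unfold bw; rw [al_cast, be_cast, div_fm]; ring

theorem mg_app : mg n₂ k₁ k₀ = (2 ^ k₀ - 1 / 2) * fm n₂ k₁ k₀ := by
  unfold mg; rw [one_div_n1 n₂ k₁ k₀, div_fm]; ring

theorem bc_sub_bw : bc v (gN n₂ k₁ k₀) (al k₁ k₀ z) (be k₁ k₀ z) -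
    bw (gN n₂ k₁ k₀) (al k₁ k₀ z) (be k₁ k₀ z) = lo v n₂ k₁ k₀ z := by
  funext k
  rw [Pi.sub_apply, bc_app, bw_app, lo_app]; ring

theorem bc_add_bw : bc v (gN n₂ k₁ k₀) (al k₁ k₀ z) (be k₁ k₀ z) +
    bw (gN n₂ k₁ k₀) (al k₁ k₀ z) (be k₁ k₀ z) = hi v n₂ k₁ k₀ z := by
  funext k
  rw [Pi.add_apply, bc_app, bw_app, hi_app]; ring

theorem pt_app (a : Fin 3 → ℤ) (k : Fin 3) :
    pt v (gN n₂ k₁ k₀) a k = v k + a k * fm n₂ k₁ k₀ := by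
  unfold pt; rw [div_fm]

variable {k₁ k₀}

theorem two_pow_ge (hk : 3 ≤ k₀) : (8:ℝ) ≤ 2 ^ k₀ := by
  calc (8:ℝ) = 2 ^ 3 := by norm_num
    _ ≤ 2 ^ k₀ := pow_le_pow_right₀ (by norm_num) hk

theorem pow_add_ge (hk : 3 ≤ k₁) : 8 * (2:ℝ) ^ k₀ ≤ 2 ^ (k₁ + k₀) := by
  rw [pow_add]
  exact mul_le_mul_of_nonneg_right (two_pow_ge hk) (by positivity)

theorem al_lt_be (hk₁ : 3 ≤ k₁) (hk₀ : 3 ≤ k₀) (k : Fin 3) : al k₁ k₀ z k < be k₁ k₀ z k := by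
  have h1 := two_pow_ge hk₀
  have h2 := pow_add_ge (k₀ := k₀) hk₁
  have h3 : ((al k₁ k₀ z k : ℤ) : ℝ) < be k₁ k₀ z k := by
    rw [al_cast, be_cast]; nlinarith
  exact_mod_cast h3

end numbers

/-- the protected box -/
theorem boxR_margin {v : V} {n₂ k₁ k₀ : ℕ} {z : Fin 3 → ℤ} {x : V} (hx : x ∈ boxR v n₂ k₁ z)
    (l : Fin 3) : lo v n₂ k₁ k₀ z l + mg n₂ k₁ k₀ ≤ x l ∧
      x l ≤ hi v n₂ k₁ k₀ z l - mg n₂ k₁ k₀ := by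
  obtain ⟨h1, h2⟩ := hx l
  have e2 := one_div_n2 n₂ k₁ k₀
  have e1 := one_div_n1 n₂ k₁ k₀
  have f1 : (z l : ℝ) / 2 ^ n₂ = z l * (1 / 2 ^ n₂) := by ring
  have f2 : ((z l : ℝ) + 1) / 2 ^ n₂ = (z l + 1) * (1 / 2 ^ n₂) := by ring
  have f3 : (2:ℝ) / 2 ^ (n₂ + k₁) = 2 * (1 / 2 ^ (n₂ + k₁)) := by ring
  rw [f1, f3, e1, e2] at h1
  rw [f2, f3, e1, e2] at h2
  rw [lo_app, hi_app, mg_app]
  constructor <;> linarith

variable {Vx B J I : Type} {e0 e1 : B → Vx} {inc : B → J → Prop} {qC : J → I → Prop} {Ω : Set V}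

/-- the frontier of the box is in the range of the lattice -/
theorem frontier_sub {v : V} {n₂ k₁ k₀ : ℕ} {z : Fin 3 → ℤ} {q0 q1 : V}
    (hq : ∀ k, q0 k + 1 / 2 ^ (gN n₂ k₁ k₀) ≤ lo v n₂ k₁ k₀ z k ∧
      hi v n₂ k₁ k₀ z k ≤ q1 k - 1 / 2 ^ (gN n₂ k₁ k₀)) :
    frontier (hbox v (gN n₂ k₁ k₀) (al k₁ k₀ z) (be k₁ k₀ z)) ⊆ interior (Icc q0 q1) := by
  have hf := fm_pos n₂ k₁ k₀
  intro x hx
  rw [mem_frontier_hbox] at hx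
  have h1 : ∀ k, q0 k < x k ∧ x k < q1 k := by
    intro k
    have h2 := hx.1 k
    have h3 := hq k
    rw [div_fm, one_mul] at h3
    have e1 : hp v (gN n₂ k₁ k₀) (al k₁ k₀ z) k = lo v n₂ k₁ k₀ z k := rfl
    have e2 : hp v (gN n₂ k₁ k₀) (be k₁ k₀ z) k = hi v n₂ k₁ k₀ z k := rfl
    rw [e1, e2] at h2
    constructor <;> linarith [h2.1, h2.2, h3.1, h3.2]
  rw [mem_interior_iff_mem_nhds, ← Set.pi_univ_Icc]
  exact set_pi_mem_nhds finite_univ fun k _ => Icc_mem_nhds (h1 k).1 (h1 k).2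

/-- the middle points of the marked edges -/
theorem mark_face {v : V} {n₂ k₁ k₀ : ℕ} {z a : Fin 3 → ℤ} {k : Fin 3} (hk₁ : 3 ≤ k₁)
    (hk₀ : 3 ≤ k₀) (h : CrossZ (al k₁ k₀ z) (be k₁ k₀ z) a k) :
    (pt v (gN n₂ k₁ k₀) a + (1 / 2 / 2 ^ (gN n₂ k₁ k₀) : ℝ) • ev k) k =
      bc v (gN n₂ k₁ k₀) (al k₁ k₀ z) (be k₁ k₀ z) k +
        (if a k = be k₁ k₀ z k then 1 else -1) * bw (gN n₂ k₁ k₀) (al k₁ k₀ z) (be k₁ k₀ z) k := by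
  rw [mid_apply_self, div_fm, bc_app, bw_app]
  have hne := (al_lt_be z hk₁ hk₀ k).ne
  rcases h.1 with h1 | h1
  · rw [if_neg (by rw [h1]; exact hne), h1, al_cast]; ring
  · rw [if_pos h1, h1, be_cast]; ring

theorem mark_mid {v : V} {n₂ k₁ k₀ : ℕ} {z a : Fin 3 → ℤ} {k j : Fin 3} (hj : j ≠ k)
    (h : Marked k₁ k₀ z a k) :
    lo v n₂ k₁ k₀ z j + mg n₂ k₁ k₀ ≤ pt v (gN n₂ k₁ k₀) a j ∧
      pt v (gN n₂ k₁ k₀) a j ≤ hi v n₂ k₁ k₀ z j - mg n₂ k₁ k₀ := by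
  have hf := fm_pos n₂ k₁ k₀
  obtain ⟨-, h1, h2⟩ := h.2 j hj
  have h1' : (z j : ℝ) * 2 ^ (k₁ + k₀) + 2 * 2 ^ k₀ ≤ a j := by exact_mod_cast h1
  have h2' : (a j : ℝ) ≤ (z j + 1) * 2 ^ (k₁ + k₀) - 2 * 2 ^ k₀ := by exact_mod_cast h2
  rw [lo_app, hi_app, pt_app, mg_app]
  constructor
  · have := mul_le_mul_of_nonneg_right h1' hf.le
    linarith
  · have := mul_le_mul_of_nonneg_right h2' hf.le
    linarith

/-- separation of the marked points -/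
theorem mark_sep {v : V} {n₂ k₁ k₀ : ℕ} {z a a' : Fin 3 → ℤ} {k k' : Fin 3} (hk₁ : 3 ≤ k₁)
    (hk₀ : 3 ≤ k₀) (h : Marked k₁ k₀ z a k) (h' : Marked k₁ k₀ z a' k')
    (hne : ¬ (a = a' ∧ k = k')) :
    mg n₂ k₁ k₀ ≤ ‖(pt v (gN n₂ k₁ k₀) a + (1 / 2 / 2 ^ (gN n₂ k₁ k₀) : ℝ) • ev k) -
      (pt v (gN n₂ k₁ k₀) a' + (1 / 2 / 2 ^ (gN n₂ k₁ k₀) : ℝ) • ev k')‖ := by
  have hf := fm_pos n₂ k₁ k₀
  have h8 := two_pow_ge hk₀
  have h88 := pow_add_ge (k₀ := k₀) hk₁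
  have hmg : mg n₂ k₁ k₀ ≤ 2 ^ k₀ * fm n₂ k₁ k₀ := by rw [mg_app]; nlinarith
  have hx : ∀ (x y : V) (j : Fin 3), |x j - y j| ≤ ‖x - y‖ := fun x y j =>
    norm_le_pi_norm (x - y) j
  by_cases hkk : k = k'
  · subst hkk
    -- some coordinate of the lower ends differs by at least `2 ^ k₀`
    have haa : a ≠ a' := fun e => hne ⟨e, rfl⟩
    obtain ⟨j, hj⟩ := Function.ne_iff.1 haa
    have hbig : (2:ℤ) ^ k₀ ≤ |a j - a' j| := by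
      by_cases hjk : j = k
      · subst hjk
        have hpow : (8:ℤ) * 2 ^ k₀ ≤ 2 ^ (k₁ + k₀) := by exact_mod_cast h88
        have h8' : (8:ℤ) ≤ 2 ^ k₀ := by exact_mod_cast h8
        have hd : be k₁ k₀ z j - al k₁ k₀ z j = 2 ^ (k₁ + k₀) - 2 * 2 ^ k₀ - 1 := by
          unfold be al; ring
        rcases h.1.1 with e1 | e1 <;> rcases h'.1.1 with e2 | e2
        · exact absurd (e1.trans e2.symm) hj
        · rw [e1, e2, abs_sub_comm]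
          exact le_trans (by omega) (le_abs_self _)
        · rw [e1, e2]
          exact le_trans (by omega) (le_abs_self _)
        · exact absurd (e1.trans e2.symm) hj
      · obtain ⟨h1, -⟩ := h.2 j hjk
        obtain ⟨h2, -⟩ := h'.2 j hjk
        have h3 : (2:ℤ) ^ k₀ ∣ |a j - a' j| := (dvd_abs _ _).2 (dvd_sub h1 h2)
        exact Int.le_of_dvd (abs_pos.2 (sub_ne_zero.2 hj)) h3
    have hbig' : (2:ℝ) ^ k₀ ≤ |(a j : ℝ) - a' j| := by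
      have h5 : ((2 ^ k₀ : ℤ) : ℝ) ≤ ((|a j - a' j| : ℤ) : ℝ) := Int.cast_le.2 hbig
      rw [Int.cast_abs] at h5
      push_cast at h5
      exact h5
    refine hmg.trans (le_trans ?_ (hx _ _ j))
    have e1 : (pt v (gN n₂ k₁ k₀) a + (1 / 2 / 2 ^ (gN n₂ k₁ k₀) : ℝ) • ev k) j -
        (pt v (gN n₂ k₁ k₀) a' + (1 / 2 / 2 ^ (gN n₂ k₁ k₀) : ℝ) • ev k) j =
        ((a j : ℝ) - a' j) * fm n₂ k₁ k₀ := by
      rw [Pi.add_apply, Pi.add_apply, pt_app, pt_app]; ring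
    rw [e1, abs_mul, abs_of_pos hf]
    exact mul_le_mul_of_nonneg_right hbig' hf.le
  · -- different directions
    refine le_trans ?_ (hx _ _ k)
    have h1 := mark_face (v := v) (n₂ := n₂) hk₁ hk₀ h.1
    have h2 := mark_mid (v := v) (n₂ := n₂) hkk h'
    rw [h1, mid_apply_ne hkk]
    have e1 := congrFun (bc_sub_bw v n₂ k₁ k₀ z) k
    have e2 := congrFun (bc_add_bw v n₂ k₁ k₀ z) k
    rw [Pi.sub_apply] at e1
    rw [Pi.add_apply] at e2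
    split_ifs
    · rw [one_mul]
      exact le_trans (by linarith [h2.2]) (le_abs_self _)
    · rw [neg_one_mul]
      refine le_trans ?_ (neg_abs_le _ |> neg_le.1)
      linarith [h2.1]

end P073.Cell
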