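import Vale.Agent.P073.GBM.Lattice

/-!
# P073, block GBM3: the crossed edges of a half-integer box form a pattern
-/

open Set Metric Topology Filter

namespace P073.GBM

open P073 P073.PR720 P073.GB73
open Vale.Agent.P073.St (V)
open Vale.Agent.P073.AB (pt edge squ EdgeOfSq)
open Vale.Agent.P073.SQ (ev)
open P073.Net (dyc)

/-! ### Combinatorics of `CrossZ` -/

section comb

variable {α β : Fin 3 → ℤ}

/-- two crossed lattice edges in a common square -/
def Adj (α β : Fin 3 → ℤ) (e e' : (Fin 3 → ℤ) × Fin 3) : Prop :=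
  CrossZ α β e.1 e.2 ∧ CrossZ α β e'.1 e'.2 ∧
    ∃ (n : ℕ) (z : Fin 3 → ℤ) (l : Fin 3), EdgeOfSq ((n, e.1), e.2) ((n, z), l) ∧
      EdgeOfSq ((n, e'.1), e'.2) ((n, z), l)

theorem Adj.symm {e e' : (Fin 3 → ℤ) × Fin 3} (h : Adj α β e e') : Adj α β e' e := by
  obtain ⟨h1, h2, n, z, l, h3, h4⟩ := h
  exact ⟨h2, h1, n, z, l, h4, h3⟩

/-- the third direction -/
theorem exists_third {k m : Fin 3} (h : k ≠ m) : ∃ l, l ≠ k ∧ l ≠ m ∧ ∀ j, j = k ∨ j = m ∨ j = l := by
  revert k m; decide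

theorem crossZ_top (hαβ : ∀ k, α k < β k) (k : Fin 3) : CrossZ α β β k :=
  ⟨Or.inr rfl, fun j _ => ⟨hαβ j, le_refl _⟩⟩

/-- moving along a side -/
theorem adj_step {w : Fin 3 → ℤ} {k m : Fin 3} (hmk : m ≠ k) (h : CrossZ α β w k)
    (hm : w m < β m) : CrossZ α β (Function.update w m (w m + 1)) k ∧
      Adj α β (w, k) (Function.update w m (w m + 1), k) := by
  have h1 : CrossZ α β (Function.update w m (w m + 1)) k := by
    refine ⟨by rw [Function.update_of_ne (Ne.symm hmk)]; exact h.1, fun j hj => ?_⟩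
    by_cases hjm : j = m
    · subst hjm
      rw [Function.update_self]
      have := h.2 j hj
      omega
    · rw [Function.update_of_ne hjm]; exact h.2 j hj
  obtain ⟨l, hl1, hl2, hl3⟩ := exists_third hmk
  refine ⟨h1, h, h1, 0, w, l, ⟨rfl, Ne.symm hl2, rfl, rfl, fun j _ _ => Or.inl rfl⟩,
    ⟨rfl, Ne.symm hl2, ?_, ?_, fun j hj1 hj2 => ?_⟩⟩
  · simp only [Function.update_of_ne (Ne.symm hmk)]
  · simp only [Function.update_of_ne hl1]
  · simp only at hj1 hj2 ⊢
    rcases hl3 j with h3 | h3 | h3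
    · subst h3; rw [Function.update_self]; exact Or.inr rfl
    · exact absurd h3 hj1
    · exact absurd h3 hj2

/-- turning around an edge of the box -/
theorem adj_turn {w : Fin 3 → ℤ} {k m : Fin 3} (hαβ : ∀ k, α k < β k) (hmk : m ≠ k)
    (h : CrossZ α β w k) (hk : w k = α k) (hm : w m = β m) :
    CrossZ α β (Function.update w k (w k + 1)) m ∧
      Adj α β (w, k) (Function.update w k (w k + 1), m) := by
  have h1 : CrossZ α β (Function.update w k (w k + 1)) m := by
    refine ⟨by rw [Function.update_of_ne hmk]; exact Or.inr hm, fun j hj => ?_⟩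
    by_cases hjk : j = k
    · subst hjk
      rw [Function.update_self, hk]
      have := hαβ j
      omega
    · rw [Function.update_of_ne hjk]; exact h.2 j hjk
  obtain ⟨l, hl1, hl2, hl3⟩ := exists_third hmk
  refine ⟨h1, h, h1, 0, w, l, ⟨rfl, Ne.symm hl2, rfl, rfl, fun j _ _ => Or.inl rfl⟩,
    ⟨rfl, Ne.symm hl1, ?_, ?_, fun j hj1 hj2 => ?_⟩⟩
  · simp only [Function.update_of_ne hmk]
  · simp only [Function.update_of_ne hl2]
  · simp only at hj1 hj2 ⊢
    rcases hl3 j with h3 | h3 | h3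
    · exact absurd h3 hj1
    · subst h3; rw [Function.update_self]; exact Or.inr rfl
    · exact absurd h3 hj2

/-- at the top corner -/
theorem adj_top (hαβ : ∀ k, α k < β k) {k m : Fin 3} (hmk : m ≠ k) : Adj α β (β, k) (β, m) := by
  obtain ⟨l, hl1, hl2, hl3⟩ := exists_third hmk
  exact ⟨crossZ_top hαβ k, crossZ_top hαβ m, 0, β, l,
    ⟨rfl, Ne.symm hl2, rfl, rfl, fun j _ _ => Or.inl rfl⟩,
    ⟨rfl, Ne.symm hl1, rfl, rfl, fun j _ _ => Or.inl rfl⟩⟩

theorem crossZ_le (hαβ : ∀ k, α k < β k) {w : Fin 3 → ℤ} {k : Fin 3} (h : CrossZ α β w k)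
    (j : Fin 3) : w j ≤ β j := by
  by_cases hj : j = k
  · subst hj
    rcases h.1 with h1 | h1
    · rw [h1]; exact (hαβ j).le
    · exact h1.le
  · exact (h.2 j hj).2

theorem conn_top (hαβ : ∀ k, α k < β k) (N : ℕ) : ∀ (w : Fin 3 → ℤ) (k : Fin 3), CrossZ α β w k →
    ∑ j, (β j - w j) = N → Relation.ReflTransGen (Adj α β) (w, k) (β, 0) := by
  induction N using Nat.strong_induction_on with
  | _ N ih =>
    intro w k h hN
    have hle := crossZ_le hαβ h
    have hsum : ∀ m, ∑ j, (β j - (Function.update w m (w m + 1)) j) = ∑ j, (β j - w j) - 1 := by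
      intro m
      have : ∀ j, β j - (Function.update w m (w m + 1)) j = (β j - w j) - (if j = m then 1 else 0) := by
        intro j
        by_cases hj : j = m
        · subst hj; rw [Function.update_self, if_pos rfl]; ring
        · rw [Function.update_of_ne hj, if_neg hj]; ring
      rw [Finset.sum_congr rfl (fun j _ => this j), Finset.sum_sub_distrib]
      simp
    have hpos : ∀ m, w m < β m → 1 ≤ ∑ j, (β j - w j) := by
      intro m hm
      have h1 : β m - w m ≤ ∑ j, (β j - w j) :=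
        Finset.single_le_sum (f := fun j => β j - w j) (fun j _ => sub_nonneg.2 (hle j))
          (Finset.mem_univ m)
      omega
    by_cases hA : ∃ m, m ≠ k ∧ w m < β m
    · obtain ⟨m, hmk, hm⟩ := hA
      obtain ⟨h1, h2⟩ := adj_step hmk h hm
      have h3 := hpos m hm
      refine Relation.ReflTransGen.head h2 (ih (N - 1) (by omega) _ _ h1 ?_)
      rw [hsum, hN]
      omega
    · push Not at hA
      have hA' : ∀ m, m ≠ k → w m = β m := fun m hm => le_antisymm (hle m) (hA m hm)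
      by_cases hk : w k = β k
      · have hw : w = β := by
          funext j
          by_cases hj : j = k
          · subst hj; exact hk
          · exact hA' j hj
        subst hw
        by_cases hk0 : k = 0
        · subst hk0; exact Relation.ReflTransGen.refl
        · exact Relation.ReflTransGen.single (adj_top hαβ (Ne.symm hk0))
      · have hk' : w k = α k := h.1.resolve_right hk
        obtain ⟨m, hm⟩ : ∃ m : Fin 3, m ≠ k := exists_ne k
        obtain ⟨h1, h2⟩ := adj_turn hαβ hm h hk' (hA' m hm)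
        have h3 := hpos k (by rw [hk']; exact hαβ k)
        refine Relation.ReflTransGen.head h2 (ih (N - 1) (by omega) _ _ h1 ?_)
        rw [hsum, hN]
        omega

theorem conn_all (hαβ : ∀ k, α k < β k) {w w' : Fin 3 → ℤ} {k k' : Fin 3}
    (h : CrossZ α β w k) (h' : CrossZ α β w' k') :
    Relation.ReflTransGen (Adj α β) (w, k) (w', k') := by
  have key : ∀ (w : Fin 3 → ℤ) (k : Fin 3), CrossZ α β w k →
      Relation.ReflTransGen (Adj α β) (w, k) (β, 0) := by
    intro w k h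
    have hnn : 0 ≤ ∑ j, (β j - w j) :=
      Finset.sum_nonneg fun j _ => sub_nonneg.2 (crossZ_le hαβ h j)
    exact conn_top hαβ (∑ j, (β j - w j)).toNat w k h (Int.toNat_of_nonneg hnn).symm
  have : Std.Symm (Adj α β) := ⟨fun _ _ h => h.symm⟩
  have hs : Std.Symm (Relation.ReflTransGen (Adj α β)) := Relation.ReflTransGen.stdSymm
  exact (key w k h).trans (hs.symm _ _ (key w' k' h'))

theorem finite_crossZ (hαβ : ∀ k, α k < β k) :
    {e : (Fin 3 → ℤ) × Fin 3 | CrossZ α β e.1 e.2}.Finite := by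
  have : {e : (Fin 3 → ℤ) × Fin 3 | CrossZ α β e.1 e.2} ⊆
      (Icc α β) ×ˢ (univ : Set (Fin 3)) := by
    rintro ⟨w, k⟩ h
    refine ⟨⟨fun j => ?_, fun j => crossZ_le hαβ h j⟩, mem_univ _⟩
    by_cases hj : j = k
    · subst hj
      rcases h.1 with h1 | h1
      · exact h1.ge
      · rw [h1]; exact (hαβ j).le
    · exact (h.2 j hj).1.le
  exact ((finite_Icc α β).prod finite_univ).subset this

/-- membership in the four edges of a square -/
theorem edgeOfSq_iff {n : ℕ} {z w : Fin 3 → ℤ} {l k m i : Fin 3} (hkm : k ≠ m) (hkl : k ≠ l)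
    (hml : m ≠ l) (hall : ∀ j, j = k ∨ j = m ∨ j = l) :
    EdgeOfSq ((n, w), i) ((n, z), l) ↔
      ((w, i) = (z, k) ∨ (w, i) = (Function.update z m (z m + 1), k)) ∨
      ((w, i) = (z, m) ∨ (w, i) = (Function.update z k (z k + 1), m)) := by
  have aux : ∀ {k m : Fin 3}, k ≠ m → k ≠ l → m ≠ l → (∀ j, j = k ∨ j = m ∨ j = l) →
      (EdgeOfSq ((n, w), k) ((n, z), l) ↔ w = z ∨ w = Function.update z m (z m + 1)) := by
    intro k m hkm hkl hml hall
    unfold EdgeOfSq
    simp only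
    constructor
    · rintro ⟨-, -, h1, h2, h3⟩
      rcases h3 m (Ne.symm hkm) hml with h | h
      · left
        funext j
        rcases hall j with rfl | rfl | rfl
        · exact h1
        · exact h
        · exact h2
      · right
        funext j
        rcases hall j with rfl | rfl | rfl
        · rw [Function.update_of_ne hkm]; exact h1
        · rw [Function.update_self]; exact h
        · rw [Function.update_of_ne (Ne.symm hml)]; exact h2
    · rintro (rfl | rfl)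
      · exact ⟨trivial, hkl, rfl, rfl, fun _ _ _ => Or.inl rfl⟩
      · refine ⟨trivial, hkl, ?_, ?_, fun j hj1 hj2 => ?_⟩
        · rw [Function.update_of_ne hkm]
        · rw [Function.update_of_ne (Ne.symm hml)]
        · rcases hall j with rfl | rfl | rfl
          · exact absurd rfl hj1
          · rw [Function.update_self]; exact Or.inr rfl
          · exact absurd rfl hj2
  constructor
  · intro h
    rcases hall i with rfl | rfl | rfl
    · left
      rcases (aux hkm hkl hml hall).1 h with h | h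
      · exact Or.inl (by rw [h])
      · exact Or.inr (by rw [h])
    · right
      rcases (aux (Ne.symm hkm) hml hkl (fun j => by
        rcases hall j with h | h | h
        · exact Or.inr (Or.inl h)
        · exact Or.inl h
        · exact Or.inr (Or.inr h))).1 h with h | h
      · exact Or.inl (by rw [h])
      · exact Or.inr (by rw [h])
    · exact absurd rfl h.2.1
  · have hall' : ∀ j, j = m ∨ j = k ∨ j = l := fun j => by
      rcases hall j with h | h | h
      · exact Or.inr (Or.inl h)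
      · exact Or.inl h
      · exact Or.inr (Or.inr h)
    rintro ((h | h) | (h | h))
    · obtain ⟨rfl, rfl⟩ := Prod.mk.inj h
      exact (aux hkm hkl hml hall).2 (Or.inl rfl)
    · obtain ⟨rfl, rfl⟩ := Prod.mk.inj h
      exact (aux hkm hkl hml hall).2 (Or.inr rfl)
    · obtain ⟨rfl, rfl⟩ := Prod.mk.inj h
      exact (aux (Ne.symm hkm) hml hkl hall').2 (Or.inl rfl)
    · obtain ⟨rfl, rfl⟩ := Prod.mk.inj h
      exact (aux (Ne.symm hkm) hml hkl hall').2 (Or.inr rfl)

theorem crossZ_iff {w : Fin 3 → ℤ} {k m l : Fin 3} (hkm : k ≠ m) (hkl : k ≠ l)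
    (hall : ∀ j, j = k ∨ j = m ∨ j = l) : CrossZ α β w k ↔
      (w k = α k ∨ w k = β k) ∧ (α m < w m ∧ w m ≤ β m) ∧ (α l < w l ∧ w l ≤ β l) := by
  constructor
  · rintro ⟨h1, h2⟩
    exact ⟨h1, h2 m (Ne.symm hkm), h2 l (Ne.symm hkl)⟩
  · rintro ⟨h1, h2, h3⟩
    refine ⟨h1, fun j hj => ?_⟩
    rcases hall j with rfl | rfl | rfl
    · exact absurd rfl hj
    · exact h2
    · exact h3

theorem arith_xor {a b t : ℤ} (h : a < b) :
    (t = a ∨ t = b) ↔ ¬ ((a < t ∧ t ≤ b) ↔ (a < t + 1 ∧ t + 1 ≤ b)) := by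
  constructor
  · rintro (h1 | h1) h2
    · have := h2.2 ⟨by omega, by omega⟩
      omega
    · have := h2.1 ⟨by omega, by omega⟩
      omega
  · intro h1
    by_contra h2
    apply h1
    constructor
    · intro h3; constructor <;> omega
    · intro h3; constructor <;> omega

theorem arith_two {a b s c d t : ℤ} (hab : a < b) (hcd : c < d) {Q P1 P2 P3 P4 : Prop}
    (a1 : P1 ↔ (s = a ∨ s = b) ∧ (c < t ∧ t ≤ d) ∧ Q)
    (a2 : P2 ↔ (s = a ∨ s = b) ∧ (c < t + 1 ∧ t + 1 ≤ d) ∧ Q)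
    (a3 : P3 ↔ (t = c ∨ t = d) ∧ (a < s ∧ s ≤ b) ∧ Q)
    (a4 : P4 ↔ (t = c ∨ t = d) ∧ (a < s + 1 ∧ s + 1 ≤ b) ∧ Q) :
    (¬P1 ∧ ¬P2 ∧ ¬P3 ∧ ¬P4) ∨ (P1 ∧ P2 ∧ ¬P3 ∧ ¬P4) ∨ (P3 ∧ P4 ∧ ¬P1 ∧ ¬P2) ∨
      (P1 ∧ P3 ∧ ¬P2 ∧ ¬P4) ∨ (P1 ∧ P4 ∧ ¬P2 ∧ ¬P3) ∨ (P2 ∧ P3 ∧ ¬P1 ∧ ¬P4) ∨
      (P2 ∧ P4 ∧ ¬P1 ∧ ¬P3) := by
  rw [arith_xor hab] at a1 a2
  rw [arith_xor hcd] at a3 a4
  rw [a1, a2, a3, a4]
  generalize (a < s ∧ s ≤ b) = A1
  generalize (a < s + 1 ∧ s + 1 ≤ b) = A2
  generalize (c < t ∧ t ≤ d) = A3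
  generalize (c < t + 1 ∧ t + 1 ≤ d) = A4
  by_cases h1 : A1 <;> by_cases h2 : A2 <;> by_cases h3 : A3 <;> by_cases h4 : A4 <;>
    by_cases h5 : Q <;> simp [h1, h2, h3, h4, h5]

/-- a square has none or two crossed edges -/
theorem two_crossed (hαβ : ∀ k, α k < β k) (n : ℕ) (z : Fin 3 → ℤ) (l : Fin 3) :
    {e : (Fin 3 → ℤ) × Fin 3 | CrossZ α β e.1 e.2 ∧ EdgeOfSq ((n, e.1), e.2) ((n, z), l)} = ∅ ∨
    ∃ e e', e ≠ e' ∧
      {e : (Fin 3 → ℤ) × Fin 3 | CrossZ α β e.1 e.2 ∧ EdgeOfSq ((n, e.1), e.2) ((n, z), l)} =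
        {e, e'} := by
  obtain ⟨k, m, hkm, hkl, hml, hall⟩ : ∃ k m : Fin 3, k ≠ m ∧ k ≠ l ∧ m ≠ l ∧
      ∀ j, j = k ∨ j = m ∨ j = l := by revert l; decide
  have hall' : ∀ j, j = m ∨ j = k ∨ j = l := fun j => by
    rcases hall j with h | h | h
    · exact Or.inr (Or.inl h)
    · exact Or.inl h
    · exact Or.inr (Or.inr h)
  set P1 := CrossZ α β z k with hP1
  set P2 := CrossZ α β (Function.update z m (z m + 1)) k with hP2
  set P3 := CrossZ α β z m with hP3
  set P4 := CrossZ α β (Function.update z k (z k + 1)) m with hP4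
  have hmem : ∀ e : (Fin 3 → ℤ) × Fin 3,
      (CrossZ α β e.1 e.2 ∧ EdgeOfSq ((n, e.1), e.2) ((n, z), l)) ↔
      ((e = (z, k) ∧ P1) ∨ (e = (Function.update z m (z m + 1), k) ∧ P2)) ∨
      ((e = (z, m) ∧ P3) ∨ (e = (Function.update z k (z k + 1), m) ∧ P4)) := by
    rintro ⟨w, i⟩
    rw [edgeOfSq_iff hkm hkl hml hall]
    constructor
    · rintro ⟨h1, (h2 | h2) | (h2 | h2)⟩
      · left; left; refine ⟨h2, ?_⟩
        obtain ⟨rfl, rfl⟩ := Prod.mk.inj h2; exact h1
      · left; right; refine ⟨h2, ?_⟩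
        obtain ⟨rfl, rfl⟩ := Prod.mk.inj h2; exact h1
      · right; left; refine ⟨h2, ?_⟩
        obtain ⟨rfl, rfl⟩ := Prod.mk.inj h2; exact h1
      · right; right; refine ⟨h2, ?_⟩
        obtain ⟨rfl, rfl⟩ := Prod.mk.inj h2; exact h1
    · rintro ((⟨h1, h2⟩ | ⟨h1, h2⟩) | (⟨h1, h2⟩ | ⟨h1, h2⟩)) <;>
        obtain ⟨rfl, rfl⟩ := Prod.mk.inj h1
      · exact ⟨h2, Or.inl (Or.inl rfl)⟩
      · exact ⟨h2, Or.inl (Or.inr rfl)⟩
      · exact ⟨h2, Or.inr (Or.inl rfl)⟩
      · exact ⟨h2, Or.inr (Or.inr rfl)⟩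
  have d12 : ((z, k) : (Fin 3 → ℤ) × Fin 3) ≠ (Function.update z m (z m + 1), k) := by
    intro h
    have := congrFun (Prod.mk.inj h).1 m
    rw [Function.update_self] at this
    omega
  have d34 : ((z, m) : (Fin 3 → ℤ) × Fin 3) ≠ (Function.update z k (z k + 1), m) := by
    intro h
    have := congrFun (Prod.mk.inj h).1 k
    rw [Function.update_self] at this
    omega
  have dkm : ∀ a b : Fin 3 → ℤ, ((a, k) : (Fin 3 → ℤ) × Fin 3) ≠ (b, m) := fun a b h =>
    hkm (Prod.mk.inj h).2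
  have key : (¬P1 ∧ ¬P2 ∧ ¬P3 ∧ ¬P4) ∨ (P1 ∧ P2 ∧ ¬P3 ∧ ¬P4) ∨ (P3 ∧ P4 ∧ ¬P1 ∧ ¬P2) ∨
      (P1 ∧ P3 ∧ ¬P2 ∧ ¬P4) ∨ (P1 ∧ P4 ∧ ¬P2 ∧ ¬P3) ∨ (P2 ∧ P3 ∧ ¬P1 ∧ ¬P4) ∨
      (P2 ∧ P4 ∧ ¬P1 ∧ ¬P3) := by
    have a1 := crossZ_iff (α := α) (β := β) (w := z) hkm hkl hall
    have a2 := crossZ_iff (α := α) (β := β) (w := Function.update z m (z m + 1)) hkm hkl hall
    have a3 := crossZ_iff (α := α) (β := β) (w := z) (Ne.symm hkm) hml hall'
    have a4 := crossZ_iff (α := α) (β := β) (w := Function.update z k (z k + 1)) (Ne.symm hkm)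
      hml hall'
    rw [Function.update_self, Function.update_of_ne hkm, Function.update_of_ne (Ne.symm hml)] at a2
    rw [Function.update_self, Function.update_of_ne (Ne.symm hkm),
      Function.update_of_ne (Ne.symm hkl)] at a4
    rw [← hP1] at a1
    rw [← hP2] at a2
    rw [← hP3] at a3
    rw [← hP4] at a4
    exact arith_two (hαβ k) (hαβ m) a1 a2 a3 a4
  rcases key with ⟨h1, h2, h3, h4⟩ | ⟨h1, h2, h3, h4⟩ | ⟨h1, h2, h3, h4⟩ | ⟨h1, h2, h3, h4⟩ |
    ⟨h1, h2, h3, h4⟩ | ⟨h1, h2, h3, h4⟩ | ⟨h1, h2, h3, h4⟩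
  · left
    ext e
    simp only [mem_ofPred_eq, hmem, h1, h2, h3, h4, and_false, or_false, mem_empty_iff_false]
  · right
    refine ⟨_, _, d12, ?_⟩
    ext e
    simp only [mem_ofPred_eq, hmem, h1, h2, h3, h4, and_false, and_true, or_false, mem_insert_iff,
      mem_singleton_iff]
  · right
    refine ⟨_, _, d34, ?_⟩
    ext e
    simp only [mem_ofPred_eq, hmem, h1, h2, h3, h4, and_false, and_true, false_or, mem_insert_iff,
      mem_singleton_iff]
  · right
    refine ⟨_, _, dkm z z, ?_⟩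
    ext e
    simp only [mem_ofPred_eq, hmem, h1, h2, h3, h4, and_false, and_true, or_false, mem_insert_iff,
      mem_singleton_iff]
  · right
    refine ⟨_, _, dkm z (Function.update z k (z k + 1)), ?_⟩
    ext e
    simp only [mem_ofPred_eq, hmem, h1, h2, h3, h4, and_false, and_true, or_false, false_or,
      mem_insert_iff, mem_singleton_iff]
  · right
    refine ⟨_, _, dkm (Function.update z m (z m + 1)) z, ?_⟩
    ext e
    simp only [mem_ofPred_eq, hmem, h1, h2, h3, h4, and_false, and_true, or_false, false_or,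
      mem_insert_iff, mem_singleton_iff]
  · right
    refine ⟨_, _, dkm (Function.update z m (z m + 1)) (Function.update z k (z k + 1)), ?_⟩
    ext e
    simp only [mem_ofPred_eq, hmem, h1, h2, h3, h4, and_false, and_true, or_false, false_or,
      mem_insert_iff, mem_singleton_iff]

end comb

end P073.GBM
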