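import Vale.Agent.P073.GBM.Lev865
import Vale.Agent.P073.GBM.Sep

/-!
# P073, block SpecCell: `SpecS2` (separation of a face body and the big body)
-/

open Set Metric Topology Filter MeasureTheory
open scoped ENNReal NNReal

namespace P073.Cell

open P073 P073.PR720 P073.GB73 P073.GBM P073.Gauge P073.GB1W
open Vale.Agent.P073.St (V)
open Vale.Agent.P073.AB
open Vale.Agent.P073.SQ (ev)
open P073.Net (dyc dyo)

namespace Lev

variable {o c w c' w' : V} {A : V ≃L[ℝ] V} {T T' : Set ℝ} {t s : ℝ}

/-- the body at level `t`, as an affine image of a box -/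
theorem at_box (ht : 0 < t) : (bBody (o + A c) A w T).at t =
    aff o A '' Icc (fun k => c k - t * w k) (fun k => c k + t * w k) := by
  ext y
  rw [mem_at ht, Homeomorph.image_eq_preimage_symm, mem_preimage, aff_symm, symm_sub]
  constructor
  · intro h
    refine ⟨fun k => ?_, fun k => ?_⟩
    · have := (abs_le.1 (h k)).1
      rw [Pi.sub_apply] at this
      show c k - t * w k ≤ _
      linarith
    · have := (abs_le.1 (h k)).2
      rw [Pi.sub_apply] at this
      show _ ≤ c k + t * w k
      linarith
  · rintro ⟨h1, h2⟩ k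
    have a1 : c k - t * w k ≤ A.symm (y - o) k := h1 k
    have a2 : A.symm (y - o) k ≤ c k + t * w k := h2 k
    rw [Pi.sub_apply, abs_le]
    constructor <;> linarith

/-- separation of two bodies, from `specSep` -/
theorem sep_bodies (hs : 0 < s) (ht : 0 < t) (hw : ∀ k, 0 < w k)
    (h : (∀ k, c k - s * w k < c' k - t * w' k ∧ c' k + t * w' k < c k + s * w k) ∨
      ∃ i, (c' i - t * w' i < c i - s * w i ∧ c' i + t * w' i < c i + s * w i) ∨
        (c i - s * w i < c' i - t * w' i ∧ c i + s * w i < c' i + t * w' i)) :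
    IsPreconnected (frontier ((bBody (o + A c) A w T).at s) \
      interior ((bBody (o + A c') A w' T').at t)) := by
  rw [at_box hs, at_box ht, ← Homeomorph.image_frontier, ← Homeomorph.image_interior,
    ← image_sdiff (aff o A).injective]
  refine IsPreconnected.image (specSep _ _ _ _ (fun k => ?_) h).2 _ (aff o A).continuous.continuousOn
  have := mul_pos hs (hw k)
  show c k - s * w k < c k + s * w k
  linarith

end Lev

open Lev

/-- **(S2)** -/
theorem specS2 : SpecS2 := by
  intro Vx B J I e0 e1 inc qC Ω K Λ h v N q0 q1 o A μ η hK α β w a l k T T0 y0 hab ha hsq hT hT0 hfr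
    hy t ht s hs
  have hE : (0:ℝ) < 2 ^ N := by positivity
  have hαβ : ∀ j, α j < β j := fun j => by have := hab j; omega
  obtain ⟨ht1, ht2⟩ := hT ht
  have ht0 : 0 < t := by linarith
  obtain ⟨hs0, hs1⟩ := hT0 s hs
  -- combinatorics of the square
  have hkl : k ≠ l := by
    have := edge_subset_squ.1 hsq
    exact this.2.1
  have hwk : a k = w k := by
    have := edge_subset_squ.1 hsq
    exact this.2.2.1
  -- sizes in the direction `k`
  have hD : (8:ℝ) ≤ (β k : ℝ) - α k := by
    have : (α k : ℝ) + 8 ≤ β k := by exact_mod_cast hab k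
    linarith
  have hsD := hs1 k
  have hsD' : |(s - 1) * ((β k : ℝ) - α k)| ≤ 1 / 4 := by
    rw [abs_mul, abs_of_pos (show (0:ℝ) < (β k : ℝ) - α k by linarith)]; exact hsD
  obtain ⟨d1, d2⟩ := abs_le.1 hsD'
  have hcmp : ∀ X Y : ℝ, X < Y → v k + X / 2 ^ N < v k + Y / 2 ^ N := fun X Y h => by
    rw [add_lt_add_iff_left, div_lt_div_iff_of_pos_right hE]; exact h
  have e1 : bc v N α β k - s * bw N α β k =
      v k + ((α k + β k + 1) / 2 - s * (β k - α k) / 2 : ℝ) / 2 ^ N := by
    simp only [bc, bw]; ring
  have e2 : bc v N α β k + s * bw N α β k =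
      v k + ((α k + β k + 1) / 2 + s * (β k - α k) / 2 : ℝ) / 2 ^ N := by
    simp only [bc, bw]; ring
  have e3 : sc v N w l k - t * fw N k = v k + (w k + 1 / 2 - t * (9 / 4) : ℝ) / 2 ^ N := by
    simp only [sc, fw, if_neg hkl]; ring
  have e4 : sc v N w l k + t * fw N k = v k + (w k + 1 / 2 + t * (9 / 4) : ℝ) / 2 ^ N := by
    simp only [sc, fw, if_neg hkl]; ring
  have hbw : ∀ j, 0 < bw N α β j := fun j => by
    have h1 : (α j : ℝ) + 8 ≤ β j := by exact_mod_cast hab j
    have h2 : (0:ℝ) < (β j : ℝ) - α j := by linarith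
    simp only [bw]; positivity
  constructor
  · unfold bigBody fBody
    refine sep_bodies hs0 ht0 hbw (Or.inr ⟨k, ?_⟩)
    rw [e1, e2, e3, e4]
    rcases ha.1 with hk | hk
    · left
      have hw' : (w k : ℝ) = α k := by rw [← hwk, hk]
      rw [hw']
      constructor <;> apply hcmp <;> nlinarith
    · right
      have hw' : (w k : ℝ) = β k := by rw [← hwk, hk]
      rw [hw']
      constructor <;> apply hcmp <;> nlinarith
  · -- the crossing point on the opposite face
    set a' : Fin 3 → ℤ := Function.update a k (if a k = α k then β k else α k) with ha'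
    have ha'k : a' k = if a k = α k then β k else α k := by rw [ha', Function.update_self]
    have hc' : CrossZ α β a' k := by
      refine ⟨?_, fun j hj => ?_⟩
      · rw [ha'k]; split_ifs
        · exact Or.inr rfl
        · exact Or.inl rfl
      · rw [ha', Function.update_of_ne hj]; exact ha.2 j hj
    obtain ⟨b, hb⟩ := hK.lat.exists_arc hαβ hfr hc'
    refine ⟨b, (hK.lat.mem_crossed hαβ hfr b).2 ⟨a', k, hb, hc'⟩, ?_⟩
    obtain ⟨-, hpos, -⟩ := hy s hs b a' k hb hc'
    unfold fBody
    rw [mem_interior_at ht0]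
    intro hint
    have h1 := hint k
    rw [symm_sub, Pi.sub_apply, hpos, abs_lt] at h1
    obtain ⟨h2, h3⟩ := h1
    rcases ha.1 with hk | hk
    · have hw' : (w k : ℝ) = α k := by rw [← hwk, hk]
      rw [ha'k, if_pos hk, if_pos rfl] at h3
      have h4 : bc v N α β k + s * bw N α β k < sc v N w l k + t * fw N k := by linarith
      rw [e2, e4, hw'] at h4
      have := hcmp (α k + 1 / 2 + t * (9 / 4) : ℝ) ((α k + β k + 1) / 2 + s * (β k - α k) / 2)
        (by nlinarith)
      linarith
    · have hw' : (w k : ℝ) = β k := by rw [← hwk, hk]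
      have hne : a k ≠ α k := by rw [hk]; exact (hαβ k).ne'
      have hne' : α k ≠ β k := (hαβ k).ne
      rw [ha'k, if_neg hne, if_neg hne'] at h2
      have h4 : sc v N w l k - t * fw N k < bc v N α β k - s * bw N α β k := by linarith
      rw [e1, e3, hw'] at h4
      have := hcmp ((α k + β k + 1) / 2 - s * (β k - α k) / 2 : ℝ) (β k + 1 / 2 - t * (9 / 4))
        (by nlinarith)
      linarith

end P073.Cell
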