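import Vale.Agent.P073.GBM.Mod580
import Vale.Agent.P073.GBM.Sep

/-!
# P073, block SpecCell, part S3: the `W` sets
-/

open Set Metric Topology Filter MeasureTheory
open scoped ENNReal NNReal

namespace P073.Cell

open P073 P073.PR720 P073.GB73 P073.GBM P073.Gauge P073.GB1W
open Vale.Agent.P073.St (V)
open Vale.Agent.P073.AB
open Vale.Agent.P073.SQ (ev)
open P073.Net (dyc dyo)

variable {Vx B J I : Type} {e0 e1 : B → Vx} {inc : B → J → Prop} {qC : J → I → Prop} {Ω : Set V}

/-- membership in the `W` set -/
theorem mem_Wset {v : V} {N : ℕ} {o : V} {A : V ≃L[ℝ] V} {z : Fin 3 → ℤ} {y : V} :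
    y ∈ Wset v N o A z ↔ ∀ k, |A.symm (y - o) k - cc v N z k| ≤ 3 / 2 ^ N := by
  rw [Wset, Homeomorph.image_eq_preimage_symm, mem_preimage, aff_symm]
  simp only [mem_Icc, Pi.le_def, abs_le]
  constructor
  · rintro ⟨h1, h2⟩ k
    exact ⟨by linarith [h1 k], by linarith [h2 k]⟩
  · intro h
    exact ⟨fun k => by linarith [(h k).1], fun k => by linarith [(h k).2]⟩

/-- the boundary of a box body in affine coordinates -/
theorem frontier_bBody {o : V} {A : V ≃L[ℝ] V} {c w : V} {T : Set ℝ} {t : ℝ} (ht : 0 < t) :
    frontier ((bBody (o + A c) A w T).at t) =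
      aff o A '' frontier (Icc (fun k => c k - t * w k) (fun k => c k + t * w k)) := by
  rw [(aff o A).image_frontier]
  congr 1
  ext y
  rw [mem_at ht, Homeomorph.image_eq_preimage_symm, mem_preimage, aff_symm]
  have hs : A.symm (y - (o + A c)) = A.symm (y - o) - c := by
    rw [← sub_sub, map_sub, ContinuousLinearEquiv.symm_apply_apply]
  simp only [hs, mem_Icc, Pi.le_def, abs_le, Pi.sub_apply]
  constructor
  · intro h
    exact ⟨fun k => by linarith [(h k).1], fun k => by linarith [(h k).2]⟩
  · rintro ⟨h1, h2⟩ k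
    exact ⟨by linarith [h1 k], by linarith [h2 k]⟩

theorem bc_bw {v : V} {N : ℕ} {α β : Fin 3 → ℤ} (k : Fin 3) :
    bc v N α β k - bw N α β k = v k + (α k + 1 / 2) / 2 ^ N ∧
      bc v N α β k + bw N α β k = v k + (β k + 1 / 2) / 2 ^ N := by
  constructor <;> · unfold bc bw; ring

/-- **(S3)** -/
theorem specS3 : SpecS3 := by
  intro Vx B J I e0 e1 inc qC Ω K Λ h v N q0 q1 o A μ η HN α β z' T0 y0 hαβ hT hfr hpos hne
  set ℓ : ℝ := 1 / 2 ^ N with hℓ
  have hℓ0 : 0 < ℓ := by rw [hℓ]; positivity
  have hdiv : ∀ x : ℝ, x / 2 ^ N = x * ℓ := fun x => by rw [hℓ, mul_one_div]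
  have hαβ' : ∀ k, α k < β k := fun k => by have := hαβ k; omega
  -- points of the cell
  have hcell : ∀ x ∈ dyc v N z', ∀ k, |x k - cc v N z' k| ≤ 1 / 2 * ℓ := by
    intro x hx k
    obtain ⟨h1, h2⟩ := hx k
    rw [hdiv] at h1 h2
    unfold cc
    rw [hdiv, abs_le]
    constructor <;> linarith
  refine ⟨?_, ?_, ?_⟩
  · -- face bodies
    intro w l hsq T hT' t ht y hy
    have ht0 : 0 < t := by have := (hT' ht).1; linarith
    rw [fBody, mem_at ht0] at hy
    have hs : A.symm (y - (o + A (sc v N w l))) = A.symm (y - o) - sc v N w l := by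
      rw [← sub_sub, map_sub, ContinuousLinearEquiv.symm_apply_apply]
    rw [mem_Wset]
    intro k
    have h1 := hy k
    rw [hs, Pi.sub_apply] at h1
    have h2 : sc v N w l ∈ dyc v N z' := by
      apply hsq
      refine ⟨?_, fun k hk => ?_⟩
      · unfold sc; rw [if_pos rfl, add_zero]
      · unfold sc
        rw [if_neg hk, hdiv, hdiv, hdiv]
        constructor <;> nlinarith
    have h3 := hcell _ h2 k
    have h4 : t * fw N k ≤ 37 / 16 * ℓ := by
      have e1 : fw N k = 9 / 4 * ℓ := by unfold fw; rw [hdiv]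
      rw [e1]
      have := (hT' ht).2
      nlinarith
    have e2 : A.symm (y - o) k - cc v N z' k =
        (A.symm (y - o) k - sc v N w l k) + (sc v N w l k - cc v N z' k) := by ring
    rw [e2, hdiv]
    refine (abs_add_le _ _).trans ?_
    nlinarith
  · -- the big body
    intro t ht
    obtain ⟨ht0, ht1⟩ := hT t ht
    set c := bc v N α β with hc
    set w := bw N α β with hw
    have htw : ∀ k, |t * w k - w k| ≤ 1 / 8 * ℓ := by
      intro k
      have h1 := ht1 k
      have e1 : t * w k - w k = (t - 1) * w k := by ring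
      have h3 : (0:ℝ) ≤ β k - α k := by
        have : (α k : ℝ) + 8 ≤ β k := by exact_mod_cast hαβ k
        linarith
      have e2 : w k = (β k - α k) / 2 * ℓ := by rw [hw]; unfold bw; rw [hdiv]
      have h2 : 0 ≤ w k := by rw [e2]; positivity
      rw [e1, abs_mul, abs_of_nonneg h2, e2]
      have e3 : |t - 1| * ((β k - α k) / 2 * ℓ) = |t - 1| * (β k - α k) * (ℓ / 2) := by ring
      rw [e3]
      calc _ ≤ 1 / 4 * (ℓ / 2) := mul_le_mul_of_nonneg_right h1 (by positivity)
        _ = _ := by ring
    have hcw : ∀ k, c k - w k = v k + (α k + 1 / 2) * ℓ ∧ c k + w k = v k + (β k + 1 / 2) * ℓ := by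
      intro k
      have := bc_bw (v := v) (N := N) (α := α) (β := β) k
      rw [hdiv, hdiv] at this
      exact this
    have hsz : ∀ k, (α k : ℝ) + 8 ≤ β k := fun k => by exact_mod_cast hαβ k
    have hab : ∀ k, c k - t * w k < c k + t * w k := by
      intro k
      have h1 := hcw k
      have h2 := abs_le.1 (htw k)
      nlinarith [hsz k]
    -- the face which the cell meets
    obtain ⟨x, hx1, hx2⟩ := hne
    rw [mem_frontier_hbox] at hx2
    obtain ⟨-, i, hi⟩ := hx2
    have hzi : z' i = α i ∨ z' i = β i := by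
      obtain ⟨h1, h2⟩ := hx1 i
      have key : ∀ γ : Fin 3 → ℤ, x i = hp v N γ i → z' i = γ i := by
        intro γ hγ
        rw [hγ] at h1 h2
        unfold hp at h1 h2
        rw [hdiv, hdiv] at h1 h2
        have h3 : (z' i : ℝ) ≤ γ i + 1 / 2 := by
          by_contra hcon
          push Not at hcon
          have := mul_lt_mul_of_pos_right hcon hℓ0
          linarith
        have h4 : (γ i : ℝ) + 1 / 2 ≤ z' i + 1 := by
          by_contra hcon
          push Not at hcon
          have := mul_lt_mul_of_pos_right hcon hℓ0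
          linarith
        have h5 : (z' i : ℝ) < γ i + 1 := by linarith
        have h6 : (γ i : ℝ) < z' i + 1 := by linarith
        have h5' : z' i < γ i + 1 := by exact_mod_cast h5
        have h6' : γ i < z' i + 1 := by exact_mod_cast h6
        omega
      rcases hi with e | e
      · exact Or.inl (key α e)
      · exact Or.inr (key β e)
    have hcci : cc v N z' i = v i + (z' i + 1 / 2) * ℓ := by unfold cc; rw [hdiv]
    have hbody : (bigBody v N o A α β T0) = bBody (o + A c) A w T0 := rfl
    constructor
    · -- connectedness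
      have hW : Wset v N o A z' = aff o A '' Icc (fun k => cc v N z' k - 3 / 2 ^ N)
        (fun k => cc v N z' k + 3 / 2 ^ N) := rfl
      rw [hbody, frontier_bBody ht0, hW, ← image_sdiff (aff o A).injective]
      refine IsPreconnected.image ?_ _ (aff o A).continuous.continuousOn
      refine (specSep _ _ _ _ hab (Or.inr ⟨i, ?_⟩)).1
      have h1 := hcw i
      have h2 := abs_le.1 (htw i)
      have h3 := hsz i
      show (cc v N z' i - 3 / 2 ^ N < c i - t * w i ∧ cc v N z' i + 3 / 2 ^ N < c i + t * w i) ∨
        (c i - t * w i < cc v N z' i - 3 / 2 ^ N ∧ c i + t * w i < cc v N z' i + 3 / 2 ^ N)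
      rw [hcci, hdiv]
      rcases hzi with e | e
      · left
        rw [e]
        constructor <;> nlinarith
      · right
        rw [e]
        constructor <;> nlinarith
    · -- a crossing outside
      -- the opposite face
      have key : ∀ a : Fin 3 → ℤ, CrossZ α β a i → (a i = β i ∧ z' i = α i) ∨
          (a i = α i ∧ z' i = β i) →
          ∃ b a k, K.arc b = edge v ((N, a), k) ∧ CrossZ α β a k ∧ mid v N a k ∉ dyc v N z' ∧
            y0 t b ∉ Wset v N o A z' := by
        intro a hcr hcase
        obtain ⟨b, hb⟩ := HN.lat.exists_arc hαβ' hfr hcr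
        obtain ⟨-, hyk, -⟩ := hpos t ht b a i hb hcr
        refine ⟨b, a, i, hb, hcr, ?_, ?_⟩
        · intro hmid
          have h1 := hcell _ hmid i
          have e1 : mid v N a i i = v i + (a i + 1 / 2) * ℓ := by
            unfold mid; rw [mid_apply_self, hdiv]
          rw [e1, hcci] at h1
          have h2 := abs_le.1 h1
          have h3 := hsz i
          rcases hcase with ⟨e2, e3⟩ | ⟨e2, e3⟩
          · rw [e2, e3] at h2; nlinarith [h2.2]
          · rw [e2, e3] at h2; nlinarith [h2.1]
        · rw [mem_Wset]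
          intro hall
          have h1 := hall i
          rw [hyk, hcci, hdiv] at h1
          have h2 := abs_le.1 h1
          have h3 := hsz i
          have h4 := hcw i
          have h5 := abs_le.1 (htw i)
          rcases hcase with ⟨e2, e3⟩ | ⟨e2, e3⟩
          · rw [if_pos e2, e3] at h2; nlinarith [h2.2]
          · have hne : a i ≠ β i := by rw [e2]; exact (hαβ' i).ne
            rw [if_neg hne, e3] at h2; nlinarith [h2.1]
      rcases hzi with e | e
      · exact key β ⟨Or.inr rfl, fun j _ => ⟨hαβ' j, le_rfl⟩⟩ (Or.inl ⟨rfl, e⟩)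
      · refine key (Function.update β i (α i)) ⟨Or.inl (Function.update_self _ _ _), fun j hj => ?_⟩
          (Or.inr ⟨Function.update_self _ _ _, e⟩)
        rw [Function.update_of_ne hj]
        exact ⟨hαβ' j, le_rfl⟩
  · intro x hx y hy
    rw [mem_Wset] at hy
    refine (pi_norm_le_iff_of_nonneg (by positivity)).2 fun k => ?_
    rw [Pi.sub_apply, Real.norm_eq_abs]
    have h1 := hy k
    have h2 := hcell x hx k
    have e1 : A.symm (y - o) k - x k = (A.symm (y - o) k - cc v N z' k) - (x k - cc v N z' k) := by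
      ring
    rw [e1, hdiv]
    rw [hdiv] at h1
    refine (abs_sub _ _).trans ?_
    linarith

end P073.Cell
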