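import Vale.Agent.P073.AB.Spec
import Vale.Agent.P073.GB73.Spec

/-!
# P073, block GBM3: model facts for the cubical lattice (rank 3), definitions and Props

Coding of the lattice cells as in AB/Spec.lean: vertices `pt v n z`, edges `edge v ((n, z), k)`
(direction `k`), squares `squ v ((n, z), k)` (normal `k`), cubes `dyc v n z`.
-/

open Set Metric Topology Filter

namespace P073.GBM

open P073 P073.PR720 P073.GB73
open Vale.Agent.P073.St (V)
open Vale.Agent.P073.AB (pt edge squ)
open P073.Net (dyc)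

variable {Vx B J I : Type} {e0 e1 : B → Vx} {inc : B → J → Prop} {qC : J → I → Prop} {Ω : Set V}

/-- Inside the open set `U` the complex `K` is the dyadic lattice of generation `n`. -/
structure Lat (K : Cx3 e0 e1 inc qC Ω) (v : V) (n : ℕ) (U : Set V) : Prop where
  opn : IsOpen U
  sub : U ⊆ Ω
  arc : ∀ b, (K.arc b ∩ U).Nonempty → ∃ z k, K.arc b = edge v ((n, z), k)
  arc' : ∀ z k, (edge v ((n, z), k) ∩ U).Nonempty → ∃ b, K.arc b = edge v ((n, z), k)
  tile : ∀ j, (K.tile j ∩ U).Nonempty → ∃ z k, K.tile j = squ v ((n, z), k)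
  tile' : ∀ z k, (squ v ((n, z), k) ∩ U).Nonempty → ∃ j, K.tile j = squ v ((n, z), k)
  cell : ∀ c, (K.cell c ∩ U).Nonempty → ∃ z, K.cell c = dyc v n z
  cell' : ∀ z, (dyc v n z ∩ U).Nonempty → ∃ c, K.cell c = dyc v n z

/-- lower corner of the half-integer box -/
noncomputable def hp (v : V) (n : ℕ) (α : Fin 3 → ℤ) : V := fun k => v k + (α k + 1 / 2) / 2 ^ n

/-- the box with faces at half-integer positions; the lattice points in it are the `z` with
`α k < z k ≤ β k` for all `k` -/
def hbox (v : V) (n : ℕ) (α β : Fin 3 → ℤ) : Set V := Icc (hp v n α) (hp v n β)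

/-- the edges of `K` which meet the boundary of `R` -/
def crossed (K : Cx3 e0 e1 inc qC Ω) (R : Set V) : Set B := {b | (K.arc b ∩ frontier R).Nonempty}

/-- `b` is the edge of `K` which crosses the boundary of `hbox v n α β` at `hp`-position: direction
`k`, lower end `z`. -/
def CrossZ (α β z : Fin 3 → ℤ) (k : Fin 3) : Prop :=
  (z k = α k ∨ z k = β k) ∧ ∀ j, j ≠ k → α j < z j ∧ z j ≤ β j

/-- (GBM-b) the crossed edges form a pattern -/
def SpecPat : Prop :=
  ∀ (Vx B J I : Type) (e0 e1 : B → Vx) (inc : B → J → Prop) (qC : J → I → Prop) (Ω : Set V)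
    (K : Cx3 e0 e1 inc qC Ω) (v : V) (n : ℕ) (U : Set V), Lat K v n U →
  ∀ α β : Fin 3 → ℤ, (∀ k, α k < β k) → frontier (hbox v n α β) ⊆ U →
    Pat inc (crossed K (hbox v n α β)) ∧
    ∀ b, b ∈ crossed K (hbox v n α β) ↔ ∃ z k, K.arc b = edge v ((n, z), k) ∧ CrossZ α β z k

/-- the point where the edge `b` crosses the boundary -/
def IsCut (K : Cx3 e0 e1 inc qC Ω) (v : V) (n : ℕ) (α β : Fin 3 → ℤ) (p : B → V) : Prop :=
  ∀ b z k, K.arc b = edge v ((n, z), k) → CrossZ α β z k →
    p b = pt v n z + (1 / 2 / 2 ^ n : ℝ) • Vale.Agent.P073.SQ.ev k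

/-- (GBM-d) the half-integer box cuts the complex along its pattern (helper371) -/
def SpecDomCut : Prop :=
  ∀ (Vx B J I : Type) (e0 e1 : B → Vx) (inc : B → J → Prop) (qC : J → I → Prop) (Ω : Set V)
    (K : Cx3 e0 e1 inc qC Ω) (v : V) (n : ℕ) (U : Set V), Lat K v n U →
  ∀ α β : Fin 3 → ℤ, (∀ k, α k < β k) → hbox v n α β ⊆ Ω → frontier (hbox v n α β) ⊆ U →
  ∀ p : B → V, IsCut K v n α β p →
    DomCut K (hbox v n α β) (crossed K (hbox v n α β)) p

/-- (GBM-c) separation: if in one coordinate the open box `(a', b')` contains at most one end of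
the interval `[a, b]`, then the part of the boundary of `[a, b]` outside `(a', b')` is
connected. -/
def SpecSep : Prop :=
  ∀ a b a' b' : V, (∀ k, a k < b k) →
    ((∀ k, a k < a' k ∧ b' k < b k) ∨ ∃ i, (a' i < a i ∧ b' i < b i) ∨ (a i < a' i ∧ b i < b' i)) →
    IsPreconnected (frontier (Icc a b) \ Icc a' b') ∧
    IsPreconnected (frontier (Icc a b) \ interior (Icc a' b'))

end P073.GBM
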